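import Vale.Agent.Lib.P028.E.Conc

/-!
# P028 E: existence of leaves (greedy procedure)

Proof of `leaf_exists`.  Take `p0` from `conc`.  Let `U` = (primes `< p1`) ∪ (primes dividing some
element of `V ∪ W`), a finite set, and let `n` be larger than all valuations `v.factorization p`,
`v ∈ V ∪ W`, `p ∈ U`.  A *state* is `(V1, W1, P, a, b)` with `P ⊆ U`, `V1 ⊆ V`, `W1 ⊆ W`,
`partP P v = a` on `V1`, `partP P w = b` on `W1`, `eW V1 W1 > 0` and
`eW V W (m V1 m W1)^θ ≤ 7^(#{p ∈ P : p < p1}) eW V1 W1 (rab a b)^ρ (m V m W)^θ`.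
Start with `(V, W, ∅, 1, 1)`.  Induct on `#(U \ P)`.  If some `p ∈ U \ P` and `i, j < n` satisfy
`0 < e_ij` and `eW V1 W1 * Kp p i j * (x_i y_j)^θ ≤ c_p e_ij`, where
`e_ij = eW (vfil V1 p i) (vfil W1 p j)`, `x_i = ms (vfil V1 p i)/ms V1`, `y_j` the same,
`c_p = 7` if `p < p1`, `c_p = 1` otherwise, then pass to the state
`(vfil V1 p i, vfil W1 p j, insert p P, a p^i, b p^j)`: `rab (a p^i) (b p^j) = rab a b * p^(ds i j)`
(as `p ∤ a, b`), `Kp p i j = (p^(ds i j))^(-ρ)`; multiply the two inequalities.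
Otherwise the state is final: for all `p ∈ U \ P` and all `i, j`,
`c_p e_ij ≤ eW V1 W1 * Kp p i j * (x_i y_j)^θ` (trivial if `e_ij = 0`; for `i ≥ n` or `j ≥ n`
the filters are empty).  Summing over `i, j < n`, `c_p ≤ ∑ Kp (x_i y_j)^θ`.
If `p < p1` this gives `7 ≤ 6` by `kern_le`; so all primes `< p1` are in `P`.  If `p ≥ p1 ≥ p0`
then `conc` gives `k_p` with `x_(k_p), y_(k_p) ≥ 1 - p^(-397/400)`.  Put
`N = ∏_{p ∈ U \ P} p^(k_p)`.  For a prime `p ∉ U`: every valuation is `0 = N.factorization p`,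
`vfil V1 p 0 = V1`, so everything is trivial (`Kp p 0 0 = 1`, `0^θ = 0`).
-/

open Finset

namespace Vale.Agent.P028E

theorem lx_partP_pos (P : Finset ℕ) (hP : ∀ p ∈ P, p.Prime) (n : ℕ) : 0 < partP P n := by
  unfold partP
  exact Finset.prod_pos (fun p hp => pow_pos (hP p hp).pos _)

theorem lx_not_dvd (P : Finset ℕ) (hP : ∀ p ∈ P, p.Prime) (p : ℕ) (hp : p.Prime)
    (hpP : p ∉ P) (n : ℕ) : ¬ p ∣ partP P n := by
  unfold partP
  intro h
  rw [Prime.dvd_finsetProd_iff hp.prime] at h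
  obtain ⟨q, hq, h2⟩ := h
  have h3 := hp.dvd_of_dvd_pow h2
  rw [Nat.prime_dvd_prime_iff_eq hp (hP q hq)] at h3
  subst h3
  exact hpP hq

theorem lx_partP_insert (P : Finset ℕ) (p : ℕ) (hpP : p ∉ P) (n : ℕ) :
    partP (insert p P) n = partP P n * p ^ (n.factorization p) := by
  unfold partP
  rw [Finset.prod_insert hpP, mul_comm]

theorem lx_rab_comm (a b : ℕ) : rab a b = rab b a := by
  unfold rab
  rw [Nat.gcd_comm b a, mul_comm]

theorem lx_rab_le (p a b i j : ℕ) (hp : p.Prime) (ha : ¬ p ∣ a) (hij : i ≤ j) :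
    rab (a * p ^ i) (b * p ^ j) = rab a b * p ^ (j - i) := by
  have h1 : p ^ j = p ^ (j - i) * p ^ i := by
    rw [← pow_add]
    congr 1
    omega
  have hc : Nat.Coprime (p ^ (j - i)) a := Nat.Coprime.pow_left _ ((Nat.Prime.coprime_iff_not_dvd hp).mpr ha)
  have h2 : Nat.gcd (a * p ^ i) (b * p ^ j) = Nat.gcd a b * p ^ i := by
    rw [h1, ← mul_assoc, Nat.gcd_mul_right]
    congr 1
    exact Nat.Coprime.gcd_mul_right_cancel_right b hc
  have hpi : 0 < p ^ i := pow_pos hp.pos _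
  unfold rab
  rw [h2, Nat.mul_div_mul_right a (Nat.gcd a b) hpi, h1, ← mul_assoc,
    Nat.mul_div_mul_right _ (Nat.gcd a b) hpi,
    ← Nat.div_mul_right_comm (Nat.gcd_dvd_right a b), mul_assoc]

theorem lx_rab (p a b i j : ℕ) (hp : p.Prime) (ha : ¬ p ∣ a) (hb : ¬ p ∣ b) :
    rab (a * p ^ i) (b * p ^ j) = rab a b * p ^ (ds i j) := by
  rcases le_total i j with h | h
  · rw [lx_rab_le p a b i j hp ha h]
    congr 2
    unfold ds
    omega
  · rw [lx_rab_comm, lx_rab_le p b a j i hp hb h, lx_rab_comm b a]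
    congr 2
    unfold ds
    omega

theorem lx_Kp (p i j : ℕ) (hp : 0 < p) :
    Kp p i j * (((p ^ (ds i j) : ℕ) : ℝ)) ^ (39 / 80 : ℝ) = 1 := by
  have hp' : (0 : ℝ) < p := by exact_mod_cast hp
  unfold Kp
  push_cast
  rw [← Real.rpow_natCast, ← Real.rpow_natCast, ← Real.rpow_mul hp'.le, ← Real.rpow_mul hp'.le,
    ← Real.rpow_add hp']
  have h : (-(39 / 80) : ℝ) * (ds i j : ℕ) + (ds i j : ℕ) * (39 / 80 : ℝ) = 0 := by ring
  rw [h, Real.rpow_zero]

theorem lx_Kp_nonneg (p i j : ℕ) : 0 ≤ Kp p i j := by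
  unfold Kp
  positivity

theorem lx_eW_nonneg (V W : Finset ℕ) (μ ν : ℕ → ℝ) (ω : ℕ → ℕ → ℝ)
    (hμ : ∀ v ∈ V, 0 < μ v) (hν : ∀ w ∈ W, 0 < ν w) (hω : ∀ v w, 0 ≤ ω v w) :
    0 ≤ eW V W μ ν ω := by
  unfold eW
  exact Finset.sum_nonneg (fun v hv => Finset.sum_nonneg (fun w hw =>
    mul_nonneg (mul_nonneg (hμ v hv).le (hν w hw).le) (hω v w)))

theorem lx_ms_nonneg (V : Finset ℕ) (μ : ℕ → ℝ) (hμ : ∀ v ∈ V, 0 < μ v) : 0 ≤ ms V μ :=
  Finset.sum_nonneg (fun v hv => (hμ v hv).le)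

theorem lx_ms_pos (V : Finset ℕ) (μ : ℕ → ℝ) (hμ : ∀ v ∈ V, 0 < μ v) (hV : V.Nonempty) :
    0 < ms V μ :=
  Finset.sum_pos (fun v hv => hμ v hv) hV

theorem lx_nonemptyV (V W : Finset ℕ) (μ ν : ℕ → ℝ) (ω : ℕ → ℕ → ℝ)
    (h : 0 < eW V W μ ν ω) : V.Nonempty := by
  rw [Finset.nonempty_iff_ne_empty]
  rintro rfl
  simp [eW] at h

theorem lx_nonemptyW (V W : Finset ℕ) (μ ν : ℕ → ℝ) (ω : ℕ → ℕ → ℝ)
    (h : 0 < eW V W μ ν ω) : W.Nonempty := by
  rw [Finset.nonempty_iff_ne_empty]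
  rintro rfl
  simp [eW] at h

/-- the states of the greedy procedure -/
structure LSt (p1 : ℕ) (U V W : Finset ℕ) (μ ν : ℕ → ℝ) (ω : ℕ → ℕ → ℝ)
    (V1 W1 P : Finset ℕ) (a b : ℕ) : Prop where
  sub : P ⊆ U
  subV : V1 ⊆ V
  subW : W1 ⊆ W
  partV : ∀ v ∈ V1, partP P v = a
  partW : ∀ w ∈ W1, partP P w = b
  epos : 0 < eW V1 W1 μ ν ω
  qual : eW V W μ ν ω * (ms V1 μ * ms W1 ν) ^ (51 / 100 : ℝ) ≤
    7 ^ ((P.filter (fun p => p < p1)).card) * eW V1 W1 μ ν ω * (rab a b : ℝ) ^ (39 / 80 : ℝ) *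
      (ms V μ * ms W ν) ^ (51 / 100 : ℝ)

/-- the constant of the prime `p` -/
noncomputable def lc (p1 p : ℕ) : ℝ := if p < p1 then 7 else 1

theorem lx_card (p1 p : ℕ) (P : Finset ℕ) (hpP : p ∉ P) :
    (7 : ℝ) ^ (((insert p P).filter (fun p => p < p1)).card) =
      7 ^ ((P.filter (fun p => p < p1)).card) * lc p1 p := by
  unfold lc
  rw [Finset.filter_insert]
  by_cases h : p < p1
  · rw [if_pos h, if_pos h, Finset.card_insert_of_notMem, pow_succ]
    intro h2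
    exact hpP (Finset.mem_filter.mp h2).1
  · rw [if_neg h, if_neg h, mul_one]

theorem lx_real (e0 XY z Q e R M c e' T K : ℝ) (hM : 0 ≤ M) (hQ : 0 ≤ Q)
    (hR : 0 ≤ R) (hz : 0 ≤ z) (hT : 0 ≤ T) (hKT : K * T = 1)
    (h1 : e0 * XY ≤ Q * e * R * M) (h2 : e * K * z ≤ c * e') :
    e0 * (XY * z) ≤ (Q * c) * e' * (R * T) * M := by
  have h3 : e0 * (XY * z) ≤ (Q * e * R * M) * z := by
    rw [← mul_assoc]
    exact mul_le_mul_of_nonneg_right h1 hz
  have h4 : (e * K * z) * (Q * R * T * M) ≤ (c * e') * (Q * R * T * M) :=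
    mul_le_mul_of_nonneg_right h2 (by positivity)
  have h5 : (e * K * z) * (Q * R * T * M) = (Q * e * R * M) * z * (K * T) := by ring
  rw [hKT, mul_one] at h5
  calc e0 * (XY * z) ≤ (Q * e * R * M) * z := h3
    _ = (e * K * z) * (Q * R * T * M) := h5.symm
    _ ≤ (c * e') * (Q * R * T * M) := h4
    _ = (Q * c) * e' * (R * T) * M := by ring

theorem lx_step (p1 : ℕ) (U V W : Finset ℕ) (μ ν : ℕ → ℝ) (ω : ℕ → ℕ → ℝ)
    (hU : ∀ p ∈ U, p.Prime)
    (hμ : ∀ v ∈ V, 0 < μ v) (hν : ∀ w ∈ W, 0 < ν w)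
    (V1 W1 P : Finset ℕ) (a b : ℕ) (hst : LSt p1 U V W μ ν ω V1 W1 P a b)
    (p i j : ℕ) (hpU : p ∈ U) (hpP : p ∉ P)
    (he : 0 < eW (vfil V1 p i) (vfil W1 p j) μ ν ω)
    (hq : eW V1 W1 μ ν ω * Kp p i j *
      ((ms (vfil V1 p i) μ / ms V1 μ) * (ms (vfil W1 p j) ν / ms W1 ν)) ^ (51 / 100 : ℝ) ≤
        lc p1 p * eW (vfil V1 p i) (vfil W1 p j) μ ν ω) :
    LSt p1 U V W μ ν ω (vfil V1 p i) (vfil W1 p j) (insert p P) (a * p ^ i) (b * p ^ j) := by
  have hp := hU p hpU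
  have hPp : ∀ q ∈ P, q.Prime := fun q hq => hU q (hst.sub hq)
  have hV1 := lx_nonemptyV _ _ _ _ _ hst.epos
  have hW1 := lx_nonemptyW _ _ _ _ _ hst.epos
  have hμ1 : ∀ v ∈ V1, 0 < μ v := fun v hv => hμ v (hst.subV hv)
  have hν1 : ∀ v ∈ W1, 0 < ν v := fun v hv => hν v (hst.subW hv)
  have hX := lx_ms_pos V1 μ hμ1 hV1
  have hY := lx_ms_pos W1 ν hν1 hW1
  have hX' : 0 ≤ ms (vfil V1 p i) μ :=
    lx_ms_nonneg _ _ (fun v hv => hμ1 v (Finset.mem_filter.mp hv).1)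
  have hY' : 0 ≤ ms (vfil W1 p j) ν :=
    lx_ms_nonneg _ _ (fun v hv => hν1 v (Finset.mem_filter.mp hv).1)
  have hpa : ¬ p ∣ a := by
    obtain ⟨v, hv⟩ := hV1
    rw [← hst.partV v hv]
    exact lx_not_dvd P hPp p hp hpP v
  have hpb : ¬ p ∣ b := by
    obtain ⟨v, hv⟩ := hW1
    rw [← hst.partW v hv]
    exact lx_not_dvd P hPp p hp hpP v
  refine ⟨?_, ?_, ?_, ?_, ?_, he, ?_⟩
  · intro q hq
    rw [Finset.mem_insert] at hq
    rcases hq with rfl | hq
    · exact hpU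
    · exact hst.sub hq
  · exact (Finset.filter_subset _ _).trans hst.subV
  · exact (Finset.filter_subset _ _).trans hst.subW
  · intro v hv
    unfold vfil at hv
    rw [Finset.mem_filter] at hv
    rw [lx_partP_insert P p hpP, hst.partV v hv.1, hv.2]
  · intro v hv
    unfold vfil at hv
    rw [Finset.mem_filter] at hv
    rw [lx_partP_insert P p hpP, hst.partW v hv.1, hv.2]
  · have e1 : ms (vfil V1 p i) μ * ms (vfil W1 p j) ν = (ms V1 μ * ms W1 ν) *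
        ((ms (vfil V1 p i) μ / ms V1 μ) * (ms (vfil W1 p j) ν / ms W1 ν)) := by
      field_simp
    have hz : 0 ≤ (ms (vfil V1 p i) μ / ms V1 μ) * (ms (vfil W1 p j) ν / ms W1 ν) := by
      positivity
    rw [e1, Real.mul_rpow (by positivity) hz, lx_card p1 p P hpP, lx_rab p a b i j hp hpa hpb,
      Nat.cast_mul, Real.mul_rpow (Nat.cast_nonneg _) (Nat.cast_nonneg _)]
    refine lx_real _ _ _ _ _ _ _ _ _ _ (Kp p i j) ?_ ?_ ?_ ?_ ?_ (lx_Kp p i j hp.pos) hst.qual hq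
    · exact Real.rpow_nonneg (mul_nonneg (lx_ms_nonneg _ _ hμ) (lx_ms_nonneg _ _ hν)) _
    · positivity
    · exact Real.rpow_nonneg (Nat.cast_nonneg _) _
    · exact Real.rpow_nonneg hz _
    · exact Real.rpow_nonneg (Nat.cast_nonneg _) _

theorem lx_final (p1 n : ℕ) (U V W : Finset ℕ) (μ ν : ℕ → ℝ) (ω : ℕ → ℕ → ℝ)
    (hU : ∀ p ∈ U, p.Prime)
    (hμ : ∀ v ∈ V, 0 < μ v) (hν : ∀ w ∈ W, 0 < ν w) (m : ℕ) :
    ∀ (V1 W1 P : Finset ℕ) (a b : ℕ), LSt p1 U V W μ ν ω V1 W1 P a b → (U \ P).card = m →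
    ∃ (V2 W2 P2 : Finset ℕ) (a2 b2 : ℕ), LSt p1 U V W μ ν ω V2 W2 P2 a2 b2 ∧
      ∀ p ∈ U, p ∉ P2 → ∀ i < n, ∀ j < n, ¬ (0 < eW (vfil V2 p i) (vfil W2 p j) μ ν ω ∧
        eW V2 W2 μ ν ω * Kp p i j *
        ((ms (vfil V2 p i) μ / ms V2 μ) * (ms (vfil W2 p j) ν / ms W2 ν)) ^ (51 / 100 : ℝ) ≤
        lc p1 p * eW (vfil V2 p i) (vfil W2 p j) μ ν ω) := by
  induction m with
  | zero =>
    intro V1 W1 P a b hst hm
    refine ⟨V1, W1, P, a, b, hst, ?_⟩
    intro p hpU hpP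
    exfalso
    rw [Finset.card_eq_zero, Finset.sdiff_eq_empty_iff_subset] at hm
    exact hpP (hm hpU)
  | succ m ih =>
    intro V1 W1 P a b hst hm
    by_cases hf : ∀ p ∈ U, p ∉ P → ∀ i < n, ∀ j < n,
        ¬ (0 < eW (vfil V1 p i) (vfil W1 p j) μ ν ω ∧
        eW V1 W1 μ ν ω * Kp p i j *
        ((ms (vfil V1 p i) μ / ms V1 μ) * (ms (vfil W1 p j) ν / ms W1 ν)) ^ (51 / 100 : ℝ) ≤
        lc p1 p * eW (vfil V1 p i) (vfil W1 p j) μ ν ω)
    · exact ⟨V1, W1, P, a, b, hst, hf⟩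
    · push Not at hf
      obtain ⟨p, hpU, hpP, i, _, j, _, he, hq⟩ := hf
      have hst' := lx_step p1 U V W μ ν ω hU hμ hν V1 W1 P a b hst p i j hpU hpP he hq
      refine ih _ _ _ _ _ hst' ?_
      rw [Finset.sdiff_insert, Finset.card_erase_of_mem (Finset.mem_sdiff.mpr ⟨hpU, hpP⟩), hm]
      rfl

theorem lx_sum_eW (V W : Finset ℕ) (μ ν : ℕ → ℝ) (ω : ℕ → ℕ → ℝ) (p n : ℕ)
    (hV : ∀ v ∈ V, v.factorization p < n) (hW : ∀ w ∈ W, w.factorization p < n) :
    ∑ i ∈ range n, ∑ j ∈ range n, eW (vfil V p i) (vfil W p j) μ ν ω = eW V W μ ν ω := by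
  have h1 : ∀ i ∈ range n, ∑ j ∈ range n, eW (vfil V p i) (vfil W p j) μ ν ω =
      ∑ v ∈ vfil V p i, ∑ w ∈ W, μ v * ν w * ω v w := by
    intro i _
    unfold eW
    rw [Finset.sum_comm]
    refine Finset.sum_congr rfl (fun v _ => ?_)
    unfold vfil
    exact Finset.sum_fiberwise_of_maps_to (g := fun w : ℕ => w.factorization p)
      (fun w hw => Finset.mem_range.mpr (hW w hw)) (fun w => μ v * ν w * ω v w)
  rw [Finset.sum_congr rfl h1]
  unfold eW vfil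
  exact Finset.sum_fiberwise_of_maps_to (g := fun w : ℕ => w.factorization p)
      (fun w hw => Finset.mem_range.mpr (hV w hw)) (fun v => ∑ w ∈ W, μ v * ν w * ω v w)

theorem lx_sum_ms (V : Finset ℕ) (μ : ℕ → ℝ) (p n : ℕ)
    (hV : ∀ v ∈ V, v.factorization p < n) :
    ∑ i ∈ range n, ms (vfil V p i) μ = ms V μ := by
  unfold ms vfil
  exact Finset.sum_fiberwise_of_maps_to (g := fun w : ℕ => w.factorization p)
      (fun w hw => Finset.mem_range.mpr (hV w hw)) (fun v => μ v)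

theorem lx_vne (V : Finset ℕ) (μ : ℕ → ℝ) (p k : ℕ) :
    ms (vne V p k) μ = ms V μ - ms (vfil V p k) μ := by
  unfold ms vne vfil
  have h := Finset.sum_filter_add_sum_filter_not V (fun v => v.factorization p = k) μ
  linarith

theorem lx_vfil_empty (V : Finset ℕ) (p i : ℕ) (h : ∀ v ∈ V, v.factorization p ≠ i) :
    vfil V p i = ∅ := by
  unfold vfil
  rw [Finset.filter_eq_empty_iff]
  intro v hv
  exact h v hv

theorem lx_vfil_all (V : Finset ℕ) (p i : ℕ) (h : ∀ v ∈ V, v.factorization p = i) :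
    vfil V p i = V := by
  unfold vfil
  rw [Finset.filter_eq_self]
  exact h

theorem lx_vne_empty (V : Finset ℕ) (p i : ℕ) (h : ∀ v ∈ V, v.factorization p = i) :
    vne V p i = ∅ := by
  unfold vne
  rw [Finset.filter_eq_empty_iff]
  intro v hv
  exact fun h2 => h2 (h v hv)

theorem lx_eW_empty_left (W : Finset ℕ) (μ ν : ℕ → ℝ) (ω : ℕ → ℕ → ℝ) :
    eW ∅ W μ ν ω = 0 := by
  simp [eW]

theorem lx_eW_empty_right (V : Finset ℕ) (μ ν : ℕ → ℝ) (ω : ℕ → ℕ → ℝ) :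
    eW V ∅ μ ν ω = 0 := by
  simp [eW]

theorem lx_fact_prod (s : Finset ℕ) (hs : ∀ p ∈ s, p.Prime) (k : ℕ → ℕ) (q : ℕ) :
    (∏ p ∈ s, p ^ k p).factorization q = if q ∈ s then k q else 0 := by
  rw [Nat.factorization_prod (fun p hp => pow_ne_zero _ (hs p hp).ne_zero)]
  rw [Finset.sum_apply']
  have h1 : ∀ p ∈ s, (p ^ k p).factorization q = if q = p then k q else 0 := by
    intro p hp
    rw [(hs p hp).factorization_pow, Finsupp.single_apply]
    by_cases h : p = q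
    · subst h; simp
    · rw [if_neg h, if_neg (fun h2 => h h2.symm)]
  rw [Finset.sum_congr rfl h1]
  by_cases hq : q ∈ s
  · rw [if_pos hq, Finset.sum_eq_single q]
    · simp
    · intro b _ hb
      rw [if_neg (fun h => hb h.symm)]
    · intro h
      exact absurd hq h
  · rw [if_neg hq]
    refine Finset.sum_eq_zero (fun p hp => ?_)
    rw [if_neg]
    rintro rfl
    exact hq hp

theorem leaf_exists : ∃ p0 : ℕ, ∀ p1 : ℕ, p0 ≤ p1 → ∀ (V W : Finset ℕ) (μ ν : ℕ → ℝ)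
    (ω : ℕ → ℕ → ℝ), (∀ v ∈ V, 0 < v) → (∀ w ∈ W, 0 < w) → (∀ v ∈ V, 0 < μ v) →
    (∀ w ∈ W, 0 < ν w) → (∀ v w, 0 ≤ ω v w) → 0 < eW V W μ ν ω →
    ∃ (V1 W1 P : Finset ℕ) (a b N : ℕ), Leaf p1 V W μ ν ω V1 W1 P a b N := by
  obtain ⟨p0, hp02, hconc⟩ := conc
  refine ⟨p0, ?_⟩
  intro p1 hp1 V W μ ν ω hV hW hμ hν hω hE
  set U : Finset ℕ := (range p1).filter Nat.Prime ∪ (V ∪ W).biUnion Nat.primeFactors with hUdef
  have hU : ∀ p ∈ U, p.Prime := by
    intro p hp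
    rw [hUdef, Finset.mem_union, Finset.mem_filter, Finset.mem_biUnion] at hp
    rcases hp with ⟨_, h⟩ | ⟨v, _, h⟩
    · exact h
    · exact Nat.prime_of_mem_primeFactors h
  have hUsmall : ∀ p : ℕ, p.Prime → p < p1 → p ∈ U := by
    intro p hp hlt
    rw [hUdef, Finset.mem_union, Finset.mem_filter, Finset.mem_range]
    exact Or.inl ⟨hlt, hp⟩
  have hUout : ∀ p : ℕ, p.Prime → p ∉ U → ∀ v ∈ V ∪ W, v.factorization p = 0 := by
    intro p hp hpU v hv
    apply Nat.factorization_eq_zero_of_not_dvd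
    intro hd
    apply hpU
    rw [hUdef, Finset.mem_union, Finset.mem_biUnion]
    refine Or.inr ⟨v, hv, ?_⟩
    rw [Nat.mem_primeFactors]
    refine ⟨hp, hd, ?_⟩
    rw [Finset.mem_union] at hv
    rcases hv with h | h
    · exact (hV v h).ne'
    · exact (hW v h).ne'
  set n : ℕ := (V ∪ W).sup id + 1 with hn
  have hbV : ∀ v ∈ V, ∀ p, v.factorization p < n := by
    intro v hv p
    have h1 : v ≤ (V ∪ W).sup id := Finset.le_sup (f := id) (Finset.mem_union_left _ hv)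
    have h2 := Nat.factorization_lt p (hV v hv).ne'
    omega
  have hbW : ∀ v ∈ W, ∀ p, v.factorization p < n := by
    intro v hv p
    have h1 : v ≤ (V ∪ W).sup id := Finset.le_sup (f := id) (Finset.mem_union_right _ hv)
    have h2 := Nat.factorization_lt p (hW v hv).ne'
    omega
  have hst0 : LSt p1 U V W μ ν ω V W ∅ 1 1 := by
    refine ⟨Finset.empty_subset _, Finset.Subset.refl _, Finset.Subset.refl _, ?_, ?_, hE, ?_⟩
    · intro v _; simp [partP]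
    · intro v _; simp [partP]
    · simp [rab]
  obtain ⟨V1, W1, P, a, b, hst, hfin⟩ := lx_final p1 n U V W μ ν ω hU hμ hν _ V W ∅ 1 1 hst0 rfl
  have hPp : ∀ q ∈ P, q.Prime := fun q hq => hU q (hst.sub hq)
  have hV1 := lx_nonemptyV _ _ _ _ _ hst.epos
  have hW1 := lx_nonemptyW _ _ _ _ _ hst.epos
  have hμ1 : ∀ v ∈ V1, 0 < μ v := fun v hv => hμ v (hst.subV hv)
  have hν1 : ∀ v ∈ W1, 0 < ν v := fun v hv => hν v (hst.subW hv)
  have hX := lx_ms_pos V1 μ hμ1 hV1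
  have hY := lx_ms_pos W1 ν hν1 hW1
  have hxn : ∀ p i, 0 ≤ ms (vfil V1 p i) μ / ms V1 μ := fun p i =>
    div_nonneg (lx_ms_nonneg _ _ (fun v hv => hμ1 v (Finset.mem_filter.mp hv).1)) hX.le
  have hyn : ∀ p i, 0 ≤ ms (vfil W1 p i) ν / ms W1 ν := fun p i =>
    div_nonneg (lx_ms_nonneg _ _ (fun v hv => hν1 v (Finset.mem_filter.mp hv).1)) hY.le
  have hx1 : ∀ p, ∑ i ∈ range n, ms (vfil V1 p i) μ / ms V1 μ = 1 := by
    intro p
    rw [← Finset.sum_div, lx_sum_ms V1 μ p n (fun v hv => hbV v (hst.subV hv) p),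
      div_self hX.ne']
  have hy1 : ∀ p, ∑ i ∈ range n, ms (vfil W1 p i) ν / ms W1 ν = 1 := by
    intro p
    rw [← Finset.sum_div, lx_sum_ms W1 ν p n (fun v hv => hbW v (hst.subW hv) p),
      div_self hY.ne']
  have hlc : ∀ p, 0 < lc p1 p := by
    intro p
    unfold lc
    split_ifs <;> norm_num
  have hrhs : ∀ p i j, 0 ≤ eW V1 W1 μ ν ω * Kp p i j *
      ((ms (vfil V1 p i) μ / ms V1 μ) * (ms (vfil W1 p j) ν / ms W1 ν)) ^ (51 / 100 : ℝ) :=
    fun p i j => mul_nonneg (mul_nonneg hst.epos.le (lx_Kp_nonneg _ _ _))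
      (Real.rpow_nonneg (mul_nonneg (hxn p i) (hyn p j)) _)
  have hen : ∀ p i j, 0 ≤ eW (vfil V1 p i) (vfil W1 p j) μ ν ω := fun p i j =>
    lx_eW_nonneg _ _ _ _ _ (fun v hv => hμ1 v (Finset.mem_filter.mp hv).1)
      (fun v hv => hν1 v (Finset.mem_filter.mp hv).1) hω
  have hfin2 : ∀ p ∈ U, p ∉ P → ∀ i < n, ∀ j < n,
      lc p1 p * eW (vfil V1 p i) (vfil W1 p j) μ ν ω ≤ eW V1 W1 μ ν ω * Kp p i j *
        ((ms (vfil V1 p i) μ / ms V1 μ) * (ms (vfil W1 p j) ν / ms W1 ν)) ^ (51 / 100 : ℝ) := by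
    intro p hpU hpP i hi j hj
    have h1 := hfin p hpU hpP i hi j hj
    by_cases h2 : 0 < eW (vfil V1 p i) (vfil W1 p j) μ ν ω
    · by_contra h3
      exact h1 ⟨h2, (not_le.mp h3).le⟩
    · have h3 : eW (vfil V1 p i) (vfil W1 p j) μ ν ω = 0 :=
        le_antisymm (not_lt.mp h2) (hen p i j)
      rw [h3, mul_zero]
      exact hrhs p i j
  have hsum : ∀ p ∈ U, p ∉ P → lc p1 p ≤ ∑ i ∈ range n, ∑ j ∈ range n, Kp p i j *
      ((ms (vfil V1 p i) μ / ms V1 μ) * (ms (vfil W1 p j) ν / ms W1 ν)) ^ (51 / 100 : ℝ) := by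
    intro p hpU hpP
    have h1 : lc p1 p * eW V1 W1 μ ν ω ≤ eW V1 W1 μ ν ω *
        ∑ i ∈ range n, ∑ j ∈ range n, Kp p i j *
      ((ms (vfil V1 p i) μ / ms V1 μ) * (ms (vfil W1 p j) ν / ms W1 ν)) ^ (51 / 100 : ℝ) := by
      rw [← lx_sum_eW V1 W1 μ ν ω p n (fun v hv => hbV v (hst.subV hv) p)
        (fun v hv => hbW v (hst.subW hv) p), Finset.mul_sum]
      conv_rhs => rw [lx_sum_eW V1 W1 μ ν ω p n (fun v hv => hbV v (hst.subV hv) p)
        (fun v hv => hbW v (hst.subW hv) p)]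
      rw [Finset.mul_sum]
      refine Finset.sum_le_sum (fun i hi => ?_)
      rw [Finset.mul_sum, Finset.mul_sum]
      refine Finset.sum_le_sum (fun j hj => ?_)
      rw [← mul_assoc]
      exact hfin2 p hpU hpP i (Finset.mem_range.mp hi) j (Finset.mem_range.mp hj)
    rw [mul_comm (lc p1 p)] at h1
    exact le_of_mul_le_mul_left h1 hst.epos
  have hsmallP : ∀ p : ℕ, p.Prime → p < p1 → p ∈ P := by
    intro p hp hlt
    by_contra hpP
    have h1 := hsum p (hUsmall p hp hlt) hpP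
    have h2 := kern_le p n hp.two_le (fun i => ms (vfil V1 p i) μ / ms V1 μ)
      (fun i => ms (vfil W1 p i) ν / ms W1 ν) (hxn p) (hyn p) (hx1 p) (hy1 p)
    have h3 : lc p1 p = 7 := by
      unfold lc
      rw [if_pos hlt]
    rw [h3] at h1
    linarith
  have hk : ∀ p, ∃ k, p ∈ U → p ∉ P →
      1 - ms (vfil V1 p k) μ / ms V1 μ ≤ (p : ℝ) ^ (-(397 / 400) : ℝ) ∧
      1 - ms (vfil W1 p k) ν / ms W1 ν ≤ (p : ℝ) ^ (-(397 / 400) : ℝ) := by
    intro p
    by_cases hpU : p ∈ U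
    · by_cases hpP : p ∉ P
      · have h1 := hsum p hpU hpP
        have h2 : ¬ p < p1 := fun h => hpP (hsmallP p (hU p hpU) h)
        have h3 : lc p1 p = 1 := by
          unfold lc
          rw [if_neg h2]
        rw [h3] at h1
        obtain ⟨k, _, hk1, hk2⟩ := hconc p (hp1.trans (not_lt.mp h2)) n
          (fun i => ms (vfil V1 p i) μ / ms V1 μ)
          (fun i => ms (vfil W1 p i) ν / ms W1 ν) (hxn p) (hyn p) (hx1 p) (hy1 p) h1
        exact ⟨k, fun _ _ => ⟨hk1, hk2⟩⟩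
      · exact ⟨0, fun _ h => absurd h hpP⟩
    · exact ⟨0, fun h => absurd h hpU⟩
  choose k hk using hk
  set N : ℕ := ∏ p ∈ U \ P, p ^ k p with hN
  have hNf : ∀ q, N.factorization q = if q ∈ U \ P then k q else 0 := fun q =>
    lx_fact_prod (U \ P) (fun p hp => hU p (Finset.mem_sdiff.mp hp).1) k q
  have hNpos : 0 < N := Finset.prod_pos (fun p hp =>
    pow_pos (hU p (Finset.mem_sdiff.mp hp).1).pos _)
  refine ⟨V1, W1, P, a, b, N, hst.subV, hst.subW, hPp, hsmallP, ?_, ?_, hNpos, ?_, hst.partV,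
    hst.partW, hst.epos, ?_, ?_, ?_, ?_⟩
  · obtain ⟨v, hv⟩ := hV1
    rw [← hst.partV v hv]
    exact lx_partP_pos P hPp v
  · obtain ⟨v, hv⟩ := hW1
    rw [← hst.partW v hv]
    exact lx_partP_pos P hPp v
  · intro p hp hd
    have h1 : 0 < N.factorization p := (hPp p hp).factorization_pos_of_dvd hNpos.ne' hd
    rw [hNf p, if_neg (fun h => (Finset.mem_sdiff.mp h).2 hp)] at h1
    exact lt_irrefl _ h1
  · refine hst.qual.trans ?_
    have h1 : (7 : ℝ) ^ ((P.filter (fun p => p < p1)).card) ≤ 7 ^ p1 := by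
      refine pow_le_pow_right₀ (by norm_num) ?_
      have h2 : P.filter (fun p => p < p1) ⊆ range p1 := by
        intro q hq
        exact Finset.mem_range.mpr (Finset.mem_filter.mp hq).2
      simpa using Finset.card_le_card h2
    have h2 : 0 ≤ (rab a b : ℝ) ^ (39 / 80 : ℝ) := Real.rpow_nonneg (Nat.cast_nonneg _) _
    have h3 : 0 ≤ (ms V μ * ms W ν) ^ (51 / 100 : ℝ) :=
      Real.rpow_nonneg (mul_nonneg (lx_ms_nonneg _ _ hμ) (lx_ms_nonneg _ _ hν)) _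
    exact mul_le_mul_of_nonneg_right (mul_le_mul_of_nonneg_right
      (mul_le_mul_of_nonneg_right h1 hst.epos.le) h2) h3
  · intro p hp hpP
    by_cases hpU : p ∈ U
    · rw [hNf p, if_pos (Finset.mem_sdiff.mpr ⟨hpU, hpP⟩), lx_vne]
      have h1 := (hk p hpU hpP).1
      have h2 := mul_le_mul_of_nonneg_right h1 hX.le
      rw [sub_mul, one_mul, div_mul_cancel₀ _ hX.ne'] at h2
      exact h2
    · rw [hNf p, if_neg (fun h => hpU (Finset.mem_sdiff.mp h).1), lx_vne_empty V1 p 0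
        (fun v hv => hUout p hp hpU v (Finset.mem_union_left _ (hst.subV hv)))]
      have h1 : ms (∅ : Finset ℕ) μ = 0 := by simp [ms]
      rw [h1]
      positivity
  · intro p hp hpP
    by_cases hpU : p ∈ U
    · rw [hNf p, if_pos (Finset.mem_sdiff.mpr ⟨hpU, hpP⟩), lx_vne]
      have h1 := (hk p hpU hpP).2
      have h2 := mul_le_mul_of_nonneg_right h1 hY.le
      rw [sub_mul, one_mul, div_mul_cancel₀ _ hY.ne'] at h2
      exact h2
    · rw [hNf p, if_neg (fun h => hpU (Finset.mem_sdiff.mp h).1), lx_vne_empty W1 p 0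
        (fun v hv => hUout p hp hpU v (Finset.mem_union_right _ (hst.subW hv)))]
      have h1 : ms (∅ : Finset ℕ) ν = 0 := by simp [ms]
      rw [h1]
      positivity
  · intro p hp hpP i j
    by_cases hpU : p ∈ U
    · by_cases hi : i < n
      · by_cases hj : j < n
        · refine le_trans ?_ (hfin2 p hpU hpP i hi j hj)
          have h1 : 1 ≤ lc p1 p := by
            unfold lc
            split_ifs <;> norm_num
          have h2 := hen p i j
          nlinarith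
        · rw [lx_vfil_empty W1 p j (fun v hv h => hj (h ▸ hbW v (hst.subW hv) p)),
            lx_eW_empty_right]
          have h3 := hrhs p i j
          rw [lx_vfil_empty W1 p j (fun v hv h => hj (h ▸ hbW v (hst.subW hv) p))] at h3
          exact h3
      · have h3 := hrhs p i j
        rw [lx_vfil_empty V1 p i (fun v hv h => hi (h ▸ hbV v (hst.subV hv) p))] at h3 ⊢
        rw [lx_eW_empty_left]
        exact h3
    · have hv0 : ∀ v ∈ V1, v.factorization p = 0 := fun v hv =>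
        hUout p hp hpU v (Finset.mem_union_left _ (hst.subV hv))
      have hw0 : ∀ v ∈ W1, v.factorization p = 0 := fun v hv =>
        hUout p hp hpU v (Finset.mem_union_right _ (hst.subW hv))
      by_cases hi : i = 0
      · by_cases hj : j = 0
        · subst hi
          subst hj
          rw [lx_vfil_all V1 p 0 hv0, lx_vfil_all W1 p 0 hw0, div_self hX.ne', div_self hY.ne']
          have h4 : Kp p 0 0 = 1 := by simp [Kp, ds]
          rw [h4, mul_one, mul_one, Real.one_rpow, mul_one]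
        · have h3 := hrhs p i j
          rw [lx_vfil_empty W1 p j (fun v hv h => hj (by rw [← h, hw0 v hv]))] at h3 ⊢
          rw [lx_eW_empty_right]
          exact h3
      · have h3 := hrhs p i j
        rw [lx_vfil_empty V1 p i (fun v hv h => hi (by rw [← h, hv0 v hv]))] at h3 ⊢
        rw [lx_eW_empty_left]
        exact h3

end Vale.Agent.P028E
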