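import Mathlib

/-!
# P028 E: interpolation of exponents (real numbers)

`E0 = E0^(1/50) E0^(49/50) ≤ m1^(1/50) (H R^(-1/2) m1^(1/2))^(49/50) = m1^(51/100) H^(49/50) R^(-49/100)`,
then `e m1^θ ≤ K K' R^(39/80 + 1/800 - 49/100) H^(49/50) m1^θ m^θ` and `39/80+1/800-49/100 = -1/800`.
Divide by `m1^θ > 0`.
-/

namespace Vale.Agent.P028E

theorem interp (e e1 E0 m m1 R H K K' : ℝ) (hm : 0 ≤ m) (hm1 : 0 < m1) (hR : 1 ≤ R) (hH : 0 ≤ H)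
    (hK : 0 ≤ K) (hK' : 0 ≤ K') (hE0 : 0 ≤ E0)
    (h1 : e * m1 ^ (51 / 100 : ℝ) ≤ K * e1 * R ^ (39 / 80 : ℝ) * m ^ (51 / 100 : ℝ))
    (h2 : e1 ≤ K' * R ^ (1 / 800 : ℝ) * E0) (h3 : E0 ≤ m1)
    (h4 : E0 ≤ H * R ^ (-(1 / 2) : ℝ) * m1 ^ (1 / 2 : ℝ)) :
    e ≤ K * K' * H ^ (49 / 50 : ℝ) * R ^ (-(1 / 800) : ℝ) * m ^ (51 / 100 : ℝ) := by
  have hR0 : 0 < R := lt_of_lt_of_le one_pos hR
  have hRr : ∀ a : ℝ, 0 < R ^ a := fun a => Real.rpow_pos_of_pos hR0 a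
  have hmr : ∀ a : ℝ, 0 < m1 ^ a := fun a => Real.rpow_pos_of_pos hm1 a
  have h5 : E0 ≤ m1 ^ (51 / 100 : ℝ) * H ^ (49 / 50 : ℝ) * R ^ (-(49 / 100) : ℝ) := by
    have e1' : E0 = E0 ^ (1 / 50 : ℝ) * E0 ^ (49 / 50 : ℝ) := by
      rw [← Real.rpow_add_of_nonneg hE0 (by norm_num) (by norm_num)]
      norm_num
    have e2 : E0 ^ (1 / 50 : ℝ) ≤ m1 ^ (1 / 50 : ℝ) :=
      Real.rpow_le_rpow hE0 h3 (by norm_num)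
    have e3 : E0 ^ (49 / 50 : ℝ) ≤ (H * R ^ (-(1 / 2) : ℝ) * m1 ^ (1 / 2 : ℝ)) ^ (49 / 50 : ℝ) :=
      Real.rpow_le_rpow hE0 h4 (by norm_num)
    have e4 : (H * R ^ (-(1 / 2) : ℝ) * m1 ^ (1 / 2 : ℝ)) ^ (49 / 50 : ℝ)
        = H ^ (49 / 50 : ℝ) * R ^ (-(49 / 100) : ℝ) * m1 ^ (49 / 100 : ℝ) := by
      rw [Real.mul_rpow (mul_nonneg hH (hRr _).le) (hmr _).le, Real.mul_rpow hH (hRr _).le,
        ← Real.rpow_mul hR0.le, ← Real.rpow_mul hm1.le]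
      norm_num
    have e5 : m1 ^ (1 / 50 : ℝ) * m1 ^ (49 / 100 : ℝ) = m1 ^ (51 / 100 : ℝ) := by
      rw [← Real.rpow_add hm1]
      norm_num
    calc E0 = E0 ^ (1 / 50 : ℝ) * E0 ^ (49 / 50 : ℝ) := e1'
      _ ≤ m1 ^ (1 / 50 : ℝ) * (H * R ^ (-(1 / 2) : ℝ) * m1 ^ (1 / 2 : ℝ)) ^ (49 / 50 : ℝ) :=
          mul_le_mul e2 e3 (Real.rpow_nonneg hE0 _) (hmr _).le
      _ = (m1 ^ (1 / 50 : ℝ) * m1 ^ (49 / 100 : ℝ)) * H ^ (49 / 50 : ℝ)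
            * R ^ (-(49 / 100) : ℝ) := by rw [e4]; ring
      _ = _ := by rw [e5]
  have hRR : R ^ (1 / 800 : ℝ) * R ^ (39 / 80 : ℝ) * R ^ (-(49 / 100) : ℝ)
      = R ^ (-(1 / 800) : ℝ) := by
    rw [← Real.rpow_add hR0, ← Real.rpow_add hR0]
    norm_num
  have hmθ : 0 ≤ m ^ (51 / 100 : ℝ) := Real.rpow_nonneg hm _
  have h6 : K * e1 ≤ K * (K' * R ^ (1 / 800 : ℝ) *
      (m1 ^ (51 / 100 : ℝ) * H ^ (49 / 50 : ℝ) * R ^ (-(49 / 100) : ℝ))) :=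
    mul_le_mul_of_nonneg_left
      (h2.trans (mul_le_mul_of_nonneg_left h5 (mul_nonneg hK' (hRr _).le))) hK
  have h7 : e * m1 ^ (51 / 100 : ℝ) ≤
      (K * K' * H ^ (49 / 50 : ℝ) * R ^ (-(1 / 800) : ℝ) * m ^ (51 / 100 : ℝ))
        * m1 ^ (51 / 100 : ℝ) := by
    calc e * m1 ^ (51 / 100 : ℝ) ≤ K * e1 * R ^ (39 / 80 : ℝ) * m ^ (51 / 100 : ℝ) := h1
      _ ≤ (K * (K' * R ^ (1 / 800 : ℝ) *
            (m1 ^ (51 / 100 : ℝ) * H ^ (49 / 50 : ℝ) * R ^ (-(49 / 100) : ℝ))))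
            * R ^ (39 / 80 : ℝ) * m ^ (51 / 100 : ℝ) :=
          mul_le_mul_of_nonneg_right (mul_le_mul_of_nonneg_right h6 (hRr _).le) hmθ
      _ = (K * K' * H ^ (49 / 50 : ℝ)
            * (R ^ (1 / 800 : ℝ) * R ^ (39 / 80 : ℝ) * R ^ (-(49 / 100) : ℝ))
            * m ^ (51 / 100 : ℝ)) * m1 ^ (51 / 100 : ℝ) := by ring
      _ = _ := by rw [hRR]
  exact le_of_mul_le_mul_right h7 (hmr _)

end Vale.Agent.P028E
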