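import Vale.Agent.Lib.P028.E.LDefs

/-!
# P028 E: arithmetic structure of an edge without common deviation

Compare `p`-adic valuations (`Nat.eq_of_factorization_eq`).  For `p ∈ P`: `v_p = a_p`, `w_p = b_p`,
`N_p = 0` (so `gcd (v, N)` has no `p`), `xv` has valuation `0`, `jv` valuation `0`.
For `p ∉ P`: `a_p = b_p = 0`; `xv P N v` has valuation `v_p - min(v_p, N_p)`, `jv N v` has
`N_p - min(v_p, N_p)`; `qp v w` has valuation `v_p - min(v_p, w_p)`.  If `v_p = N_p` or `w_p = N_p`
then `v_p - min(v_p,w_p) = (v_p - min(v_p,N_p)) + (N_p - min(w_p,N_p))`.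
-/

open Finset

namespace Vale.Agent.P028E

theorem st_partP_ne {P : Finset ℕ} (hP : ∀ p ∈ P, p.Prime) (n : ℕ) : partP P n ≠ 0 := by
  unfold partP
  rw [Finset.prod_ne_zero_iff]
  intro p hp
  exact pow_ne_zero _ (hP p hp).ne_zero

theorem st_fac_partP {P : Finset ℕ} (hP : ∀ p ∈ P, p.Prime) (n q : ℕ) :
    (partP P n).factorization q = if q ∈ P then n.factorization q else 0 := by
  unfold partP
  rw [Nat.factorization_prod (fun p hp => pow_ne_zero _ (hP p hp).ne_zero)]
  rw [Finsupp.finsetSum_apply]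
  have h1 : ∀ p ∈ P, (p ^ n.factorization p).factorization q =
      if p = q then n.factorization q else 0 := by
    intro p hp
    rw [(hP p hp).factorization_pow, Finsupp.single_apply]
    split_ifs with h
    · rw [h]
    · rfl
  rw [Finset.sum_congr rfl h1, Finset.sum_ite_eq' P q]

theorem st_partP_dvd {P : Finset ℕ} (hP : ∀ p ∈ P, p.Prime) {n : ℕ} (hn : 0 < n) :
    partP P n ∣ n := by
  rw [← Nat.factorization_le_iff_dvd (st_partP_ne hP n) hn.ne']
  intro q
  rw [st_fac_partP hP]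
  split_ifs
  · exact le_refl _
  · exact Nat.zero_le _

theorem st_facN {P : Finset ℕ} {N : ℕ} (hNP : ∀ p ∈ P, ¬ p ∣ N) {p : ℕ} (hp : p ∈ P) :
    N.factorization p = 0 := Nat.factorization_eq_zero_of_not_dvd (hNP p hp)

theorem st_fac_gcd {v N : ℕ} (hv : 0 < v) (hN : 0 < N) (p : ℕ) :
    (Nat.gcd v N).factorization p = min (v.factorization p) (N.factorization p) := by
  rw [Nat.factorization_gcd hv.ne' hN.ne']
  rfl

theorem st_fac_div {n d : ℕ} (h : d ∣ n) (p : ℕ) :
    (n / d).factorization p = n.factorization p - d.factorization p := by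
  rw [Nat.factorization_div h]
  rfl

theorem st_gcd_dvd {P : Finset ℕ} (hP : ∀ p ∈ P, p.Prime) {N w : ℕ} (hw : 0 < w) (hN : 0 < N)
    (hNP : ∀ p ∈ P, ¬ p ∣ N) : Nat.gcd w N ∣ w / partP P w := by
  have hd := st_partP_dvd hP hw
  have h0 : w / partP P w ≠ 0 := (Nat.div_pos (Nat.le_of_dvd hw hd)
    (Nat.pos_of_ne_zero (st_partP_ne hP w))).ne'
  have hg : Nat.gcd w N ≠ 0 := (Nat.gcd_pos_of_pos_left N hw).ne'
  rw [← Nat.factorization_le_iff_dvd hg h0]
  intro q
  rw [st_fac_gcd hw hN, st_fac_div hd, st_fac_partP hP]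
  split_ifs with hq
  · rw [st_facN hNP hq]
    simp
  · simp

theorem st_xv_pos {P : Finset ℕ} (hP : ∀ p ∈ P, p.Prime) {N w : ℕ} (hw : 0 < w) (hN : 0 < N)
    (hNP : ∀ p ∈ P, ¬ p ∣ N) : 0 < xv P N w := by
  have hd := st_partP_dvd hP hw
  have h0 : 0 < w / partP P w := Nat.div_pos (Nat.le_of_dvd hw hd)
    (Nat.pos_of_ne_zero (st_partP_ne hP w))
  exact Nat.div_pos (Nat.le_of_dvd h0 (st_gcd_dvd hP hw hN hNP)) (Nat.gcd_pos_of_pos_left N hw)

theorem st_fac_xv {P : Finset ℕ} (hP : ∀ p ∈ P, p.Prime) {N w : ℕ} (hw : 0 < w) (hN : 0 < N)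
    (hNP : ∀ p ∈ P, ¬ p ∣ N) (q : ℕ) : (xv P N w).factorization q =
      if q ∈ P then 0 else w.factorization q - min (w.factorization q) (N.factorization q) := by
  unfold xv
  rw [st_fac_div (st_gcd_dvd hP hw hN hNP), st_fac_div (st_partP_dvd hP hw), st_fac_partP hP,
    st_fac_gcd hw hN]
  split_ifs with hq
  · simp
  · simp

theorem st_jv_pos {N w : ℕ} (hN : 0 < N) : 0 < jv N w :=
  Nat.div_pos (Nat.le_of_dvd hN (Nat.gcd_dvd_right w N)) (Nat.gcd_pos_of_pos_right w hN)

theorem st_fac_jv {N w : ℕ} (hw : 0 < w) (hN : 0 < N) (q : ℕ) : (jv N w).factorization q =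
    N.factorization q - min (w.factorization q) (N.factorization q) := by
  unfold jv
  rw [st_fac_div (Nat.gcd_dvd_right w N), st_fac_gcd hw hN]

theorem st_qp_pos {v w : ℕ} (hv : 0 < v) : 0 < qp v w :=
  Nat.div_pos (Nat.le_of_dvd hv (Nat.gcd_dvd_left v w)) (Nat.gcd_pos_of_pos_left w hv)

theorem st_fac_qp {v w : ℕ} (hv : 0 < v) (hw : 0 < w) (q : ℕ) : (qp v w).factorization q =
    v.factorization q - min (v.factorization q) (w.factorization q) := by
  unfold qp
  rw [st_fac_div (Nat.gcd_dvd_left v w), st_fac_gcd hv hw]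

theorem struct_q {P : Finset ℕ} (hP : ∀ p ∈ P, p.Prime) {N v w a b : ℕ} (hv : 0 < v) (hw : 0 < w)
    (hN : 0 < N) (hNP : ∀ p ∈ P, ¬ p ∣ N) (ha : partP P v = a) (hb : partP P w = b)
    (h : NoCom P N v w) : qp v w = (a / Nat.gcd a b) * xv P N v * jv N w := by
  have ha0 : 0 < a := by
    rw [← ha]
    exact Nat.pos_of_ne_zero (st_partP_ne hP v)
  have hb0 : 0 < b := by
    rw [← hb]
    exact Nat.pos_of_ne_zero (st_partP_ne hP w)
  have hab : 0 < a / Nat.gcd a b := st_qp_pos (v := a) (w := b) ha0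
  have hx := st_xv_pos hP (w := v) hv hN hNP
  have hj := st_jv_pos (w := w) hN
  apply Nat.eq_of_factorization_eq (st_qp_pos hv).ne' (Nat.mul_pos (Nat.mul_pos hab hx) hj).ne'
  intro p
  rw [st_fac_qp hv hw, Nat.factorization_mul (Nat.mul_pos hab hx).ne' hj.ne',
    Nat.factorization_mul hab.ne' hx.ne']
  simp only [Finsupp.add_apply]
  have e1 : (a / Nat.gcd a b).factorization p =
      a.factorization p - min (a.factorization p) (b.factorization p) := st_fac_qp ha0 hb0 p
  rw [e1, st_fac_xv hP hv hN hNP, st_fac_jv hw hN, ← ha, ← hb, st_fac_partP hP, st_fac_partP hP]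
  by_cases hp : p ∈ P
  · rw [if_pos hp, if_pos hp, if_pos hp, st_facN hNP hp]
    simp
  · rw [if_neg hp, if_neg hp, if_neg hp]
    by_cases hpp : p.Prime
    · rcases h p hpp hp with h1 | h1
      · rw [h1]
        omega
      · rw [h1]
        omega
    · rw [Nat.factorization_eq_zero_of_not_prime v hpp, Nat.factorization_eq_zero_of_not_prime N hpp]
      simp

theorem struct_w {P : Finset ℕ} (hP : ∀ p ∈ P, p.Prime) {N w b : ℕ} (hw : 0 < w)
    (hN : 0 < N) (hNP : ∀ p ∈ P, ¬ p ∣ N) (hb : partP P w = b) :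
    w * jv N w = b * N * xv P N w := by
  have hb0 : 0 < b := by
    rw [← hb]
    exact Nat.pos_of_ne_zero (st_partP_ne hP w)
  have hx := st_xv_pos hP (w := w) hw hN hNP
  have hj := st_jv_pos (w := w) hN
  apply Nat.eq_of_factorization_eq (Nat.mul_pos hw hj).ne'
    (Nat.mul_pos (Nat.mul_pos hb0 hN) hx).ne'
  intro p
  rw [Nat.factorization_mul hw.ne' hj.ne', Nat.factorization_mul (Nat.mul_pos hb0 hN).ne' hx.ne',
    Nat.factorization_mul hb0.ne' hN.ne']
  simp only [Finsupp.add_apply]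
  rw [st_fac_xv hP hw hN hNP, st_fac_jv hw hN, ← hb, st_fac_partP hP]
  by_cases hp : p ∈ P
  · rw [if_pos hp, if_pos hp, st_facN hNP hp]
    simp
  · rw [if_neg hp, if_neg hp]
    omega

theorem jv_dvd (N w : ℕ) : jv N w ∣ N := Nat.div_dvd_of_dvd (Nat.gcd_dvd_right w N)

theorem jv_pos {N w : ℕ} (hN : 0 < N) : 0 < jv N w := st_jv_pos hN

theorem xv_pos {P : Finset ℕ} (hP : ∀ p ∈ P, p.Prime) {N w : ℕ} (hw : 0 < w) (hN : 0 < N)
    (hNP : ∀ p ∈ P, ¬ p ∣ N) : 0 < xv P N w := st_xv_pos hP hw hN hNP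

/-- a prime of `N` missing in `v` divides `qp w v` and is not in `P` -/
theorem missing {P : Finset ℕ} {N v w p : ℕ} (hv : 0 < v) (hw : 0 < w)
    (hN : 0 < N) (hNP : ∀ p ∈ P, ¬ p ∣ N) (h : NoCom P N v w) (hp : p.Prime) (hpN : p ∣ N)
    (hpv : ¬ p ∣ v) : p ∣ qp w v ∧ p ∉ P := by
  have hpP : p ∉ P := fun hh => hNP p hh hpN
  refine ⟨?_, hpP⟩
  have hNp : 0 < N.factorization p := hp.factorization_pos_of_dvd hN.ne' hpN
  have hvp : v.factorization p = 0 := Nat.factorization_eq_zero_of_not_dvd hpv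
  have hwp : w.factorization p = N.factorization p := by
    rcases h p hp hpP with h1 | h1
    · rw [hvp] at h1
      omega
    · exact h1
  have h2 : (qp w v).factorization p ≠ 0 := by
    rw [st_fac_qp hw hv, hvp, hwp]
    omega
  by_contra hcon
  exact h2 (Nat.factorization_eq_zero_of_not_dvd hcon)

theorem qp_coprime {v w : ℕ} (hv : 0 < v) : Nat.Coprime (qp v w) (qp w v) := by
  unfold qp
  rw [Nat.gcd_comm w v]
  exact Nat.coprime_div_gcd_div_gcd (Nat.gcd_pos_of_pos_left w hv)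

theorem qp_pos {v w : ℕ} (hv : 0 < v) : 0 < qp v w := st_qp_pos hv

/-- primes dividing `q' r'` inside `P` divide `rab a b` -/
theorem prime_in_P {P : Finset ℕ} (hP : ∀ p ∈ P, p.Prime) {N v w a b p : ℕ} (hv : 0 < v)
    (hw : 0 < w) (hN : 0 < N) (hNP : ∀ p ∈ P, ¬ p ∣ N) (ha : partP P v = a) (hb : partP P w = b)
    (h : NoCom P N v w) (hp : p ∈ P) (hd : p ∣ qp v w * qp w v) : p ∣ rab a b := by
  have ha0 : 0 < a := by
    rw [← ha]
    exact Nat.pos_of_ne_zero (st_partP_ne hP v)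
  have hb0 : 0 < b := by
    rw [← hb]
    exact Nat.pos_of_ne_zero (st_partP_ne hP w)
  have hq1 : 0 < qp v w := st_qp_pos hv
  have hq2 : 0 < qp w v := st_qp_pos hw
  have h1 : 0 < a / Nat.gcd a b := st_qp_pos (v := a) (w := b) ha0
  have h2 : 0 < b / Nat.gcd a b := by
    rw [Nat.gcd_comm]
    exact st_qp_pos (v := b) (w := a) hb0
  have hpp := hP p hp
  have h3 : 0 < (qp v w * qp w v).factorization p :=
    hpp.factorization_pos_of_dvd (Nat.mul_pos hq1 hq2).ne' hd
  rw [Nat.factorization_mul hq1.ne' hq2.ne'] at h3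
  simp only [Finsupp.add_apply] at h3
  rw [st_fac_qp hv hw, st_fac_qp hw hv] at h3
  have hfa : a.factorization p = v.factorization p := by
    rw [← ha, st_fac_partP hP, if_pos hp]
  have hfb : b.factorization p = w.factorization p := by
    rw [← hb, st_fac_partP hP, if_pos hp]
  have h4 : (rab a b).factorization p ≠ 0 := by
    unfold rab
    rw [Nat.factorization_mul h1.ne' h2.ne']
    simp only [Finsupp.add_apply]
    have e1 : (a / Nat.gcd a b).factorization p =
      a.factorization p - min (a.factorization p) (b.factorization p) := st_fac_qp ha0 hb0 p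
    have e2 : (b / Nat.gcd a b).factorization p =
      b.factorization p - min (b.factorization p) (a.factorization p) := by
      rw [Nat.gcd_comm]
      exact st_fac_qp hb0 ha0 p
    rw [e1, e2, hfa, hfb]
    omega
  by_contra hcon
  exact h4 (Nat.factorization_eq_zero_of_not_dvd hcon)

end Vale.Agent.P028E
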