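import Vale.Agent.Lib.P028.E.LDefs

/-!
# P028 E: typical edges

Fix a leaf; write `e = eW V1 W1`, and for a prime `p ∉ P`: `x_i = ms (vfil V1 p i)/ms V1`,
`y_j` similarly, `k = N.factorization p`, `s = 1 - x_k ≤ p^(-β)`, `s' = 1 - y_k ≤ p^(-β)`,
`β = 397/400`, `κ = p^(-39/80)`, `θ = 51/100`.  `p ∉ P` forces `p ≥ p1` (large), so `κ ≤ 1/2`.

(1) both deviate: `∑_{i,j≠k} e_ij ≤ e ∑_{i,j≠k} Kp (x_i y_j)^θ ≤ e (s s')^(1/100) ∑ Kp (x_i+y_j)/2
    ≤ e p^(-β/50) * 6 * (s+s')/2 ≤ 6 e p^(-(51/50) β)` and `(51/50) β > 101/100`.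
    (`(x_i y_j)^θ = (x_i y_j)^(1/100) (x_i y_j)^(1/2)`, `x_i ≤ s`, `y_j ≤ s'`; `∑_j Kp p i j ≤ 6`.)
(2) `v_p ≠ w_p`: besides (1) there are the terms `i = k, j ≠ k`:
    `∑_{j≠k} κ^|k-j| y_j^θ ≤ s'^θ * 2κ/(1-κ) ≤ 4 κ p^(-θβ)`, and the symmetric ones; total
    `≤ 8 p^(-39/80 - θβ) + 6 p^(-101/100) ≤ 14 p^(-99/100)` as `39/80 + θβ = 0.993675`.
Union bound over the primes `p ∉ P` dividing some element of `V1 ∪ W1` (a common deviation at
`p` or `p ∣ q' r'` forces `p` to divide `v w N`; if `p ∣ N`, `p` divides elements by `concV`).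
`p ∣ qp v w * qp w v ↔ v.factorization p ≠ w.factorization p`.  Markov for `gsum`.
`p1` is so large that `∑_{p ≥ p1} 6 p^(-101/100) ≤ 1/16` (tail of a convergent series).
Not Good ⟹ (not NoCom) or (gsum > 1): total `≤ 1/16 + 1/16`.
-/

open Finset

namespace Vale.Agent.P028E

namespace TypAux

theorem geo (κ : ℝ) (h0 : 0 ≤ κ) (h1 : κ ≤ 1 / 2) (A : Finset ℕ) : ∑ m ∈ A, κ ^ m ≤ 2 := by
  have hs := summable_geometric_of_lt_one h0 (by linarith : κ < 1)
  have h2 := hs.sum_le_tsum A (fun m _ => pow_nonneg h0 m)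
  rw [tsum_geometric_of_lt_one h0 (by linarith)] at h2
  have h3 : (1 - κ)⁻¹ ≤ 2 := by
    rw [inv_le_comm₀ (by linarith) (by norm_num)]
    linarith
  linarith

theorem geo_inj (κ : ℝ) (h0 : 0 ≤ κ) (h1 : κ ≤ 1 / 2) (A : Finset ℕ) (φ : ℕ → ℕ)
    (hφ : Set.InjOn φ (A : Set ℕ)) : ∑ m ∈ A, κ ^ φ m ≤ 2 := by
  rw [← Finset.sum_image (f := fun m => κ ^ m) hφ]
  exact geo κ h0 h1 _

theorem row (κ : ℝ) (h0 : 0 ≤ κ) (h1 : κ ≤ 1 / 2) (J : Finset ℕ) (i : ℕ) :
    ∑ j ∈ J, κ ^ ds i j ≤ 4 := by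
  rw [← Finset.sum_filter_add_sum_filter_not J (fun j => j ≤ i)]
  have a1 : ∑ j ∈ J.filter (fun j => j ≤ i), κ ^ ds i j ≤ 2 := by
    refine geo_inj κ h0 h1 _ (fun j => ds i j) ?_
    intro a ha b hb e
    simp only [Finset.coe_filter, Set.mem_ofPred_eq] at ha hb
    simp only [ds] at e
    omega
  have a2 : ∑ j ∈ J.filter (fun j => ¬ j ≤ i), κ ^ ds i j ≤ 2 := by
    refine geo_inj κ h0 h1 _ (fun j => ds i j) ?_
    intro a ha b hb e
    simp only [Finset.coe_filter, Set.mem_ofPred_eq] at ha hb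
    simp only [ds] at e
    omega
  linarith

theorem row' (κ : ℝ) (h0 : 0 ≤ κ) (h1 : κ ≤ 1 / 2) (J : Finset ℕ) (i : ℕ) :
    ∑ j ∈ J.erase i, κ ^ ds i j ≤ 4 * κ := by
  have e : ∀ j ∈ J.erase i, κ ^ ds i j = κ * κ ^ (ds i j - 1) := by
    intro j hj
    rw [Finset.mem_erase] at hj
    have h2 : ds i j = (ds i j - 1) + 1 := by
      have : 1 ≤ ds i j := by
        simp only [ds]
        omega
      omega
    conv_lhs => rw [h2, pow_succ, mul_comm]
  rw [Finset.sum_congr rfl e, ← Finset.mul_sum, mul_comm 4 κ]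
  refine mul_le_mul_of_nonneg_left ?_ h0
  rw [← Finset.sum_filter_add_sum_filter_not (J.erase i) (fun j => j ≤ i)]
  have a1 : ∑ j ∈ (J.erase i).filter (fun j => j ≤ i), κ ^ (ds i j - 1) ≤ 2 := by
    refine geo_inj κ h0 h1 _ (fun j => ds i j - 1) ?_
    intro a ha b hb e
    simp only [Finset.coe_filter, Set.mem_ofPred_eq, Finset.mem_erase] at ha hb
    simp only [ds] at e
    omega
  have a2 : ∑ j ∈ (J.erase i).filter (fun j => ¬ j ≤ i), κ ^ (ds i j - 1) ≤ 2 := by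
    refine geo_inj κ h0 h1 _ (fun j => ds i j - 1) ?_
    intro a ha b hb e
    simp only [Finset.coe_filter, Set.mem_ofPred_eq, Finset.mem_erase] at ha hb
    simp only [ds] at e
    omega
  linarith

theorem ds_comm (i j : ℕ) : ds i j = ds j i := by
  simp only [ds]
  omega

/-- both deviate -/
theorem both (κ t : ℝ) (h0 : 0 ≤ κ) (h1 : κ ≤ 1 / 2) (ht : 0 < t) (J : Finset ℕ) (x y : ℕ → ℝ)
    (hx : ∀ i ∈ J, 0 ≤ x i) (hy : ∀ i ∈ J, 0 ≤ y i) (sx : ∑ i ∈ J, x i ≤ t)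
    (sy : ∑ i ∈ J, y i ≤ t) :
    ∑ i ∈ J, ∑ j ∈ J, κ ^ ds i j * (x i * y j) ^ (51 / 100 : ℝ) ≤ 6 * t ^ (51 / 50 : ℝ) := by
  have xt : ∀ i ∈ J, x i ≤ t := fun i hi => (Finset.single_le_sum hx hi).trans sx
  have yt : ∀ i ∈ J, y i ≤ t := fun i hi => (Finset.single_le_sum hy hi).trans sy
  have hterm : ∀ i ∈ J, ∀ j ∈ J, κ ^ ds i j * (x i * y j) ^ (51 / 100 : ℝ) ≤
      t ^ (1 / 50 : ℝ) * (κ ^ ds i j * (x i / 2) + κ ^ ds j i * (y j / 2)) := by
    intro i hi j hj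
    have hxi := hx i hi
    have hyj := hy j hj
    have hxy : 0 ≤ x i * y j := mul_nonneg hxi hyj
    have e1 : (x i * y j) ^ (51 / 100 : ℝ) =
        (x i * y j) ^ (1 / 100 : ℝ) * (x i * y j) ^ (1 / 2 : ℝ) := by
      rw [← Real.rpow_add_of_nonneg hxy (by norm_num) (by norm_num)]
      norm_num
    have e2 : (x i * y j) ^ (1 / 100 : ℝ) ≤ t ^ (1 / 50 : ℝ) := by
      have h3 : x i * y j ≤ t * t := mul_le_mul (xt i hi) (yt j hj) hyj ht.le
      have h4 := Real.rpow_le_rpow hxy h3 (by norm_num : (0 : ℝ) ≤ 1 / 100)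
      rw [Real.mul_rpow ht.le ht.le, ← Real.rpow_add ht] at h4
      norm_num at h4 ⊢
      exact h4
    have e3 : (x i * y j) ^ (1 / 2 : ℝ) ≤ (x i + y j) / 2 := by
      rw [← Real.sqrt_eq_rpow, Real.sqrt_le_left (by linarith)]
      nlinarith [sq_nonneg (x i - y j)]
    have e4 : (x i * y j) ^ (51 / 100 : ℝ) ≤ t ^ (1 / 50 : ℝ) * ((x i + y j) / 2) := by
      rw [e1]
      exact mul_le_mul e2 e3 (Real.rpow_nonneg hxy _) (Real.rpow_nonneg ht.le _)
    have e5 := mul_le_mul_of_nonneg_left e4 (pow_nonneg h0 (ds i j))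
    refine e5.trans (le_of_eq ?_)
    rw [ds_comm j i]
    ring
  have h5 : ∑ i ∈ J, ∑ j ∈ J, κ ^ ds i j * (x i * y j) ^ (51 / 100 : ℝ) ≤
      ∑ i ∈ J, ∑ j ∈ J, t ^ (1 / 50 : ℝ) * (κ ^ ds i j * (x i / 2) + κ ^ ds j i * (y j / 2)) :=
    Finset.sum_le_sum fun i hi => Finset.sum_le_sum fun j hj => hterm i hi j hj
  refine h5.trans ?_
  have e6 : ∑ i ∈ J, ∑ j ∈ J, t ^ (1 / 50 : ℝ) * (κ ^ ds i j * (x i / 2) + κ ^ ds j i * (y j / 2)) =
      t ^ (1 / 50 : ℝ) * (∑ i ∈ J, (∑ j ∈ J, κ ^ ds i j) * (x i / 2) +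
        ∑ j ∈ J, (∑ i ∈ J, κ ^ ds j i) * (y j / 2)) := by
    have e7 : ∑ j ∈ J, (∑ i ∈ J, κ ^ ds j i) * (y j / 2) =
        ∑ i ∈ J, ∑ j ∈ J, κ ^ ds j i * (y j / 2) := by
      rw [Finset.sum_comm]
      exact Finset.sum_congr rfl fun j _ => by rw [Finset.sum_mul]
    rw [e7, ← Finset.sum_add_distrib, Finset.mul_sum]
    refine Finset.sum_congr rfl fun i _ => ?_
    rw [Finset.sum_mul, ← Finset.sum_add_distrib, Finset.mul_sum]
  rw [e6]
  have e8 : t ^ (51 / 50 : ℝ) = t ^ (1 / 50 : ℝ) * t := by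
    rw [← Real.rpow_add_one ht.ne']
    norm_num
  rw [e8]
  have h6 : ∑ i ∈ J, (∑ j ∈ J, κ ^ ds i j) * (x i / 2) ≤ 2 * t := by
    calc ∑ i ∈ J, (∑ j ∈ J, κ ^ ds i j) * (x i / 2) ≤ ∑ i ∈ J, 4 * (x i / 2) :=
          Finset.sum_le_sum fun i hi => mul_le_mul_of_nonneg_right (row κ h0 h1 J i)
            (by have := hx i hi; linarith)
      _ = 2 * ∑ i ∈ J, x i := by
          rw [Finset.mul_sum]
          exact Finset.sum_congr rfl fun i _ => by ring
      _ ≤ 2 * t := by linarith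
  have h7 : ∑ j ∈ J, (∑ i ∈ J, κ ^ ds j i) * (y j / 2) ≤ 2 * t := by
    calc ∑ j ∈ J, (∑ i ∈ J, κ ^ ds j i) * (y j / 2) ≤ ∑ j ∈ J, 4 * (y j / 2) :=
          Finset.sum_le_sum fun i hi => mul_le_mul_of_nonneg_right (row κ h0 h1 J i)
            (by have := hy i hi; linarith)
      _ = 2 * ∑ i ∈ J, y i := by
          rw [Finset.mul_sum]
          exact Finset.sum_congr rfl fun i _ => by ring
      _ ≤ 2 * t := by linarith
  have h8 : 0 ≤ t ^ (1 / 50 : ℝ) := Real.rpow_nonneg ht.le _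
  nlinarith [mul_nonneg h8 ht.le]

/-- one deviates -/
theorem one_dev (κ t xk : ℝ) (h0 : 0 ≤ κ) (h1 : κ ≤ 1 / 2) (ht : 0 < t) (I : Finset ℕ) (k : ℕ)
    (y : ℕ → ℝ) (hk0 : 0 ≤ xk) (hk1 : xk ≤ 1)
    (hy : ∀ i ∈ I.erase k, 0 ≤ y i) (sy : ∑ i ∈ I.erase k, y i ≤ t) :
    ∑ j ∈ I.erase k, κ ^ ds k j * (xk * y j) ^ (51 / 100 : ℝ) ≤ 4 * κ * t ^ (51 / 100 : ℝ) := by
  have yt : ∀ i ∈ I.erase k, y i ≤ t := fun i hi => (Finset.single_le_sum hy hi).trans sy
  have h2 : ∀ j ∈ I.erase k, κ ^ ds k j * (xk * y j) ^ (51 / 100 : ℝ) ≤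
      κ ^ ds k j * t ^ (51 / 100 : ℝ) := by
    intro j hj
    refine mul_le_mul_of_nonneg_left ?_ (pow_nonneg h0 _)
    refine Real.rpow_le_rpow (mul_nonneg hk0 (hy j hj)) ?_ (by norm_num)
    calc xk * y j ≤ 1 * y j := mul_le_mul_of_nonneg_right hk1 (hy j hj)
      _ = y j := one_mul _
      _ ≤ t := yt j hj
  refine (Finset.sum_le_sum h2).trans ?_
  rw [← Finset.sum_mul]
  exact mul_le_mul_of_nonneg_right (row' κ h0 h1 I k) (Real.rpow_nonneg ht.le _)

/-- splitting of a double sum according to the valuations -/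
theorem fiber (V1 W1 I : Finset ℕ) (p : ℕ) (Φ : ℕ → ℕ → ℝ) (R : ℕ → ℕ → Prop)
    [∀ i j, Decidable (R i j)]
    (hV : ∀ v ∈ V1, v.factorization p ∈ I) (hW : ∀ w ∈ W1, w.factorization p ∈ I) :
    ∑ v ∈ V1, ∑ w ∈ W1, (if R (v.factorization p) (w.factorization p) then Φ v w else 0) =
      ∑ i ∈ I, ∑ j ∈ I, (if R i j then ∑ v ∈ vfil V1 p i, ∑ w ∈ vfil W1 p j, Φ v w else 0) := by
  rw [← Finset.sum_fiberwise_of_maps_to (g := fun v => v.factorization p) hV]
  refine Finset.sum_congr rfl fun i _ => ?_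
  have h1 : ∀ v ∈ V1.filter (fun v => v.factorization p = i),
      ∑ w ∈ W1, (if R (v.factorization p) (w.factorization p) then Φ v w else 0) =
      ∑ j ∈ I, (if R i j then ∑ w ∈ vfil W1 p j, Φ v w else 0) := by
    intro v hv
    rw [← Finset.sum_fiberwise_of_maps_to (g := fun w => w.factorization p) hW]
    refine Finset.sum_congr rfl fun j _ => ?_
    rw [(Finset.mem_filter.1 hv).2]
    by_cases hR : R i j
    · rw [if_pos hR]
      refine Finset.sum_congr rfl fun w hw => ?_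
      rw [(Finset.mem_filter.1 hw).2, if_pos hR]
    · rw [if_neg hR]
      refine Finset.sum_eq_zero fun w hw => ?_
      rw [(Finset.mem_filter.1 hw).2, if_neg hR]
  rw [Finset.sum_congr rfl h1, Finset.sum_comm]
  refine Finset.sum_congr rfl fun j _ => ?_
  by_cases hR : R i j
  · rw [if_pos hR]
    refine Finset.sum_congr rfl fun v _ => ?_
    rw [if_pos hR]
  · rw [if_neg hR]
    refine Finset.sum_eq_zero fun v _ => ?_
    rw [if_neg hR]

theorem ms_nonneg (V1 : Finset ℕ) (μ : ℕ → ℝ) (h : ∀ v ∈ V1, 0 < μ v) : 0 ≤ ms V1 μ :=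
  Finset.sum_nonneg fun v hv => (h v hv).le

/-- sum of the masses of the deviating classes -/
theorem sum_dev (V1 I : Finset ℕ) (μ : ℕ → ℝ) (p k : ℕ)
    (hV : ∀ v ∈ V1, v.factorization p ∈ I) :
    ∑ i ∈ I.erase k, ms (vfil V1 p i) μ = ms (vne V1 p k) μ := by
  unfold ms vne vfil
  have hmap : ∀ v ∈ V1.filter (fun v => v.factorization p ≠ k), v.factorization p ∈ I.erase k := by
    intro v hv
    rw [Finset.mem_filter] at hv
    exact Finset.mem_erase.2 ⟨hv.2, hV v hv.1⟩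
  have hsf := Finset.sum_fiberwise_of_maps_to (s := V1.filter (fun v => v.factorization p ≠ k))
    (t := I.erase k) (g := fun v => v.factorization p) hmap μ
  rw [← hsf]
  refine Finset.sum_congr rfl fun i hi => ?_
  rw [Finset.filter_filter]
  refine Finset.sum_congr ?_ fun _ _ => rfl
  ext v
  rw [Finset.mem_filter, Finset.mem_filter]
  constructor
  · rintro ⟨h1, h2⟩
    exact ⟨h1, by rw [h2]; exact (Finset.mem_erase.1 hi).1, h2⟩
  · rintro ⟨h1, _, h2⟩
    exact ⟨h1, h2⟩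

theorem kap (p : ℕ) (hp : 16 ≤ p) : (p : ℝ) ^ (-(39 / 80) : ℝ) ≤ 1 / 2 := by
  have h16 : (16 : ℝ) ≤ (p : ℝ) := by exact_mod_cast hp
  have h1 : (p : ℝ) ^ (-(39 / 80) : ℝ) ≤ (16 : ℝ) ^ (-(39 / 80) : ℝ) :=
    Real.rpow_le_rpow_of_nonpos (by norm_num) h16 (by norm_num)
  have h2 : (16 : ℝ) ^ (-(39 / 80) : ℝ) ≤ (16 : ℝ) ^ (-(1 / 4) : ℝ) :=
    Real.rpow_le_rpow_of_exponent_le (by norm_num) (by norm_num)
  have h3 : (16 : ℝ) ^ (-(1 / 4) : ℝ) = 1 / 2 := by
    have h4 : (16 : ℝ) = 2 ^ (4 : ℝ) := by norm_num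
    rw [h4, ← Real.rpow_mul (by norm_num)]
    norm_num
  linarith

/-- estimates at one prime -/
theorem perprime (p1 : ℕ) (V W : Finset ℕ) (μ ν : ℕ → ℝ) (ω : ℕ → ℕ → ℝ)
    (V1 W1 P : Finset ℕ) (a b N : ℕ) (L : Leaf p1 V W μ ν ω V1 W1 P a b N)
    (hμ : ∀ v ∈ V1, 0 < μ v) (hν : ∀ w ∈ W1, 0 < ν w) (hω : ∀ v w, 0 ≤ ω v w)
    (p : ℕ) (hp : p.Prime) (hpP : p ∉ P) (hp16 : 16 ≤ p) :
    (∑ v ∈ V1, ∑ w ∈ W1, (if v.factorization p ≠ N.factorization p ∧
      w.factorization p ≠ N.factorization p then μ v * ν w * ω v w else 0) ≤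
      6 * (p : ℝ) ^ (-(101 / 100) : ℝ) * eW V1 W1 μ ν ω) ∧
    (∑ v ∈ V1, ∑ w ∈ W1, (if v.factorization p ≠ w.factorization p then
      μ v * ν w * ω v w else 0) ≤ 14 * (p : ℝ) ^ (-(99 / 100) : ℝ) * eW V1 W1 μ ν ω) := by
  obtain ⟨k, hk⟩ : ∃ k, k = N.factorization p := ⟨_, rfl⟩
  obtain ⟨e, he⟩ : ∃ e, e = eW V1 W1 μ ν ω := ⟨_, rfl⟩
  have he0 : 0 < e := he ▸ L.epos
  rw [← hk, ← he]
  -- masses are positive
  have hV1 : V1.Nonempty := by
    rw [Finset.nonempty_iff_ne_empty]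
    rintro rfl
    rw [he, eW] at he0
    simp at he0
  have hW1 : W1.Nonempty := by
    rw [Finset.nonempty_iff_ne_empty]
    rintro rfl
    rw [he, eW] at he0
    simp at he0
  have mV : 0 < ms V1 μ := Finset.sum_pos hμ hV1
  have mW : 0 < ms W1 ν := Finset.sum_pos hν hW1
  -- index set
  obtain ⟨I, hI⟩ : ∃ I : Finset ℕ, I = insert k (V1.image (fun v => v.factorization p) ∪
    W1.image (fun v => v.factorization p)) := ⟨_, rfl⟩
  have IV : ∀ v ∈ V1, v.factorization p ∈ I := by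
    intro v hv
    rw [hI]
    exact Finset.mem_insert_of_mem (Finset.mem_union_left _ (Finset.mem_image_of_mem _ hv))
  have IW : ∀ v ∈ W1, v.factorization p ∈ I := by
    intro v hv
    rw [hI]
    exact Finset.mem_insert_of_mem (Finset.mem_union_right _ (Finset.mem_image_of_mem _ hv))
  have Ik : k ∈ I := by rw [hI]; exact Finset.mem_insert_self _ _
  -- notation
  obtain ⟨x, hx⟩ : ∃ x : ℕ → ℝ, x = fun i => ms (vfil V1 p i) μ / ms V1 μ := ⟨_, rfl⟩
  obtain ⟨y, hy⟩ : ∃ y : ℕ → ℝ, y = fun i => ms (vfil W1 p i) ν / ms W1 ν := ⟨_, rfl⟩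
  have x0 : ∀ i, 0 ≤ x i := by
    intro i
    rw [hx]
    exact div_nonneg (ms_nonneg _ _ fun v hv => hμ v (Finset.mem_filter.1 hv).1) mV.le
  have y0 : ∀ i, 0 ≤ y i := by
    intro i
    rw [hy]
    exact div_nonneg (ms_nonneg _ _ fun v hv => hν v (Finset.mem_filter.1 hv).1) mW.le
  have x1 : x k ≤ 1 := by
    rw [hx]
    simp only
    rw [div_le_one mV]
    exact Finset.sum_le_sum_of_subset_of_nonneg (Finset.filter_subset _ _)
      fun v hv _ => (hμ v hv).le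
  have y1 : y k ≤ 1 := by
    rw [hy]
    simp only
    rw [div_le_one mW]
    exact Finset.sum_le_sum_of_subset_of_nonneg (Finset.filter_subset _ _)
      fun v hv _ => (hν v hv).le
  have hp0 : (0 : ℝ) < (p : ℝ) := by exact_mod_cast hp.pos
  have hp1 : (1 : ℝ) ≤ (p : ℝ) := by exact_mod_cast hp.one_lt.le
  obtain ⟨t, ht⟩ : ∃ t : ℝ, t = (p : ℝ) ^ (-(397 / 400) : ℝ) := ⟨_, rfl⟩
  have ht0 : 0 < t := by rw [ht]; exact Real.rpow_pos_of_pos hp0 _
  have sx : ∑ i ∈ I.erase k, x i ≤ t := by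
    rw [hx]
    simp only
    rw [← Finset.sum_div, sum_dev V1 I μ p k IV, div_le_iff₀ mV, ht, hk]
    exact L.concV p hp hpP
  have sy : ∑ i ∈ I.erase k, y i ≤ t := by
    rw [hy]
    simp only
    rw [← Finset.sum_div, sum_dev W1 I ν p k IW, div_le_iff₀ mW, ht, hk]
    exact L.concW p hp hpP
  obtain ⟨κ, hκ⟩ : ∃ κ : ℝ, κ = (p : ℝ) ^ (-(39 / 80) : ℝ) := ⟨_, rfl⟩
  have κ0 : 0 ≤ κ := by rw [hκ]; exact Real.rpow_nonneg hp0.le _
  have κ1 : κ ≤ 1 / 2 := by rw [hκ]; exact kap p hp16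
  have eij : ∀ i j, ∑ v ∈ vfil V1 p i, ∑ w ∈ vfil W1 p j, μ v * ν w * ω v w ≤
      e * (κ ^ ds i j * (x i * y j) ^ (51 / 100 : ℝ)) := by
    intro i j
    have h1 := L.edge p hp hpP i j
    rw [← he] at h1
    rw [hx, hy, hκ, ← mul_assoc]
    exact h1
  -- the three parts
  have A1 : ∑ v ∈ V1, ∑ w ∈ W1, (if v.factorization p ≠ k ∧ w.factorization p ≠ k then
      μ v * ν w * ω v w else 0) ≤ e * (6 * t ^ (51 / 50 : ℝ)) := by
    rw [fiber V1 W1 I p (fun v w => μ v * ν w * ω v w) (fun i j => i ≠ k ∧ j ≠ k) IV IW]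
    have h2 : ∑ i ∈ I, ∑ j ∈ I, (if i ≠ k ∧ j ≠ k then
        ∑ v ∈ vfil V1 p i, ∑ w ∈ vfil W1 p j, μ v * ν w * ω v w else 0) =
        ∑ i ∈ I.erase k, ∑ j ∈ I.erase k,
          ∑ v ∈ vfil V1 p i, ∑ w ∈ vfil W1 p j, μ v * ν w * ω v w := by
      rw [← Finset.sum_erase_add _ _ Ik]
      have h3 : ∑ j ∈ I, (if k ≠ k ∧ j ≠ k then
          ∑ v ∈ vfil V1 p k, ∑ w ∈ vfil W1 p j, μ v * ν w * ω v w else 0) = 0 :=
        Finset.sum_eq_zero fun j _ => by rw [if_neg]; exact fun h => h.1 rfl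
      rw [h3, add_zero]
      refine Finset.sum_congr rfl fun i hi => ?_
      rw [← Finset.sum_erase_add _ _ Ik]
      rw [if_neg (by exact fun h => h.2 rfl), add_zero]
      refine Finset.sum_congr rfl fun j hj => ?_
      rw [if_pos ⟨(Finset.mem_erase.1 hi).1, (Finset.mem_erase.1 hj).1⟩]
    rw [h2]
    calc ∑ i ∈ I.erase k, ∑ j ∈ I.erase k,
          ∑ v ∈ vfil V1 p i, ∑ w ∈ vfil W1 p j, μ v * ν w * ω v w
        ≤ ∑ i ∈ I.erase k, ∑ j ∈ I.erase k, e * (κ ^ ds i j * (x i * y j) ^ (51 / 100 : ℝ)) :=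
          Finset.sum_le_sum fun i _ => Finset.sum_le_sum fun j _ => eij i j
      _ = e * ∑ i ∈ I.erase k, ∑ j ∈ I.erase k, κ ^ ds i j * (x i * y j) ^ (51 / 100 : ℝ) := by
          rw [Finset.mul_sum]
          exact Finset.sum_congr rfl fun i _ => by rw [Finset.mul_sum]
      _ ≤ e * (6 * t ^ (51 / 50 : ℝ)) :=
          mul_le_mul_of_nonneg_left (both κ t κ0 κ1 ht0 _ x y (fun i _ => x0 i)
            (fun i _ => y0 i) sx sy) he0.le
  have A2 : ∑ v ∈ V1, ∑ w ∈ W1, (if v.factorization p = k ∧ w.factorization p ≠ k then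
      μ v * ν w * ω v w else 0) ≤ e * (4 * κ * t ^ (51 / 100 : ℝ)) := by
    rw [fiber V1 W1 I p (fun v w => μ v * ν w * ω v w) (fun i j => i = k ∧ j ≠ k) IV IW]
    have h2 : ∑ i ∈ I, ∑ j ∈ I, (if i = k ∧ j ≠ k then
        ∑ v ∈ vfil V1 p i, ∑ w ∈ vfil W1 p j, μ v * ν w * ω v w else 0) =
        ∑ j ∈ I.erase k, ∑ v ∈ vfil V1 p k, ∑ w ∈ vfil W1 p j, μ v * ν w * ω v w := by
      rw [Finset.sum_eq_single_of_mem k Ik]
      · rw [← Finset.sum_erase_add _ _ Ik]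
        rw [if_neg (by exact fun h => h.2 rfl), add_zero]
        refine Finset.sum_congr rfl fun j hj => ?_
        rw [if_pos ⟨rfl, (Finset.mem_erase.1 hj).1⟩]
      · intro i _ hik
        exact Finset.sum_eq_zero fun j _ => by rw [if_neg]; exact fun h => hik h.1
    rw [h2]
    calc ∑ j ∈ I.erase k, ∑ v ∈ vfil V1 p k, ∑ w ∈ vfil W1 p j, μ v * ν w * ω v w
        ≤ ∑ j ∈ I.erase k, e * (κ ^ ds k j * (x k * y j) ^ (51 / 100 : ℝ)) :=
          Finset.sum_le_sum fun j _ => eij k j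
      _ = e * ∑ j ∈ I.erase k, κ ^ ds k j * (x k * y j) ^ (51 / 100 : ℝ) := by
          rw [Finset.mul_sum]
      _ ≤ e * (4 * κ * t ^ (51 / 100 : ℝ)) :=
          mul_le_mul_of_nonneg_left (one_dev κ t (x k) κ0 κ1 ht0 I k y (x0 k) x1
            (fun i _ => y0 i) sy) he0.le
  have A3 : ∑ v ∈ V1, ∑ w ∈ W1, (if v.factorization p ≠ k ∧ w.factorization p = k then
      μ v * ν w * ω v w else 0) ≤ e * (4 * κ * t ^ (51 / 100 : ℝ)) := by
    rw [fiber V1 W1 I p (fun v w => μ v * ν w * ω v w) (fun i j => i ≠ k ∧ j = k) IV IW]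
    have h2 : ∑ i ∈ I, ∑ j ∈ I, (if i ≠ k ∧ j = k then
        ∑ v ∈ vfil V1 p i, ∑ w ∈ vfil W1 p j, μ v * ν w * ω v w else 0) =
        ∑ i ∈ I.erase k, ∑ v ∈ vfil V1 p i, ∑ w ∈ vfil W1 p k, μ v * ν w * ω v w := by
      rw [Finset.sum_comm, Finset.sum_eq_single_of_mem k Ik]
      · rw [← Finset.sum_erase_add _ _ Ik]
        rw [if_neg (by exact fun h => h.1 rfl), add_zero]
        refine Finset.sum_congr rfl fun j hj => ?_
        rw [if_pos ⟨(Finset.mem_erase.1 hj).1, rfl⟩]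
      · intro i _ hik
        exact Finset.sum_eq_zero fun j _ => by rw [if_neg]; exact fun h => hik h.2
    rw [h2]
    calc ∑ i ∈ I.erase k, ∑ v ∈ vfil V1 p i, ∑ w ∈ vfil W1 p k, μ v * ν w * ω v w
        ≤ ∑ i ∈ I.erase k, e * (κ ^ ds k i * (y k * x i) ^ (51 / 100 : ℝ)) :=
          Finset.sum_le_sum fun i _ => by
            rw [ds_comm k i, mul_comm (y k) (x i)]
            exact eij i k
      _ = e * ∑ j ∈ I.erase k, κ ^ ds k j * (y k * x j) ^ (51 / 100 : ℝ) := by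
          rw [Finset.mul_sum]
      _ ≤ e * (4 * κ * t ^ (51 / 100 : ℝ)) :=
          mul_le_mul_of_nonneg_left (one_dev κ t (y k) κ0 κ1 ht0 I k x (y0 k) y1
            (fun i _ => x0 i) sx) he0.le
  -- powers of p
  have q1 : t ^ (51 / 50 : ℝ) ≤ (p : ℝ) ^ (-(101 / 100) : ℝ) := by
    rw [ht, ← Real.rpow_mul hp0.le]
    exact Real.rpow_le_rpow_of_exponent_le hp1 (by norm_num)
  have q2 : κ * t ^ (51 / 100 : ℝ) ≤ (p : ℝ) ^ (-(99 / 100) : ℝ) := by
    rw [ht, hκ, ← Real.rpow_mul hp0.le, ← Real.rpow_add hp0]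
    exact Real.rpow_le_rpow_of_exponent_le hp1 (by norm_num)
  have q3 : (p : ℝ) ^ (-(101 / 100) : ℝ) ≤ (p : ℝ) ^ (-(99 / 100) : ℝ) :=
    Real.rpow_le_rpow_of_exponent_le hp1 (by norm_num)
  constructor
  · refine A1.trans ?_
    have := mul_le_mul_of_nonneg_left q1 he0.le
    linarith
  · have hsplit : ∑ v ∈ V1, ∑ w ∈ W1, (if v.factorization p ≠ w.factorization p then
        μ v * ν w * ω v w else 0) ≤
        (∑ v ∈ V1, ∑ w ∈ W1, (if v.factorization p ≠ k ∧ w.factorization p ≠ k then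
          μ v * ν w * ω v w else 0)) +
        (∑ v ∈ V1, ∑ w ∈ W1, (if v.factorization p = k ∧ w.factorization p ≠ k then
          μ v * ν w * ω v w else 0)) +
        (∑ v ∈ V1, ∑ w ∈ W1, (if v.factorization p ≠ k ∧ w.factorization p = k then
          μ v * ν w * ω v w else 0)) := by
      rw [← Finset.sum_add_distrib, ← Finset.sum_add_distrib]
      refine Finset.sum_le_sum fun v hv => ?_
      rw [← Finset.sum_add_distrib, ← Finset.sum_add_distrib]
      refine Finset.sum_le_sum fun w hw => ?_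
      have hΦ : 0 ≤ μ v * ν w * ω v w :=
        mul_nonneg (mul_nonneg (hμ v hv).le (hν w hw).le) (hω v w)
      by_cases c1 : v.factorization p = k <;> by_cases c2 : w.factorization p = k
      · simp [c1, c2]
      · simp [c1, c2]
        split_ifs <;> linarith
      · simp [c1, c2]
      · simp [c1, c2]
        split_ifs <;> linarith
    refine hsplit.trans ?_
    have h1 := mul_le_mul_of_nonneg_left q1 he0.le
    have h2 := mul_le_mul_of_nonneg_left q2 he0.le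
    have h3 := mul_le_mul_of_nonneg_left q3 he0.le
    linarith

theorem qp_dvd (v w p : ℕ) (hv : 0 < v) (hw : 0 < w) (hp : p.Prime) (h : p ∣ qp v w) :
    v.factorization p ≠ w.factorization p := by
  intro e
  unfold qp at h
  have hg : Nat.gcd v w ∣ v := Nat.gcd_dvd_left v w
  have h0 : v / Nat.gcd v w ≠ 0 := by
    have := Nat.div_pos (Nat.le_of_dvd hv hg) (Nat.gcd_pos_of_pos_left w hv)
    omega
  have h1 : 0 < (v / Nat.gcd v w).factorization p := hp.factorization_pos_of_dvd h0 h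
  rw [Nat.factorization_div hg, Nat.factorization_gcd hv.ne' hw.ne'] at h1
  simp only [Finsupp.tsub_apply, Finsupp.inf_apply] at h1
  rw [← e] at h1
  simp at h1

theorem prime_mul (v w p : ℕ) (hv : 0 < v) (hw : 0 < w)
    (h : p ∈ (qp v w * qp w v).primeFactors) :
    v.factorization p ≠ w.factorization p ∧ (p ∈ v.primeFactors ∨ p ∈ w.primeFactors) := by
  have hp := Nat.prime_of_mem_primeFactors h
  have hd := Nat.dvd_of_mem_primeFactors h
  rcases (Nat.Prime.dvd_mul hp).1 hd with h1 | h1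
  · refine ⟨qp_dvd v w p hv hw hp h1, Or.inl ?_⟩
    exact Nat.mem_primeFactors.2 ⟨hp, h1.trans (Nat.div_dvd_of_dvd (Nat.gcd_dvd_left v w)), hv.ne'⟩
  · refine ⟨(qp_dvd w v p hw hv hp h1).symm, Or.inr ?_⟩
    exact Nat.mem_primeFactors.2 ⟨hp, h1.trans (Nat.div_dvd_of_dvd (Nat.gcd_dvd_left w v)), hw.ne'⟩

theorem mem_pf (v p : ℕ) (hp : p.Prime) (h : v.factorization p ≠ 0) : p ∈ v.primeFactors := by
  rw [← Nat.support_factorization]
  exact Finsupp.mem_support_iff.2 h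

end TypAux

open Classical in
theorem typ : ∃ p0 : ℕ, ∀ p1 : ℕ, p0 ≤ p1 → ∀ (V W : Finset ℕ) (μ ν : ℕ → ℝ)
    (ω : ℕ → ℕ → ℝ) (V1 W1 P : Finset ℕ) (a b N : ℕ), Leaf p1 V W μ ν ω V1 W1 P a b N →
    (∀ v ∈ V, 0 < v) → (∀ w ∈ W, 0 < w) → (∀ v ∈ V, 0 < μ v) → (∀ w ∈ W, 0 < ν w) →
    (∀ v w, 0 ≤ ω v w) →
    ∀ g : ℕ → ℝ, (∀ p, 0 ≤ g p) →
    (∀ F : Finset ℕ, (∀ p ∈ F, p.Prime ∧ p1 ≤ p) →
      ∑ p ∈ F, 14 * g p * (p : ℝ) ^ (-(99 / 100) : ℝ) ≤ 1 / 16) →
    ∑ v ∈ V1, ∑ w ∈ W1, (if Good P N g v w then 0 else μ v * ν w * ω v w) ≤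
      1 / 8 * eW V1 W1 μ ν ω := by
  have hsum : Summable (fun n : ℕ => 6 * (n : ℝ) ^ (-(101 / 100) : ℝ)) :=
    (Real.summable_nat_rpow.2 (by norm_num)).mul_left 6
  obtain ⟨s0, hs0⟩ := (summable_iff_vanishing_norm.1 hsum) (1 / 16) (by norm_num)
  refine ⟨max 16 (s0.sup id + 1), ?_⟩
  intro p1 hp1 V W μ ν ω V1 W1 P a b N L hV hW hμ hν hω g hg hF
  have h16 : 16 ≤ p1 := (le_max_left _ _).trans hp1
  have hs1 : s0.sup id + 1 ≤ p1 := (le_max_right _ _).trans hp1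
  have hμ1 : ∀ v ∈ V1, 0 < μ v := fun v hv => hμ v (L.subV hv)
  have hν1 : ∀ w ∈ W1, 0 < ν w := fun w hw => hν w (L.subW hw)
  have hV1 : ∀ v ∈ V1, 0 < v := fun v hv => hV v (L.subV hv)
  have hW1 : ∀ w ∈ W1, 0 < w := fun w hw => hW w (L.subW hw)
  have hbig : ∀ p : ℕ, p.Prime → p ∉ P → p1 ≤ p := by
    intro p hp hpP
    by_contra hlt
    exact hpP (L.small p hp (by omega))
  have hΦ : ∀ v ∈ V1, ∀ w ∈ W1, 0 ≤ μ v * ν w * ω v w := fun v hv w hw =>
    mul_nonneg (mul_nonneg (hμ1 v hv).le (hν1 w hw).le) (hω v w)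
  have tail : ∀ F : Finset ℕ, (∀ p ∈ F, p1 ≤ p) →
      ∑ p ∈ F, 6 * (p : ℝ) ^ (-(101 / 100) : ℝ) ≤ 1 / 16 := by
    intro F hF1
    have hd : Disjoint F s0 := by
      rw [Finset.disjoint_left]
      intro n hn hn0
      have h1 := hF1 n hn
      have h2 : n ≤ s0.sup id := Finset.le_sup (f := id) hn0
      omega
    exact (le_abs_self _).trans (hs0 F hd).le
  have he0 := L.epos
  have gs0 : ∀ v w, 0 ≤ gsum P g v w := fun v w => Finset.sum_nonneg fun p _ => hg p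
  -- splitting
  have step1 : ∑ v ∈ V1, ∑ w ∈ W1, (if Good P N g v w then 0 else μ v * ν w * ω v w) ≤
      (∑ v ∈ V1, ∑ w ∈ W1, (if NoCom P N v w then 0 else μ v * ν w * ω v w)) +
      ∑ v ∈ V1, ∑ w ∈ W1, μ v * ν w * ω v w * gsum P g v w := by
    rw [← Finset.sum_add_distrib]
    refine Finset.sum_le_sum fun v hv => ?_
    rw [← Finset.sum_add_distrib]
    refine Finset.sum_le_sum fun w hw => ?_
    have h1 := hΦ v hv w hw
    have h2 := gs0 v w
    have h3 := mul_nonneg h1 h2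
    by_cases c1 : NoCom P N v w
    · by_cases c2 : gsum P g v w ≤ 1
      · rw [if_pos (show Good P N g v w from ⟨c1, c2⟩), if_pos c1]
        linarith
      · rw [if_neg (show ¬ Good P N g v w from fun h => c2 h.2), if_pos c1]
        push Not at c2
        have := mul_le_mul_of_nonneg_left c2.le h1
        linarith
    · rw [if_neg (show ¬ Good P N g v w from fun h => c1 h.1), if_neg c1]
      linarith
  -- common deviations
  have step2 : ∑ v ∈ V1, ∑ w ∈ W1, (if NoCom P N v w then 0 else μ v * ν w * ω v w) ≤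
      1 / 16 * eW V1 W1 μ ν ω := by
    obtain ⟨F, hFd⟩ : ∃ F : Finset ℕ, F = (V1.biUnion Nat.primeFactors ∪
      N.primeFactors).filter (fun p => p ∉ P) := ⟨_, rfl⟩
    have hF1 : ∀ p ∈ F, p.Prime ∧ p ∉ P := by
      intro p hp
      rw [hFd, Finset.mem_filter, Finset.mem_union, Finset.mem_biUnion] at hp
      rcases hp with ⟨⟨v, _, h1⟩ | h1, h2⟩
      · exact ⟨Nat.prime_of_mem_primeFactors h1, h2⟩
      · exact ⟨Nat.prime_of_mem_primeFactors h1, h2⟩
    have hpt : ∀ v ∈ V1, ∀ w ∈ W1, (if NoCom P N v w then 0 else μ v * ν w * ω v w) ≤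
        ∑ p ∈ F, (if v.factorization p ≠ N.factorization p ∧
          w.factorization p ≠ N.factorization p then μ v * ν w * ω v w else 0) := by
      intro v hv w hw
      have h1 := hΦ v hv w hw
      have hnn : ∀ p ∈ F, 0 ≤ (if v.factorization p ≠ N.factorization p ∧
          w.factorization p ≠ N.factorization p then μ v * ν w * ω v w else 0) := by
        intro p _
        split_ifs <;> linarith
      by_cases c1 : NoCom P N v w
      · rw [if_pos c1]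
        exact Finset.sum_nonneg hnn
      · rw [if_neg c1]
        unfold NoCom at c1
        push Not at c1
        obtain ⟨p, hp, hpP, d1, d2⟩ := c1
        have hpF : p ∈ F := by
          rw [hFd, Finset.mem_filter, Finset.mem_union, Finset.mem_biUnion]
          refine ⟨?_, hpP⟩
          by_cases c3 : v.factorization p = 0
          · right
            refine TypAux.mem_pf N p hp ?_
            rw [c3] at d1
            exact fun h => d1 h.symm
          · left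
            exact ⟨v, hv, TypAux.mem_pf v p hp c3⟩
        have h2 := Finset.single_le_sum hnn hpF
        rw [if_pos ⟨d1, d2⟩] at h2
        exact h2
    calc ∑ v ∈ V1, ∑ w ∈ W1, (if NoCom P N v w then 0 else μ v * ν w * ω v w)
        ≤ ∑ v ∈ V1, ∑ w ∈ W1, ∑ p ∈ F, (if v.factorization p ≠ N.factorization p ∧
          w.factorization p ≠ N.factorization p then μ v * ν w * ω v w else 0) :=
          Finset.sum_le_sum fun v hv => Finset.sum_le_sum fun w hw => hpt v hv w hw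
      _ = ∑ p ∈ F, ∑ v ∈ V1, ∑ w ∈ W1, (if v.factorization p ≠ N.factorization p ∧
          w.factorization p ≠ N.factorization p then μ v * ν w * ω v w else 0) := by
          rw [Finset.sum_comm]
          have : ∀ v ∈ V1, ∑ w ∈ W1, ∑ p ∈ F, (if v.factorization p ≠ N.factorization p ∧
              w.factorization p ≠ N.factorization p then μ v * ν w * ω v w else 0) =
              ∑ p ∈ F, ∑ w ∈ W1, (if v.factorization p ≠ N.factorization p ∧
              w.factorization p ≠ N.factorization p then μ v * ν w * ω v w else 0) :=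
            fun v _ => Finset.sum_comm
          rw [Finset.sum_comm, Finset.sum_congr rfl this, Finset.sum_comm]
      _ ≤ ∑ p ∈ F, 6 * (p : ℝ) ^ (-(101 / 100) : ℝ) * eW V1 W1 μ ν ω := by
          refine Finset.sum_le_sum fun p hp => ?_
          obtain ⟨h1, h2⟩ := hF1 p hp
          exact (TypAux.perprime p1 V W μ ν ω V1 W1 P a b N L hμ1 hν1 hω p h1 h2
            (h16.trans (hbig p h1 h2))).1
      _ = (∑ p ∈ F, 6 * (p : ℝ) ^ (-(101 / 100) : ℝ)) * eW V1 W1 μ ν ω := by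
          rw [Finset.sum_mul]
      _ ≤ 1 / 16 * eW V1 W1 μ ν ω :=
          mul_le_mul_of_nonneg_right (tail F fun p hp => hbig p (hF1 p hp).1 (hF1 p hp).2)
            he0.le
  have step3 : ∑ v ∈ V1, ∑ w ∈ W1, μ v * ν w * ω v w * gsum P g v w ≤
      1 / 16 * eW V1 W1 μ ν ω := by
    obtain ⟨F, hFd⟩ : ∃ F : Finset ℕ, F = (V1.biUnion Nat.primeFactors ∪
      W1.biUnion Nat.primeFactors).filter (fun p => p ∉ P) := ⟨_, rfl⟩
    have hF1 : ∀ p ∈ F, p.Prime ∧ p ∉ P := by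
      intro p hp
      rw [hFd, Finset.mem_filter, Finset.mem_union, Finset.mem_biUnion,
        Finset.mem_biUnion] at hp
      rcases hp with ⟨⟨v, _, h1⟩ | ⟨v, _, h1⟩, h2⟩
      · exact ⟨Nat.prime_of_mem_primeFactors h1, h2⟩
      · exact ⟨Nat.prime_of_mem_primeFactors h1, h2⟩
    have hpt : ∀ v ∈ V1, ∀ w ∈ W1, μ v * ν w * ω v w * gsum P g v w ≤
        ∑ p ∈ F, g p * (if v.factorization p ≠ w.factorization p then
          μ v * ν w * ω v w else 0) := by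
      intro v hv w hw
      have h1 := hΦ v hv w hw
      have h2 : gsum P g v w ≤ ∑ p ∈ F.filter (fun p => v.factorization p ≠ w.factorization p),
          g p := by
        unfold gsum
        refine Finset.sum_le_sum_of_subset_of_nonneg ?_ fun p _ _ => hg p
        intro p hp
        rw [Finset.mem_filter] at hp
        obtain ⟨h3, h4⟩ := TypAux.prime_mul v w p (hV1 v hv) (hW1 w hw) hp.1
        rw [Finset.mem_filter, hFd, Finset.mem_filter, Finset.mem_union, Finset.mem_biUnion,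
          Finset.mem_biUnion]
        refine ⟨⟨?_, hp.2⟩, h3⟩
        rcases h4 with h4 | h4
        · exact Or.inl ⟨v, hv, h4⟩
        · exact Or.inr ⟨w, hw, h4⟩
      have h3 := mul_le_mul_of_nonneg_left h2 h1
      refine h3.trans (le_of_eq ?_)
      rw [Finset.sum_filter, Finset.mul_sum]
      refine Finset.sum_congr rfl fun p _ => ?_
      split_ifs <;> ring
    calc ∑ v ∈ V1, ∑ w ∈ W1, μ v * ν w * ω v w * gsum P g v w
        ≤ ∑ v ∈ V1, ∑ w ∈ W1, ∑ p ∈ F, g p * (if v.factorization p ≠ w.factorization p then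
          μ v * ν w * ω v w else 0) :=
          Finset.sum_le_sum fun v hv => Finset.sum_le_sum fun w hw => hpt v hv w hw
      _ = ∑ p ∈ F, g p * ∑ v ∈ V1, ∑ w ∈ W1, (if v.factorization p ≠ w.factorization p then
          μ v * ν w * ω v w else 0) := by
          have : ∀ v ∈ V1, ∑ w ∈ W1, ∑ p ∈ F, g p * (if v.factorization p ≠ w.factorization p then
              μ v * ν w * ω v w else 0) =
              ∑ p ∈ F, ∑ w ∈ W1, g p * (if v.factorization p ≠ w.factorization p then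
              μ v * ν w * ω v w else 0) :=
            fun v _ => Finset.sum_comm
          rw [Finset.sum_congr rfl this, Finset.sum_comm]
          refine Finset.sum_congr rfl fun p _ => ?_
          rw [Finset.mul_sum]
          refine Finset.sum_congr rfl fun v _ => ?_
          rw [Finset.mul_sum]
      _ ≤ ∑ p ∈ F, g p * (14 * (p : ℝ) ^ (-(99 / 100) : ℝ) * eW V1 W1 μ ν ω) := by
          refine Finset.sum_le_sum fun p hp => mul_le_mul_of_nonneg_left ?_ (hg p)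
          obtain ⟨h1, h2⟩ := hF1 p hp
          exact (TypAux.perprime p1 V W μ ν ω V1 W1 P a b N L hμ1 hν1 hω p h1 h2
            (h16.trans (hbig p h1 h2))).2
      _ = (∑ p ∈ F, 14 * g p * (p : ℝ) ^ (-(99 / 100) : ℝ)) * eW V1 W1 μ ν ω := by
          rw [Finset.sum_mul]
          exact Finset.sum_congr rfl fun p _ => by ring
      _ ≤ 1 / 16 * eW V1 W1 μ ν ω :=
          mul_le_mul_of_nonneg_right (hF F fun p hp => ⟨(hF1 p hp).1,
            hbig p (hF1 p hp).1 (hF1 p hp).2⟩) he0.le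
  linarith

end Vale.Agent.P028E
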