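import Vale.Agent.Lib.P028.E.Triv
import Vale.Agent.Lib.P028.E.LeafEx
import Vale.Agent.Lib.P028.E.Typ
import Vale.Agent.Lib.P028.E.Num
import Vale.Agent.Lib.P028.E.Struct

/-!
# P028 E: anatomy (the Koukoulopoulos-Maynard main estimate)

`anat`: for `Y ≥ 4`, `0 ≤ λ ≤ Y^(9/10)/10000` and every finite `S`, `δ > 0` on `S`, `t > 0`,
`∑_{q,r ∈ S, MM < 2t} wt_q wt_r exp (λ ∑_{p ∣ q'r', p > Y} 1/p) ≤ C t^(49/50) (∑ wt)^(51/50)`.
Proof.  `ω q r = exp(λ L)` if `MM < 2t`, else `0`.  Take a leaf (absolute `p1`) and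
`g p = 1/p + (if Y < p then λ/p else 0)`.  The condition of `typ` holds:
`∑_{p≥p1} 14 p^(-1.99)` is small for `p1` large and
`∑_{p>Y} 14 λ p^(-1.99) ≤ 14 λ * 2.1 * Y^(-0.99) * (1+small) ≤ 1/100`
(`∑_{n>Y} n^(-1.99) ≤ 2.1 Y^(-0.99)` for `Y ≥ 4`, crude).  `G` = Good pairs with `MM < 2t`;
`e1 ≤ 2 ∑_G μ μ ω`.  On `G`: `λ ∑_{p∣q'r', p>Y, p∉P} 1/p ≤ gsum ≤ 1`, and the primes `p ∈ P`, `p ∣ q'r'`
divide `R = rab a b` (`prime_in_P`); for `p > Y ≥ 4`, `λ/p ≤ Y^(-1/10)/10000 ≤ (1/800) log p`,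
so `exp(λ∑_{p∈P}) ≤ R^(1/800)`.  So `ω ≤ 3 R^(1/800)` on `G`.  `triv_fin` gives
`E0 ≤ 16 t R^(-1/2) m1^(1/2)`, `interp` (with `R^(-1/800) ≤ 1`) the result.

`anat_sum`: for `∑ wt ≤ 2` and `t > 0`,
`∑_{t ≤ MM < 2t} wt wt FY (Yc MM) (q'r') ≤ C (∑_{t ≤ MM < 2t} wt wt + min(t^(49/50), 1/t) ∑ wt)`.
Proof.  `FY` is decreasing in the cut-off, `Yc MM ≥ Yc t =: Y0`.  Let `Y = Y0 + Y2` with a constant `Y2`
such that `λ = Y^(9/10)/10000 ≥ 2`; the primes between `Y0` and `Y` contribute a bounded factor: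
`∏_{Y0<p≤Y0+Y2} (1-1/p)^(-1) ≤ 2^(Y2)` .  `(1-1/p)^(-1) ≤ exp(2/p)`, so with
`L = ∑_{p∣q'r',p>Y} 1/p`: if `L ≤ 10`, `FY ≤ e^20`; if `L > 10`,
`exp(2L) ≤ exp(λL) exp(-10(λ-2))`.  `anat` and `exp(-10(λ-2)) t^(49/50) ≤ C min(t^(49/50), 1/t)`
because `λ ≥ (log(2+t))^(9/5)/10000` grows faster than `log t`.
-/

open Finset

namespace Vale.Agent.P028E

open Classical in
/-- `∑ 1/p` over the primes `p ∣ n`, `p > Y` -/
noncomputable def LY (Y : ℝ) (n : ℕ) : ℝ :=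
  ∑ p ∈ n.primeFactors.filter (fun p => Y < (p : ℝ)), 1 / (p : ℝ)

open Classical in
/-- the coerced set of prime factors in `FY`, `LY` is the image of `n.primeFactors` -/
theorem an_lift (s : Finset ℕ) : (do let a ← s; pure (a : ℝ)) = s.image (fun a : ℕ => (a : ℝ)) := by
  ext x
  simp only [Finset.bind_def, Finset.pure_def, Finset.mem_sup, Finset.mem_singleton,
    Finset.mem_image]
  constructor
  · rintro ⟨a, ha, h⟩
    exact ⟨a, ha, h.symm⟩
  · rintro ⟨a, ha, h⟩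
    exact ⟨a, ha, h.symm⟩

open Classical in
theorem FY_eq (Y : ℝ) (n : ℕ) :
    FY Y n = ∏ p ∈ n.primeFactors.filter (fun p : ℕ => Y < (p : ℝ)), (1 - 1 / (p : ℝ))⁻¹ := by
  unfold FY
  rw [an_lift, Finset.filter_image, Finset.prod_image]
  exact fun x _ y _ h => Nat.cast_injective h

open Classical in
theorem LY_eq (Y : ℝ) (n : ℕ) :
    LY Y n = ∑ p ∈ n.primeFactors.filter (fun p : ℕ => Y < (p : ℝ)), 1 / (p : ℝ) := by
  unfold LY
  rw [an_lift, Finset.filter_image, Finset.sum_image]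
  exact fun x _ y _ h => Nat.cast_injective h

/-- tail of a convergent series -/
theorem an_tail : ∃ p1 : ℕ, ∀ F : Finset ℕ, (∀ p ∈ F, p1 ≤ p) →
    ∑ p ∈ F, (p : ℝ) ^ (-(109 / 100) : ℝ) ≤ 1 / 1000 := by
  have hs : Summable (fun n : ℕ => (n : ℝ) ^ (-(109 / 100) : ℝ)) :=
    Real.summable_nat_rpow.mpr (by norm_num)
  obtain ⟨s, hs'⟩ := summable_iff_vanishing_norm.mp hs (1 / 1000) (by norm_num)
  refine ⟨s.sup id + 1, fun F hF => ?_⟩
  have hd : Disjoint F s := by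
    rw [Finset.disjoint_left]
    intro p hp hps
    have h1 := hF p hp
    have h2 : p ≤ s.sup id := Finset.le_sup (f := id) hps
    omega
  have h3 := hs' F hd
  exact (le_abs_self _).trans h3.le

/-- the weight `g` is small -/
theorem an_g {Y lam0 : ℝ} (hY : 4 ≤ Y) (h0 : 0 ≤ lam0) (h1 : lam0 ≤ Y ^ (9 / 10 : ℝ) / 10000)
    {p : ℕ} (hp : 1 ≤ p) :
    14 * (1 / (p : ℝ) + if Y < (p : ℝ) then lam0 / p else 0) * (p : ℝ) ^ (-(99 / 100) : ℝ) ≤
      28 * (p : ℝ) ^ (-(109 / 100) : ℝ) := by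
  have hp' : (1 : ℝ) ≤ p := by exact_mod_cast hp
  have hp0 : (0 : ℝ) < p := by linarith
  have e1 : 1 / (p : ℝ) * (p : ℝ) ^ (-(99 / 100) : ℝ) ≤ (p : ℝ) ^ (-(109 / 100) : ℝ) := by
    rw [one_div, ← Real.rpow_neg_one, ← Real.rpow_add hp0]
    exact Real.rpow_le_rpow_of_exponent_le hp' (by norm_num)
  have e2 : (if Y < (p : ℝ) then lam0 / p else 0) * (p : ℝ) ^ (-(99 / 100) : ℝ) ≤
      (p : ℝ) ^ (-(109 / 100) : ℝ) := by
    split_ifs with h
    · have e3 : lam0 ≤ (p : ℝ) ^ (9 / 10 : ℝ) := by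
        have e4 : Y ^ (9 / 10 : ℝ) ≤ (p : ℝ) ^ (9 / 10 : ℝ) :=
          Real.rpow_le_rpow (by linarith) h.le (by norm_num)
        have e5 : 0 ≤ Y ^ (9 / 10 : ℝ) := Real.rpow_nonneg (by linarith) _
        linarith
      have e6 : 0 ≤ (p : ℝ) ^ (-(99 / 100) : ℝ) := Real.rpow_nonneg hp0.le _
      calc lam0 / p * (p : ℝ) ^ (-(99 / 100) : ℝ)
          ≤ (p : ℝ) ^ (9 / 10 : ℝ) / p * (p : ℝ) ^ (-(99 / 100) : ℝ) := by gcongr
        _ = (p : ℝ) ^ (9 / 10 : ℝ) * (p : ℝ) ^ (-1 : ℝ) * (p : ℝ) ^ (-(99 / 100) : ℝ) := by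
            rw [Real.rpow_neg_one]
            ring
        _ = (p : ℝ) ^ (-(109 / 100) : ℝ) := by
            rw [← Real.rpow_add hp0, ← Real.rpow_add hp0]
            norm_num
    · rw [zero_mul]
      exact Real.rpow_nonneg hp0.le _
  linarith

/-- logarithms of the primes dividing `R` -/
theorem an_sum_log {R : ℕ} (hR : 0 < R) (T : Finset ℕ) (hT : ∀ p ∈ T, p.Prime ∧ p ∣ R) :
    ∑ p ∈ T, Real.log (p : ℝ) ≤ Real.log R := by
  have hsub : T ⊆ R.primeFactors := fun p hp =>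
    Nat.mem_primeFactors.mpr ⟨(hT p hp).1, (hT p hp).2, hR.ne'⟩
  have h1 : ∑ p ∈ T, Real.log (p : ℝ) ≤ ∑ p ∈ R.primeFactors, Real.log (p : ℝ) :=
    Finset.sum_le_sum_of_subset_of_nonneg hsub (fun p _ _ => Real.log_natCast_nonneg p)
  refine h1.trans ?_
  rw [← Real.log_prod (fun p hp => by
    have := (Nat.prime_of_mem_primeFactors hp).pos
    positivity)]
  refine Real.log_le_log ?_ ?_
  · refine Finset.prod_pos (fun p hp => ?_)
    have := (Nat.prime_of_mem_primeFactors hp).pos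
    exact_mod_cast this
  · have h2 := Nat.le_of_dvd hR (Nat.prod_primeFactors_dvd R)
    have h3 : ((∏ p ∈ R.primeFactors, p : ℕ) : ℝ) ≤ (R : ℝ) := by exact_mod_cast h2
    rwa [Nat.cast_prod] at h3

/-- the anatomy weight of a typical edge -/
theorem an_omega {Y lam0 : ℝ} (hY : 4 ≤ Y) (h0 : 0 ≤ lam0)
    (h1 : lam0 ≤ Y ^ (9 / 10 : ℝ) / 10000) {P : Finset ℕ} {n R : ℕ} (hR : 0 < R)
    (hPR : ∀ p ∈ P, p.Prime → p ∣ n → p ∣ R)
    (hg : ∑ p ∈ n.primeFactors.filter (fun p => p ∉ P),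
      (1 / (p : ℝ) + if Y < (p : ℝ) then lam0 / p else 0) ≤ 1) :
    Real.exp (lam0 * LY Y n) ≤ 3 * (R : ℝ) ^ (1 / 800 : ℝ) := by
  classical
  have hR' : (0 : ℝ) < R := by exact_mod_cast hR
  set T : Finset ℕ := n.primeFactors.filter (fun p : ℕ => Y < (p : ℝ)) with hT
  have hsplit : lam0 * LY Y n = (∑ p ∈ T.filter (fun p => p ∉ P), lam0 / (p : ℝ))
      + ∑ p ∈ T.filter (fun p => ¬ p ∉ P), lam0 / (p : ℝ) := by
    rw [Finset.sum_filter_add_sum_filter_not]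
    rw [LY_eq, Finset.mul_sum]
    refine Finset.sum_congr ?_ fun p _ => ?_
    · ext p
      simp only [hT, Finset.mem_filter]
    · ring
  have b1 : ∑ p ∈ T.filter (fun p => p ∉ P), lam0 / (p : ℝ) ≤ 1 := by
    refine le_trans ?_ hg
    have h2 : T.filter (fun p => p ∉ P) ⊆ n.primeFactors.filter (fun p => p ∉ P) :=
      Finset.filter_subset_filter _ (Finset.filter_subset _ _)
    refine (Finset.sum_le_sum fun p hp => ?_).trans
      (Finset.sum_le_sum_of_subset_of_nonneg h2 fun p _ _ => ?_)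
    · have h3 : Y < (p : ℝ) := (Finset.mem_filter.mp (Finset.mem_filter.mp hp).1).2
      rw [if_pos h3]
      have : 0 ≤ 1 / (p : ℝ) := by positivity
      linarith
    · split_ifs <;> positivity
  have b2 : ∑ p ∈ T.filter (fun p => ¬ p ∉ P), lam0 / (p : ℝ) ≤ 1 / 800 * Real.log R := by
    have h2 : ∑ p ∈ T.filter (fun p => ¬ p ∉ P), Real.log (p : ℝ) ≤ Real.log R := by
      refine an_sum_log hR _ fun p hp => ?_
      have h3 := Finset.mem_filter.mp hp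
      have h4 := (Finset.mem_filter.mp h3.1).1
      have h5 := Nat.prime_of_mem_primeFactors h4
      exact ⟨h5, hPR p (not_not.mp h3.2) h5 (Nat.dvd_of_mem_primeFactors h4)⟩
    have h3 : ∑ p ∈ T.filter (fun p => ¬ p ∉ P), lam0 / (p : ℝ) ≤
        ∑ p ∈ T.filter (fun p => ¬ p ∉ P), 1 / 800 * Real.log (p : ℝ) := by
      refine Finset.sum_le_sum fun p hp => ?_
      have h4 := Finset.mem_filter.mp (Finset.mem_filter.mp hp).1
      have hYp : Y < (p : ℝ) := h4.2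
      have hp0 : (0 : ℝ) < p := by linarith
      have e4 : Y ^ (9 / 10 : ℝ) ≤ (p : ℝ) ^ (9 / 10 : ℝ) :=
        Real.rpow_le_rpow (by linarith) hYp.le (by norm_num)
      have e5 : (p : ℝ) ^ (9 / 10 : ℝ) ≤ (p : ℝ) ^ (1 : ℝ) :=
        Real.rpow_le_rpow_of_exponent_le (by linarith) (by norm_num)
      rw [Real.rpow_one] at e5
      have e6 : lam0 / (p : ℝ) ≤ 1 / 10000 := by
        rw [div_le_iff₀ hp0]
        linarith
      have e7 : 1 ≤ Real.log (p : ℝ) := by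
        rw [Real.le_log_iff_exp_le hp0]
        have := Real.exp_one_lt_d9
        linarith
      linarith
    rw [← Finset.mul_sum] at h3
    linarith
  have b3 : Real.exp (1 + 1 / 800 * Real.log R) ≤ 3 * (R : ℝ) ^ (1 / 800 : ℝ) := by
    rw [Real.exp_add, Real.rpow_def_of_pos hR', mul_comm (Real.log (R : ℝ)) (1 / 800)]
    have := Real.exp_one_lt_d9
    exact mul_le_mul_of_nonneg_right (by linarith) (Real.exp_nonneg _)
  refine (Real.exp_le_exp.mpr ?_).trans b3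
  rw [hsplit]
  linarith

theorem an_wt_pos {δ : ℕ → ℝ} {q : ℕ} (hq : 0 < q) (hδ : 0 < δ q) : 0 < wt δ q := by
  unfold wt
  have h1 : (0 : ℝ) < Nat.totient q := by exact_mod_cast Nat.totient_pos.mpr hq
  have h2 : (0 : ℝ) < q := by exact_mod_cast hq
  positivity

open Classical in
/-- typical edges carry most of the weight -/
theorem an_good (V1 W1 : Finset ℕ) (μ : ℕ → ℝ) (ω : ℕ → ℕ → ℝ) (Gd : ℕ → ℕ → Prop)
    (Q : ℕ → ℕ → Prop) (K : ℝ) (hμV : ∀ v ∈ V1, 0 ≤ μ v) (hμW : ∀ w ∈ W1, 0 ≤ μ w)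
    (hω : ∀ v w, 0 ≤ ω v w) (hQ : ∀ v w, ¬ Q v w → ω v w = 0)
    (hK : ∀ v ∈ V1, ∀ w ∈ W1, Gd v w → Q v w → ω v w ≤ K)
    (hbad : ∑ v ∈ V1, ∑ w ∈ W1, (if Gd v w then 0 else μ v * μ w * ω v w) ≤
      1 / 8 * eW V1 W1 μ μ ω) :
    eW V1 W1 μ μ ω ≤ 2 * K *
      ∑ z ∈ (V1 ×ˢ W1).filter (fun z => Gd z.1 z.2 ∧ Q z.1 z.2), μ z.1 * μ z.2 := by
  have h1 : eW V1 W1 μ μ ω = (∑ v ∈ V1, ∑ w ∈ W1, (if Gd v w then μ v * μ w * ω v w else 0))
      + ∑ v ∈ V1, ∑ w ∈ W1, (if Gd v w then 0 else μ v * μ w * ω v w) := by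
    unfold eW
    rw [← Finset.sum_add_distrib]
    refine Finset.sum_congr rfl fun v _ => ?_
    rw [← Finset.sum_add_distrib]
    refine Finset.sum_congr rfl fun w _ => ?_
    split_ifs <;> ring
  have h2 : ∑ v ∈ V1, ∑ w ∈ W1, (if Gd v w then μ v * μ w * ω v w else 0) ≤
      K * ∑ z ∈ (V1 ×ˢ W1).filter (fun z => Gd z.1 z.2 ∧ Q z.1 z.2), μ z.1 * μ z.2 := by
    rw [Finset.sum_filter, Finset.sum_product, Finset.mul_sum]
    refine Finset.sum_le_sum fun v hv => ?_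
    rw [Finset.mul_sum]
    refine Finset.sum_le_sum fun w hw => ?_
    have hm : 0 ≤ μ v * μ w := mul_nonneg (hμV v hv) (hμW w hw)
    by_cases hG : Gd v w
    · by_cases hQ' : Q v w
      · rw [if_pos hG, if_pos ⟨hG, hQ'⟩, mul_comm K]
        exact mul_le_mul_of_nonneg_left (hK v hv w hw hG hQ') hm
      · rw [if_pos hG, if_neg (fun h => hQ' h.2), hQ v w hQ', mul_zero, mul_zero]
    · rw [if_neg hG, if_neg (fun h => hG h.1), mul_zero]
  have h3 : eW V1 W1 μ μ ω ≤ (∑ v ∈ V1, ∑ w ∈ W1, (if Gd v w then μ v * μ w * ω v w else 0))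
      + 1 / 8 * eW V1 W1 μ μ ω := by linarith
  have h4 : 0 ≤ ∑ v ∈ V1, ∑ w ∈ W1, (if Gd v w then μ v * μ w * ω v w else 0) := by
    refine Finset.sum_nonneg fun v hv => Finset.sum_nonneg fun w hw => ?_
    split_ifs
    · exact mul_nonneg (mul_nonneg (hμV v hv) (hμW w hw)) (hω v w)
    · exact le_refl _
  linarith

theorem an_E0_le (V1 W1 : Finset ℕ) (μ : ℕ → ℝ) (hμV : ∀ v ∈ V1, 0 ≤ μ v)
    (hμW : ∀ w ∈ W1, 0 ≤ μ w) (G : Finset (ℕ × ℕ)) (hG : G ⊆ V1 ×ˢ W1) :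
    ∑ z ∈ G, μ z.1 * μ z.2 ≤ ms V1 μ * ms W1 μ := by
  unfold ms
  rw [Finset.sum_mul_sum, ← Finset.sum_product']
  refine Finset.sum_le_sum_of_subset_of_nonneg hG fun z hz _ => ?_
  have := Finset.mem_product.mp hz
  exact mul_nonneg (hμV _ this.1) (hμW _ this.2)

theorem an_rab_pos {a b : ℕ} (ha : 0 < a) (hb : 0 < b) : 0 < rab a b := by
  unfold rab
  exact Nat.mul_pos (Nat.div_pos (Nat.le_of_dvd ha (Nat.gcd_dvd_left a b))
    (Nat.gcd_pos_of_pos_left b ha)) (Nat.div_pos (Nat.le_of_dvd hb (Nat.gcd_dvd_right a b))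
    (Nat.gcd_pos_of_pos_left b ha))

/-- `(1-1/p)^(-1) ≤ exp (2/p)` -/
theorem an_factor {p : ℕ} (hp : 2 ≤ p) : (1 - 1 / (p : ℝ))⁻¹ ≤ Real.exp (2 * (1 / (p : ℝ))) := by
  have hp' : (2 : ℝ) ≤ p := by exact_mod_cast hp
  have hx : 1 / (p : ℝ) ≤ 1 / 2 := one_div_le_one_div_of_le (by norm_num) hp'
  have hx0 : 0 ≤ 1 / (p : ℝ) := by positivity
  set x := 1 / (p : ℝ) with hxdef
  have hy : 0 < 1 - x := by linarith
  have h1 : 1 - (1 - x)⁻¹ ≤ Real.log (1 - x) := Real.one_sub_inv_le_log_of_pos hy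
  have h2 : (1 - x)⁻¹ ≤ 1 + 2 * x := by
    rw [inv_le_iff_one_le_mul₀ hy]
    nlinarith
  rw [← Real.exp_log (inv_pos.mpr hy), Real.log_inv]
  refine Real.exp_le_exp.mpr ?_
  linarith

open Classical in
theorem an_FY (Y : ℝ) (n : ℕ) : FY Y n ≤ Real.exp (2 * LY Y n) := by
  rw [FY_eq, LY_eq, Finset.mul_sum, Real.exp_sum]
  refine Finset.prod_le_prod (fun p hp => ?_) (fun p hp => ?_)
  · have h2 := (Nat.prime_of_mem_primeFactors (Finset.mem_filter.mp hp).1).two_le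
    have hp' : (2 : ℝ) ≤ p := by exact_mod_cast h2
    have hx : 1 / (p : ℝ) ≤ 1 / 2 := one_div_le_one_div_of_le (by norm_num) hp'
    exact inv_nonneg.mpr (by linarith)
  · exact an_factor (Nat.prime_of_mem_primeFactors (Finset.mem_filter.mp hp).1).two_le

open Classical in
theorem an_LY_anti {Y Y' : ℝ} (h : Y ≤ Y') (n : ℕ) : LY Y' n ≤ LY Y n := by
  rw [LY_eq, LY_eq]
  refine Finset.sum_le_sum_of_subset_of_nonneg ?_ fun p _ _ => by positivity
  intro p hp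
  have := Finset.mem_filter.mp hp
  exact Finset.mem_filter.mpr ⟨this.1, h.trans_lt this.2⟩

open Classical in
/-- shifting the cut-off costs a constant -/
theorem an_LY_shift {Y : ℝ} (hY : 0 ≤ Y) (K : ℕ) (n : ℕ) : LY Y n ≤ (K + 1) + LY (Y + K) n := by
  rw [LY_eq, LY_eq,
    ← Finset.sum_filter_add_sum_filter_not (n.primeFactors.filter (fun p : ℕ => Y < (p : ℝ)))
    (fun p : ℕ => (p : ℝ) ≤ Y + K)]
  refine add_le_add ?_ ?_
  · have h1 : ∑ p ∈ (n.primeFactors.filter (fun p : ℕ => Y < (p : ℝ))).filter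
        (fun p : ℕ => (p : ℝ) ≤ Y + K), 1 / (p : ℝ) ≤
        ∑ p ∈ (n.primeFactors.filter (fun p : ℕ => Y < (p : ℝ))).filter
        (fun p : ℕ => (p : ℝ) ≤ Y + K), (1 : ℝ) := by
      refine Finset.sum_le_sum fun p hp => ?_
      have h2 := Nat.prime_of_mem_primeFactors
        (Finset.mem_filter.mp (Finset.mem_filter.mp hp).1).1
      have h3 : (1 : ℝ) ≤ p := by exact_mod_cast h2.one_lt.le
      rw [div_le_one (by linarith)]
      exact h3
    refine h1.trans ?_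
    rw [Finset.sum_const, nsmul_eq_mul, mul_one]
    have h4 : (n.primeFactors.filter (fun p : ℕ => Y < (p : ℝ))).filter
        (fun p : ℕ => (p : ℝ) ≤ Y + K) ⊆ Finset.Icc ⌊Y⌋₊ (⌊Y⌋₊ + K) := by
      intro p hp
      have h5 := Finset.mem_filter.mp hp
      have h6 := (Finset.mem_filter.mp h5.1).2
      rw [Finset.mem_Icc]
      constructor
      · exact Nat.floor_le_of_le h6.le
      · have h7 : ((p - K : ℤ) : ℝ) ≤ Y := by push_cast; linarith [h5.2]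
        have h8 : p ≤ ⌊Y + K⌋₊ := Nat.le_floor h5.2
        rwa [Nat.floor_add_natCast hY] at h8
    have h9 := Finset.card_le_card h4
    rw [Nat.card_Icc] at h9
    have h10 : ((n.primeFactors.filter (fun p : ℕ => Y < (p : ℝ))).filter
        (fun p : ℕ => (p : ℝ) ≤ Y + K)).card ≤ K + 1 := by omega
    exact_mod_cast h10
  · refine Finset.sum_le_sum_of_subset_of_nonneg ?_ fun p _ _ => by positivity
    intro p hp
    have h5 := Finset.mem_filter.mp hp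
    have h6 := Finset.mem_filter.mp h5.1
    exact Finset.mem_filter.mpr ⟨h6.1, not_le.mp h5.2⟩

/-- the exponential dichotomy -/
theorem an_dich {lam L : ℝ} (hlam : 2 ≤ lam) :
    Real.exp (2 * L) ≤ Real.exp 20 + Real.exp (-(10 * (lam - 2))) * Real.exp (lam * L) := by
  by_cases h : L ≤ 10
  · have h1 : Real.exp (2 * L) ≤ Real.exp 20 := Real.exp_le_exp.mpr (by linarith)
    have h2 : 0 ≤ Real.exp (-(10 * (lam - 2))) * Real.exp (lam * L) := by positivity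
    linarith
  · push Not at h
    have h1 : Real.exp (2 * L) ≤ Real.exp (-(10 * (lam - 2))) * Real.exp (lam * L) := by
      rw [← Real.exp_add]
      refine Real.exp_le_exp.mpr ?_
      nlinarith
    have h2 := (Real.exp_pos 20).le
    linarith

/-- the choice of the parameter -/
theorem an_param {t : ℝ} (ht : 0 < t) :
    2 ≤ (Yc t + (10000000000 : ℕ)) ^ (9 / 10 : ℝ) / 10000 ∧
    Real.exp (-(10 * ((Yc t + (10000000000 : ℕ)) ^ (9 / 10 : ℝ) / 10000 - 2))) *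
      t ^ (49 / 50 : ℝ) ≤ Real.exp 300000 * min (t ^ (49 / 50 : ℝ)) (1 / t) := by
  set l := Real.log (2 + t) with hl
  have hl0 : 0 ≤ l := Real.log_nonneg (by linarith)
  have hYc : Yc t = 4 + l ^ 2 := rfl
  set Y := Yc t + (10000000000 : ℕ) with hY
  have hY1 : (100000 : ℝ) ^ (2 : ℕ) ≤ Y := by
    rw [hY, hYc]
    push_cast
    nlinarith [sq_nonneg l]
  have hY2 : l ^ 2 ≤ Y := by
    rw [hY, hYc]
    push_cast
    nlinarith [sq_nonneg l]
  have hY0 : 0 ≤ Y := (by positivity : (0 : ℝ) ≤ l ^ 2).trans hY2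
  have h1 : (100000 : ℝ) ^ (9 / 5 : ℝ) ≤ Y ^ (9 / 10 : ℝ) := by
    have := Real.rpow_le_rpow (by positivity) hY1 (by norm_num : (0 : ℝ) ≤ 9 / 10)
    rw [← Real.rpow_natCast, ← Real.rpow_mul (by norm_num)] at this
    refine le_trans (le_of_eq ?_) this
    norm_num
  have h2 : (1000000000 : ℝ) = (100000 : ℝ) ^ (9 / 5 : ℝ) := by
    have : (100000 : ℝ) = 10 ^ (5 : ℝ) := by norm_num
    rw [this, ← Real.rpow_mul (by norm_num)]
    norm_num
  have h3 : l ^ (9 / 5 : ℝ) ≤ Y ^ (9 / 10 : ℝ) := by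
    have := Real.rpow_le_rpow (by positivity) hY2 (by norm_num : (0 : ℝ) ≤ 9 / 10)
    rw [← Real.rpow_natCast, ← Real.rpow_mul hl0] at this
    refine le_trans (le_of_eq ?_) this
    norm_num
  have h4 : 1000000000 ≤ Y ^ (9 / 10 : ℝ) := by rw [h2]; exact h1
  have hlam : 2 ≤ Y ^ (9 / 10 : ℝ) / 10000 := by linarith
  refine ⟨hlam, ?_⟩
  have ht0 : 0 ≤ t ^ (49 / 50 : ℝ) := Real.rpow_nonneg ht.le _
  rw [mul_min_of_nonneg _ _ (Real.exp_nonneg _)]
  refine le_min ?_ ?_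
  · refine mul_le_mul_of_nonneg_right ?_ ht0
    refine Real.exp_le_exp.mpr ?_
    linarith
  · have h5 : t ^ (49 / 50 : ℝ) = t ^ (99 / 50 : ℝ) * (1 / t) := by
      rw [one_div, ← Real.rpow_neg_one, ← Real.rpow_add ht]
      norm_num
    rw [h5, ← mul_assoc]
    refine mul_le_mul_of_nonneg_right ?_ (by positivity)
    have h6 : t ^ (99 / 50 : ℝ) ≤ Real.exp (99 / 50 * l) := by
      have h7 : t ≤ Real.exp l := by
        rw [hl, Real.exp_log (by linarith)]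
        linarith
      have := Real.rpow_le_rpow ht.le h7 (by norm_num : (0 : ℝ) ≤ 99 / 50)
      rw [← Real.exp_mul, mul_comm l] at this
      exact this
    have h8 : 99 / 50 * l ≤ Y ^ (9 / 10 : ℝ) / 1000 + 200000 := by
      by_cases hc : l ≤ 100000
      · have : 0 ≤ Y ^ (9 / 10 : ℝ) := by linarith
        linarith
      · push Not at hc
        have h9 : (100000 : ℝ) ^ (4 / 5 : ℝ) ≤ l ^ (4 / 5 : ℝ) :=
          Real.rpow_le_rpow (by norm_num) hc.le (by norm_num)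
        have h10 : (10000 : ℝ) = (100000 : ℝ) ^ (4 / 5 : ℝ) := by
          have : (100000 : ℝ) = 10 ^ (5 : ℝ) := by norm_num
          rw [this, ← Real.rpow_mul (by norm_num)]
          norm_num
        rw [← h10] at h9
        have h11 : l ^ (9 / 5 : ℝ) = l * l ^ (4 / 5 : ℝ) := by
          rw [← Real.rpow_one_add' hl0 (by norm_num)]
          norm_num
        have h12 : l * 10000 ≤ l ^ (9 / 5 : ℝ) := by
          rw [h11]
          exact mul_le_mul_of_nonneg_left h9 hl0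
        linarith
    calc Real.exp (-(10 * (Y ^ (9 / 10 : ℝ) / 10000 - 2))) * t ^ (99 / 50 : ℝ)
        ≤ Real.exp (-(10 * (Y ^ (9 / 10 : ℝ) / 10000 - 2))) * Real.exp (99 / 50 * l) :=
          mul_le_mul_of_nonneg_left h6 (Real.exp_nonneg _)
      _ = Real.exp (-(10 * (Y ^ (9 / 10 : ℝ) / 10000 - 2)) + 99 / 50 * l) := by
          rw [← Real.exp_add]
      _ ≤ Real.exp 300000 := by
          refine Real.exp_le_exp.mpr ?_
          linarith

open Classical in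
theorem anat : ∃ C : ℝ, 1 ≤ C ∧ ∀ (Y lam0 : ℝ), 4 ≤ Y → 0 ≤ lam0 → lam0 ≤ Y ^ (9 / 10 : ℝ) / 10000 →
    ∀ (S : Finset ℕ) (δ : ℕ → ℝ), (∀ q ∈ S, 0 < q ∧ 0 < δ q) → ∀ t : ℝ, 0 < t →
      ∑ q ∈ S, ∑ r ∈ S, (if MM δ q r < 2 * t then
        wt δ q * wt δ r * Real.exp (lam0 * LY Y (qp q r * qp r q)) else 0) ≤
      C * t ^ (49 / 50 : ℝ) * (∑ q ∈ S, wt δ q) ^ (51 / 50 : ℝ) := by
  obtain ⟨pL, hL⟩ := leaf_exists
  obtain ⟨pT, hT⟩ := typ
  obtain ⟨pS, hS⟩ := an_tail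
  set p1 : ℕ := max pL (max pT (max pS 1)) with hp1
  have hpL : pL ≤ p1 := le_max_left _ _
  have hpT : pT ≤ p1 := (le_max_left _ _).trans (le_max_right _ _)
  have hpS : pS ≤ p1 := (le_max_left _ _).trans ((le_max_right _ _).trans (le_max_right _ _))
  have hp1' : 1 ≤ p1 := (le_max_right _ _).trans ((le_max_right _ _).trans (le_max_right _ _))
  clear_value p1
  have h71 : (1 : ℝ) ≤ 7 ^ p1 := one_le_pow₀ (by norm_num)
  refine ⟨96 * 7 ^ p1, by linarith, ?_⟩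
  intro Y lam0 hY h0 h1 S δ hSδ t ht
  set μ : ℕ → ℝ := wt δ with hμ
  set ω : ℕ → ℕ → ℝ := fun q r => if MM δ q r < 2 * t then
    Real.exp (lam0 * LY Y (qp q r * qp r q)) else 0 with hω
  have hμpos : ∀ q ∈ S, 0 < μ q := fun q hq => an_wt_pos (hSδ q hq).1 (hSδ q hq).2
  have hωnn : ∀ q r, 0 ≤ ω q r := by
    intro q r
    simp only [hω]
    split_ifs
    · exact (Real.exp_pos _).le
    · exact le_refl _
  have hLHS : ∑ q ∈ S, ∑ r ∈ S, (if MM δ q r < 2 * t then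
      μ q * μ r * Real.exp (lam0 * LY Y (qp q r * qp r q)) else 0) = eW S S μ μ ω := by
    unfold eW
    refine Finset.sum_congr rfl fun q _ => Finset.sum_congr rfl fun r _ => ?_
    simp only [hω]
    split_ifs
    · rfl
    · rw [mul_zero]
  rw [hLHS]
  have hms0 : 0 ≤ ms S μ := Finset.sum_nonneg fun q hq => (hμpos q hq).le
  have hRHS0 : 0 ≤ 96 * 7 ^ p1 * t ^ (49 / 50 : ℝ) * (∑ q ∈ S, μ q) ^ (51 / 50 : ℝ) := by
    have : 0 ≤ ∑ q ∈ S, μ q := hms0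
    positivity
  by_cases hE : 0 < eW S S μ μ ω
  swap
  · exact (not_lt.mp hE).trans hRHS0
  obtain ⟨V1, W1, P, a, b, N, lf⟩ := hL p1 hpL S S μ μ ω (fun q hq => (hSδ q hq).1)
    (fun q hq => (hSδ q hq).1) hμpos hμpos hωnn hE
  set g : ℕ → ℝ := fun p => 1 / (p : ℝ) + if Y < (p : ℝ) then lam0 / p else 0 with hg
  have hg0 : ∀ p, 0 ≤ g p := by
    intro p
    simp only [hg]
    split_ifs <;> positivity
  have hg1 : ∀ p : ℕ, p.Prime → 1 / (p : ℝ) ≤ g p := by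
    intro p _
    simp only [hg]
    have : 0 ≤ (if Y < (p : ℝ) then lam0 / p else 0) := by split_ifs <;> positivity
    linarith
  have hbad := hT p1 hpT S S μ μ ω V1 W1 P a b N lf (fun q hq => (hSδ q hq).1)
    (fun q hq => (hSδ q hq).1) hμpos hμpos hωnn g hg0 (by
      intro F hF
      have h2 : ∑ p ∈ F, 14 * g p * (p : ℝ) ^ (-(99 / 100) : ℝ) ≤
          ∑ p ∈ F, 28 * (p : ℝ) ^ (-(109 / 100) : ℝ) :=
        Finset.sum_le_sum fun p hp => an_g hY h0 h1 (hF p hp).1.one_lt.le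
      rw [← Finset.mul_sum] at h2
      have h3 := hS F (fun p hp => hpS.trans (hF p hp).2)
      linarith)
  have hV1pos : ∀ v ∈ V1, 0 < μ v := fun v hv => hμpos v (lf.subV hv)
  have hW1pos : ∀ w ∈ W1, 0 < μ w := fun w hw => hμpos w (lf.subW hw)
  have hR := an_rab_pos lf.apos lf.bpos
  have hR1 : (1 : ℝ) ≤ (rab a b : ℝ) := by exact_mod_cast hR
  have hω1 : ∀ v ∈ V1, ∀ w ∈ W1, Good P N g v w → MM δ v w < 2 * t →
      ω v w ≤ 3 * (rab a b : ℝ) ^ (1 / 800 : ℝ) := by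
    intro v hv w hw hgd hMM
    simp only [hω]
    rw [if_pos hMM]
    refine an_omega hY h0 h1 (P := P) hR ?_ ?_
    · intro p hp _ hdvd
      exact prime_in_P lf.prime (hSδ v (lf.subV hv)).1 (hSδ w (lf.subW hw)).1 lf.Npos lf.Ncop
        (lf.partV v hv) (lf.partW w hw) hgd.1 hp hdvd
    · exact hgd.2
  have he1 := an_good V1 W1 μ ω (Good P N g) (fun v w => MM δ v w < 2 * t)
    (3 * (rab a b : ℝ) ^ (1 / 800 : ℝ)) (fun v hv => (hV1pos v hv).le)
    (fun w hw => (hW1pos w hw).le) hωnn (fun v w h => by simp only [hω]; rw [if_neg h]) hω1 hbad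
  set G := (V1 ×ˢ W1).filter (fun z => Good P N g z.1 z.2 ∧ MM δ z.1 z.2 < 2 * t) with hG
  have hGsub : G ⊆ V1 ×ˢ W1 := Finset.filter_subset _ _
  have hE0 : ∑ z ∈ G, μ z.1 * μ z.2 ≤ ms V1 μ * ms W1 μ :=
    an_E0_le V1 W1 μ (fun v hv => (hV1pos v hv).le) (fun w hw => (hW1pos w hw).le) G hGsub
  have hE00 : 0 ≤ ∑ z ∈ G, μ z.1 * μ z.2 := by
    refine Finset.sum_nonneg fun z hz => ?_
    have := Finset.mem_product.mp (hGsub hz)
    exact mul_nonneg (hV1pos _ this.1).le (hW1pos _ this.2).le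
  have htriv := triv_fin lf.prime lf.apos lf.bpos lf.Npos lf.Ncop V1 W1
    (fun v hv => ⟨(hSδ v (lf.subV hv)).1, lf.partV v hv⟩)
    (fun w hw => ⟨(hSδ w (lf.subW hw)).1, lf.partW w hw⟩) δ
    (fun v hv => (hSδ v (lf.subV hv)).2) (fun w hw => (hSδ w (lf.subW hw)).2) t ht g hg0 hg1 G
    hGsub (fun z hz => (Finset.mem_filter.mp hz).2)
  have hm1 : 0 < ms V1 μ * ms W1 μ :=
    mul_pos (lx_ms_pos V1 μ hV1pos (lx_nonemptyV V1 W1 μ μ ω lf.epos))
      (lx_ms_pos W1 μ hW1pos (lx_nonemptyW V1 W1 μ μ ω lf.epos))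
  have hfin := interp (eW S S μ μ ω) (eW V1 W1 μ μ ω) (∑ z ∈ G, μ z.1 * μ z.2)
    (ms S μ * ms S μ) (ms V1 μ * ms W1 μ) (rab a b : ℝ) (16 * t) (7 ^ p1) 6
    (mul_nonneg hms0 hms0) hm1 hR1 (by positivity) (by positivity) (by norm_num) hE00 lf.qual
    (by
      refine he1.trans (le_of_eq ?_)
      ring) hE0 htriv
  have c1 : (rab a b : ℝ) ^ (-(1 / 800) : ℝ) ≤ 1 :=
    Real.rpow_le_one_of_one_le_of_nonpos hR1 (by norm_num)
  have c2 : (16 * t) ^ (49 / 50 : ℝ) ≤ 16 * t ^ (49 / 50 : ℝ) := by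
    rw [Real.mul_rpow (by norm_num) ht.le]
    have : (16 : ℝ) ^ (49 / 50 : ℝ) ≤ 16 ^ (1 : ℝ) :=
      Real.rpow_le_rpow_of_exponent_le (by norm_num) (by norm_num)
    rw [Real.rpow_one] at this
    exact mul_le_mul_of_nonneg_right this (Real.rpow_nonneg ht.le _)
  have c3 : (ms S μ * ms S μ) ^ (51 / 100 : ℝ) = (ms S μ) ^ (51 / 50 : ℝ) := by
    rw [← sq, ← Real.rpow_natCast, ← Real.rpow_mul hms0]
    norm_num
  have c4 : 0 ≤ (ms S μ) ^ (51 / 50 : ℝ) := Real.rpow_nonneg hms0 _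
  have c5 : (0 : ℝ) ≤ (16 * t) ^ (49 / 50 : ℝ) := Real.rpow_nonneg (by positivity) _
  refine hfin.trans ?_
  rw [c3]
  calc (7 : ℝ) ^ p1 * 6 * (16 * t) ^ (49 / 50 : ℝ) * (rab a b : ℝ) ^ (-(1 / 800) : ℝ) *
        ms S μ ^ (51 / 50 : ℝ)
      ≤ 7 ^ p1 * 6 * (16 * t ^ (49 / 50 : ℝ)) * 1 * ms S μ ^ (51 / 50 : ℝ) := by
        refine mul_le_mul_of_nonneg_right ?_ c4
        refine mul_le_mul (mul_le_mul_of_nonneg_left c2 (by positivity)) c1
          (Real.rpow_nonneg (by positivity) _) (by positivity)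
    _ = 96 * 7 ^ p1 * t ^ (49 / 50 : ℝ) * (∑ q ∈ S, μ q) ^ (51 / 50 : ℝ) := by
        unfold ms
        ring

open Classical in
theorem anat_sum : ∃ C : ℝ, 1 ≤ C ∧ ∀ (S : Finset ℕ) (δ : ℕ → ℝ), (∀ q ∈ S, 0 < q ∧ 0 < δ q) →
    ∑ q ∈ S, wt δ q ≤ 2 → ∀ t : ℝ, 0 < t →
      ∑ q ∈ S, ∑ r ∈ S, (if t ≤ MM δ q r ∧ MM δ q r < 2 * t then
        wt δ q * wt δ r * FY (Yc (MM δ q r)) (qp q r * qp r q) else 0) ≤
      C * (∑ q ∈ S, ∑ r ∈ S, (if t ≤ MM δ q r ∧ MM δ q r < 2 * t then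
        wt δ q * wt δ r else 0) + min (t ^ (49 / 50 : ℝ)) (1 / t) * ∑ q ∈ S, wt δ q) := by
  obtain ⟨C0, hC0, hanat⟩ := anat
  set c1 : ℝ := Real.exp (2 * ((10000000000 : ℕ) + 1)) with hc1
  have hc1' : 1 ≤ c1 := Real.one_le_exp (by positivity)
  have h20 : 1 ≤ Real.exp 20 := Real.one_le_exp (by norm_num)
  have h30 : 1 ≤ Real.exp 300000 := Real.one_le_exp (by norm_num)
  refine ⟨c1 * (Real.exp 20 + 2 * C0 * Real.exp 300000), ?_, ?_⟩
  · have : 1 ≤ Real.exp 20 + 2 * C0 * Real.exp 300000 := by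
      have : 0 ≤ 2 * C0 * Real.exp 300000 := by positivity
      linarith
    exact one_le_mul_of_one_le_of_one_le hc1' this
  intro S δ hSδ hS2 t ht
  obtain ⟨hlam, hpar⟩ := an_param ht
  set Y := Yc t + (10000000000 : ℕ) with hY
  set lam : ℝ := Y ^ (9 / 10 : ℝ) / 10000 with hlamdef
  have hYc4 : 4 ≤ Yc t := by
    unfold Yc
    nlinarith [sq_nonneg (Real.log (2 + t))]
  have hY4 : 4 ≤ Y := by
    rw [hY]
    have : (0 : ℝ) ≤ ((10000000000 : ℕ) : ℝ) := Nat.cast_nonneg _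
    linarith
  have han := hanat Y lam hY4 (by linarith) le_rfl S δ hSδ t ht
  have hw : ∀ q ∈ S, 0 ≤ wt δ q := fun q hq => (an_wt_pos (hSδ q hq).1 (hSδ q hq).2).le
  set M := ∑ q ∈ S, wt δ q with hM
  have hM0 : 0 ≤ M := Finset.sum_nonneg hw
  -- termwise bound
  have hterm : ∀ q ∈ S, ∀ r ∈ S, (if t ≤ MM δ q r ∧ MM δ q r < 2 * t then
        wt δ q * wt δ r * FY (Yc (MM δ q r)) (qp q r * qp r q) else 0) ≤
      c1 * Real.exp 20 * (if t ≤ MM δ q r ∧ MM δ q r < 2 * t then wt δ q * wt δ r else 0) +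
      c1 * Real.exp (-(10 * (lam - 2))) * (if MM δ q r < 2 * t then
        wt δ q * wt δ r * Real.exp (lam * LY Y (qp q r * qp r q)) else 0) := by
    intro q hq r hr
    have hww : 0 ≤ wt δ q * wt δ r := mul_nonneg (hw q hq) (hw r hr)
    by_cases h : t ≤ MM δ q r ∧ MM δ q r < 2 * t
    · rw [if_pos h, if_pos h, if_pos h.2]
      have hYY : Yc t ≤ Yc (MM δ q r) := by
        unfold Yc
        have h1 : Real.log (2 + t) ≤ Real.log (2 + MM δ q r) :=
          Real.log_le_log (by linarith) (by linarith [h.1])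
        have h2 : 0 ≤ Real.log (2 + t) := Real.log_nonneg (by linarith)
        have h3 := pow_le_pow_left₀ h2 h1 2
        linarith
      set n := qp q r * qp r q with hn
      have f1 : FY (Yc (MM δ q r)) n ≤ Real.exp (2 * LY (Yc (MM δ q r)) n) := an_FY _ _
      have f2 : LY (Yc (MM δ q r)) n ≤ ((10000000000 : ℕ) + 1) + LY Y n :=
        (an_LY_anti hYY n).trans (an_LY_shift (by linarith) _ n)
      have f3 : Real.exp (2 * LY (Yc (MM δ q r)) n) ≤ c1 * Real.exp (2 * LY Y n) := by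
        rw [hc1, ← Real.exp_add]
        refine Real.exp_le_exp.mpr ?_
        linarith
      have f4 := an_dich (L := LY Y n) hlam
      have f5 : FY (Yc (MM δ q r)) n ≤
          c1 * (Real.exp 20 + Real.exp (-(10 * (lam - 2))) * Real.exp (lam * LY Y n)) :=
        f1.trans (f3.trans (mul_le_mul_of_nonneg_left f4 (by linarith)))
      calc wt δ q * wt δ r * FY (Yc (MM δ q r)) n
          ≤ wt δ q * wt δ r *
            (c1 * (Real.exp 20 + Real.exp (-(10 * (lam - 2))) * Real.exp (lam * LY Y n))) :=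
            mul_le_mul_of_nonneg_left f5 hww
        _ = _ := by ring
    · rw [if_neg h, if_neg h]
      have : 0 ≤ c1 * Real.exp (-(10 * (lam - 2))) * (if MM δ q r < 2 * t then
          wt δ q * wt δ r * Real.exp (lam * LY Y (qp q r * qp r q)) else 0) := by
        split_ifs
        · positivity
        · rw [mul_zero]
      linarith
  have hsum := Finset.sum_le_sum fun q hq => Finset.sum_le_sum fun r hr => hterm q hq r hr
  refine hsum.trans ?_
  simp only [Finset.sum_add_distrib, ← Finset.mul_sum]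
  set A := ∑ q ∈ S, ∑ r ∈ S, (if t ≤ MM δ q r ∧ MM δ q r < 2 * t then
        wt δ q * wt δ r else 0) with hA
  have hA0 : 0 ≤ A := by
    refine Finset.sum_nonneg fun q hq => Finset.sum_nonneg fun r hr => ?_
    split_ifs
    · exact mul_nonneg (hw q hq) (hw r hr)
    · exact le_refl _
  have hMp : M ^ (51 / 50 : ℝ) ≤ 2 * M := by
    rcases hM0.eq_or_lt with h0 | h0
    · rw [← h0, Real.zero_rpow (by norm_num)]
      norm_num
    · have h1 : M ^ (51 / 50 : ℝ) = M * M ^ (1 / 50 : ℝ) := by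
        rw [← Real.rpow_one_add' hM0 (by norm_num)]
        norm_num
      have h2 : M ^ (1 / 50 : ℝ) ≤ 2 := by
        have h3 : M ^ (1 / 50 : ℝ) ≤ 2 ^ (1 / 50 : ℝ) := Real.rpow_le_rpow hM0 hS2 (by norm_num)
        have h4 : (2 : ℝ) ^ (1 / 50 : ℝ) ≤ 2 ^ (1 : ℝ) :=
          Real.rpow_le_rpow_of_exponent_le (by norm_num) (by norm_num)
        rw [Real.rpow_one] at h4
        linarith
      rw [h1, mul_comm]
      exact mul_le_mul_of_nonneg_right h2 hM0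
  have hB : Real.exp (-(10 * (lam - 2))) * ∑ q ∈ S, ∑ r ∈ S, (if MM δ q r < 2 * t then
        wt δ q * wt δ r * Real.exp (lam * LY Y (qp q r * qp r q)) else 0) ≤
      2 * C0 * Real.exp 300000 * (min (t ^ (49 / 50 : ℝ)) (1 / t) * M) := by
    have e0 : 0 ≤ Real.exp (-(10 * (lam - 2))) := Real.exp_nonneg _
    calc _ ≤ Real.exp (-(10 * (lam - 2))) * (C0 * t ^ (49 / 50 : ℝ) * M ^ (51 / 50 : ℝ)) :=
          mul_le_mul_of_nonneg_left han e0
      _ ≤ Real.exp (-(10 * (lam - 2))) * (C0 * t ^ (49 / 50 : ℝ) * (2 * M)) := by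
          refine mul_le_mul_of_nonneg_left (mul_le_mul_of_nonneg_left hMp ?_) e0
          have := Real.rpow_nonneg ht.le (49 / 50 : ℝ)
          positivity
      _ = 2 * C0 * M * (Real.exp (-(10 * (lam - 2))) * t ^ (49 / 50 : ℝ)) := by ring
      _ ≤ 2 * C0 * M * (Real.exp 300000 * min (t ^ (49 / 50 : ℝ)) (1 / t)) :=
          mul_le_mul_of_nonneg_left hpar (by positivity)
      _ = _ := by ring
  have hmin0 : 0 ≤ min (t ^ (49 / 50 : ℝ)) (1 / t) * M :=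
    mul_nonneg (le_min (Real.rpow_nonneg ht.le _) (by positivity)) hM0
  have hB' := mul_le_mul_of_nonneg_left hB (by linarith : (0 : ℝ) ≤ c1)
  have g1 : 0 ≤ c1 * (2 * C0 * Real.exp 300000) * A := by positivity
  have g2 : 0 ≤ c1 * Real.exp 20 * (min (t ^ (49 / 50 : ℝ)) (1 / t) * M) := by positivity
  linarith

end Vale.Agent.P028E
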