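import Vale.Agent.Lib.P028.E.Defs
import Vale.Agent.Lib.P028.Centers

/-!
Block sets and the second moment statement.
-/

open Finset MeasureTheory

namespace Vale.Agent.P028E

/-- the fraction attached to `q` (level `cls q - s`) -/
noncomputable def Aq (γ : ℝ) (s q : ℕ) : ℤ := Vale.Agent.P028.cA γ (cls q - s)
noncomputable def Bq (γ : ℝ) (s q : ℕ) : ℕ := Vale.Agent.P028.cB γ (cls q - s)

/-- the set attached to `q` -/
def Eq (γ : ℝ) (s : ℕ) (δ : ℕ → ℝ) (q : ℕ) : Set ℝ := AS γ (Aq γ s q) (Bq γ s q) (δ q) q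

/-- second moment of a block: hypothesis of the full measure theorem (I prove this) -/
def SecondMoment (ε : ℝ) : Prop := ∃ (s : ℕ) (C : ℝ) (X0 : ℕ), 0 < C ∧ ∀ (γ : ℝ) (i0 : ℕ)
    (Q : Finset ℕ) (δ : ℕ → ℝ), (∀ q ∈ Q, X0 ≤ q ∧ cls q % 3 = i0) →
    (∀ q ∈ Q, 1 / (q : ℝ) ≤ δ q ∧ δ q ≤ (q : ℝ) ^ (-ε)) → ∑ q ∈ Q, wt δ q ≤ 2 →
    ∑ q ∈ Q, ∑ r ∈ Q, lam (Bq γ s q) q * lam (Bq γ s r) r *
      volume.real (Eq γ s δ q ∩ Eq γ s δ r) ≤ C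

end Vale.Agent.P028E
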