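import Vale.Agent.Lib.P028.E.Struct

/-!
# P028 E: counting the neighbours of `v`

`w ∈ Γ` is determined by `(k, x) = (jv N w, xv P N w)` because `w * k = b * N * x` (`struct_w`);
`k ∣ N`; `x ≥ 1`; and `qp w v = (b / gcd b a) * x * jv N v` (`struct_q` for the pair `(w, v)`,
`NoCom` is symmetric), while `(qp w v) δ_v ≤ MM δ v w < 2t`, so
`x < 2t / (δ_v (b / gcd a b) (jv N v))`.  Group `Γ` according to `k`.
-/

open Finset

namespace Vale.Agent.P028E

open Classical in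
theorem cnt {P : Finset ℕ} (hP : ∀ p ∈ P, p.Prime) {N v a b : ℕ} (hv : 0 < v) (ha0 : 0 < a)
    (hb0 : 0 < b)
    (hN : 0 < N) (hNP : ∀ p ∈ P, ¬ p ∣ N) (ha : partP P v = a) (Γ : Finset ℕ)
    (δ : ℕ → ℝ) (hδ : 0 < δ v) (t : ℝ) (ht : 0 < t) (R : ℕ → ℕ → Prop)
    (h : ∀ w ∈ Γ, 0 < w ∧ partP P w = b ∧ NoCom P N v w ∧ MM δ v w < 2 * t ∧
      R (jv N w) (xv P N w)) :
    ∑ w ∈ Γ, (jv N v : ℝ) / (jv N w : ℝ) ≤
      ∑ k ∈ N.divisors, (jv N v : ℝ) / (k : ℝ) *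
        (((Finset.Icc 1 ⌊2 * t / (δ v * ((b / Nat.gcd a b : ℕ) : ℝ) * (jv N v : ℝ))⌋₊).filter
          (fun x => R k x)).card : ℝ) := by
  have hmap : ∀ w ∈ Γ, jv N w ∈ N.divisors := fun w _ =>
    Nat.mem_divisors.2 ⟨jv_dvd N w, hN.ne'⟩
  rw [← Finset.sum_fiberwise_of_maps_to hmap]
  refine Finset.sum_le_sum fun k hk => ?_
  have h1 : ∑ w ∈ Γ.filter (fun w => jv N w = k), (jv N v : ℝ) / (jv N w : ℝ) =
      (jv N v : ℝ) / (k : ℝ) * ((Γ.filter (fun w => jv N w = k)).card : ℝ) := by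
    rw [Finset.sum_congr rfl (fun w hw => by rw [(Finset.mem_filter.1 hw).2]),
      Finset.sum_const, nsmul_eq_mul, mul_comm]
  rw [h1]
  refine mul_le_mul_of_nonneg_left ?_ (by positivity)
  have hjv : 0 < jv N v := jv_pos hN
  have hg : 0 < b / Nat.gcd a b :=
    Nat.div_pos (Nat.le_of_dvd hb0 (Nat.gcd_dvd_right a b)) (Nat.gcd_pos_of_pos_left b ha0)
  norm_cast
  refine Finset.card_le_card_of_injOn (fun w => xv P N w) ?_ ?_
  · intro w hw
    have hw' := Finset.mem_filter.1 (Finset.mem_coe.1 hw)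
    obtain ⟨hw0, hwb, hnc, hM, hR⟩ := h w hw'.1
    refine Finset.mem_coe.2 (Finset.mem_filter.2 ⟨Finset.mem_Icc.2 ⟨?_, ?_⟩, ?_⟩)
    · exact xv_pos hP hw0 hN hNP
    · refine Nat.le_floor ?_
      have hnc' : NoCom P N w v := fun p hp hpP => (hnc p hp hpP).symm
      have hq := struct_q hP hw0 hv hN hNP hwb ha hnc'
      have hM' : (qp w v : ℝ) * δ v < 2 * t := lt_of_le_of_lt (le_max_left _ _) hM
      have hden : 0 < δ v * ((b / Nat.gcd a b : ℕ) : ℝ) * (jv N v : ℝ) := by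
        have e1 : (0 : ℝ) < ((b / Nat.gcd a b : ℕ) : ℝ) := by exact_mod_cast hg
        have e2 : (0 : ℝ) < (jv N v : ℝ) := by exact_mod_cast hjv
        positivity
      rw [le_div_iff₀ hden]
      have e3 : (qp w v : ℝ) = ((b / Nat.gcd a b : ℕ) : ℝ) * (xv P N w : ℝ) * (jv N v : ℝ) := by
        rw [hq, Nat.gcd_comm b a]
        push_cast
        ring
      rw [e3] at hM'
      nlinarith [hM']
    · have hR' := hR
      rw [hw'.2] at hR'
      exact hR'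
  · intro w hw w' hw' hx
    have h1 := Finset.mem_filter.1 (Finset.mem_coe.1 hw)
    have h2 := Finset.mem_filter.1 (Finset.mem_coe.1 hw')
    obtain ⟨hw0, hwb, -, -, -⟩ := h w h1.1
    obtain ⟨hw0', hwb', -, -, -⟩ := h w' h2.1
    have s1 := struct_w hP hw0 hN hNP hwb
    have s2 := struct_w hP hw0' hN hNP hwb'
    have hx' : xv P N w = xv P N w' := hx
    rw [h1.2, hx'] at s1
    rw [h2.2] at s2
    have hk0 : 0 < k := Nat.pos_of_mem_divisors hk
    exact Nat.eq_of_mul_eq_mul_right hk0 (s1.trans s2.symm)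

end Vale.Agent.P028E
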