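import Vale.Agent.Lib.P028.E.LDefs

/-!
# P028 E: the elementary concentration inequality

Notation: `θ = 51/100`, `ρ = 39/80`, `K i j = p^(-ρ|i-j|)`, `x`, `y` probability vectors on
`{0,..,n-1}`.

`kern_le`: `∑_{i,j} K(i,j) (x_i y_j)^θ ≤ 6` for every `p ≥ 2`.  Proof: for every shift `d ∈ ℤ`,
`∑_i (x_i y_{i+d})^θ ≤ ∑_i (x_i y_{i+d})^(1/2) ≤ 1` (`0 ≤ x_i y_j ≤ 1`, Cauchy-Schwarz) and
`∑_{d∈ℤ} p^(-ρ|d|) ≤ (1+2^(-ρ))/(1-2^(-ρ)) < 6` as `2^(-39/80) < 0.7135`.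
(Even simpler: `(x_i y_j)^θ ≤ (x_i y_j)^(1/2) ≤ (x_i + y_j)/2`, and `∑_j K(i,j) ≤ 6`,
`∑_i K(i,j) ≤ 6`.)

`conc`: if `p ≥ p0` (absolute) and `∑_{i,j} K(i,j) (x_i y_j)^θ ≥ 1` then for some `k`,
`1 - x_k ≤ p^(-397/400)` and `1 - y_k ≤ p^(-397/400)`.  Proof.  `κ := p^(-ρ)`, small for `p` large.
* Off-diagonal terms: `∑_{i≠j} K(i,j)(x_i y_j)^θ ≤ ∑_{i≠j} K(i,j)(x_i+y_j)/2 ≤ 2κ/(1-κ) ≤ 4κ`.
* Diagonal: with `m = max_i x_i y_i`, `∑_i (x_i y_i)^θ ≤ m^(1/100) ∑ (x_i y_i)^(1/2) ≤ m^(1/100)`.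
  So `1 ≤ m^(1/100) + 4κ`, `m ≥ (1-4κ)^100 ≥ 1 - 400κ`.  Let `k` be the maximiser, `s = 1-x_k`,
  `s' = 1-y_k`; then `x_k ≥ m`, `y_k ≥ m`, `s, s' ≤ 400κ =: s0`, tiny for `p ≥ p0`.
* Refine.  Let `σ = max(s, s')`.  Diagonal: `(x_k y_k)^θ ≤ (1-θ s)(1-θ s') ≤ 1 - θ(s+s') + s s'`
  (Bernoulli `(1-s)^θ ≤ 1-θ s`); `∑_{i≠k}(x_i y_i)^θ ≤ (max_{i≠k} x_i y_i)^(1/100) ∑_{i≠k} (x_i y_i)^(1/2)
  ≤ σ^(1/50) σ` (as `x_i ≤ s`, `y_i ≤ s'` for `i≠k`, `∑_{i≠k}(x_i y_i)^(1/2) ≤ (s s')^(1/2) ≤ σ`).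
  Off-diagonal terms with `i = k`: `∑_{j≠k} K(k,j) y_j^θ ≤ s'^θ ∑_{d≥1} 2κ^d ≤ 4κ σ^θ`; the same for
  `j = k`; off-diagonal terms with `i, j ≠ k`: `≤ 4κ σ^θ` too
  (`(x_i y_j)^θ ≤ σ^θ (x_i y_j)^(1/2)`... or simply `(x_i y_j)^θ ≤ (x_i y_j)^(1/2) ≤ (x_i + y_j)/2`
  and `∑_{i≠k} x_i = s ≤ σ ≤ σ^θ`).
  Total: `1 ≤ 1 - θ(s+s') + s s' + σ^(51/50) + 12 κ σ^θ`, hence
  `θ σ ≤ σ² + σ^(51/50) + 12κσ^θ`.  If `σ ≤ s0` is so small that `σ + σ^(1/50) ≤ θ/2`, then
  `(θ/2) σ^(1-θ) ≤ 12 κ`, i.e. `σ ≤ (48 κ)^(1/(1-θ)) = (48)^(100/49) p^(-(39/80)(100/49))`, and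
  `(39/80)(100/49) = 0.99489.. > 397/400 = 0.9925`, so `σ ≤ p^(-397/400)` for `p ≥ p0`.
-/

open Finset

namespace Vale.Agent.P028E

private theorem cc_geom (κ : ℝ) (h0 : 0 ≤ κ) (h1 : κ < 1) (m : ℕ) :
    ∑ k ∈ range m, κ ^ (k + 1) ≤ κ / (1 - κ) := by
  have h2 : ∑ k ∈ range m, κ ^ (k + 1) = κ * ∑ k ∈ range m, κ ^ k := by
    rw [Finset.mul_sum]
    refine Finset.sum_congr rfl fun k _ => ?_
    ring
  have h3 : (∑ k ∈ range m, κ ^ k) * (1 - κ) ≤ 1 := by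
    rw [geom_sum_mul_neg]
    have := pow_nonneg h0 m
    linarith
  have h4 : 0 < 1 - κ := by linarith
  rw [h2, le_div_iff₀ h4, mul_assoc]
  calc κ * ((∑ k ∈ range m, κ ^ k) * (1 - κ)) ≤ κ * 1 := mul_le_mul_of_nonneg_left h3 h0
    _ = κ := mul_one κ

/-- off-diagonal kernel -/
private noncomputable def cco (κ : ℝ) (i j : ℕ) : ℝ := if i = j then 0 else κ ^ (ds i j)

private theorem cco_nonneg (κ : ℝ) (h0 : 0 ≤ κ) (i j : ℕ) : 0 ≤ cco κ i j := by
  unfold cco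
  split_ifs
  · exact le_rfl
  · exact pow_nonneg h0 _

private theorem ds_comm (i j : ℕ) : ds i j = ds j i := by
  unfold ds
  omega

private theorem cco_comm (κ : ℝ) (i j : ℕ) : cco κ i j = cco κ j i := by
  unfold cco
  rw [ds_comm]
  by_cases h : i = j
  · rw [if_pos h, if_pos h.symm]
  · rw [if_neg h, if_neg (Ne.symm h)]

private theorem cco_row (κ : ℝ) (h0 : 0 ≤ κ) (h1 : κ < 1) (n i : ℕ) (hi : i < n) :
    ∑ j ∈ range n, cco κ i j ≤ 2 * κ / (1 - κ) := by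
  rw [← Finset.sum_range_add_sum_Ico _ hi.le, Finset.sum_eq_sum_Ico_succ_bot hi]
  have e1 : ∑ j ∈ range i, cco κ i j = ∑ k ∈ range i, κ ^ (k + 1) := by
    rw [← Finset.sum_range_reflect]
    refine Finset.sum_congr rfl fun j hj => ?_
    rw [Finset.mem_range] at hj
    unfold cco ds
    rw [if_neg (by omega)]
    congr 1
    omega
  have e2 : cco κ i i = 0 := by
    unfold cco
    rw [if_pos rfl]
  have e3 : ∑ j ∈ Ico (i + 1) n, cco κ i j = ∑ k ∈ range (n - (i + 1)), κ ^ (k + 1) := by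
    rw [Finset.sum_Ico_eq_sum_range]
    refine Finset.sum_congr rfl fun j hj => ?_
    unfold cco ds
    rw [if_neg (by omega)]
    congr 1
    omega
  rw [e1, e2, e3]
  have g1 := cc_geom κ h0 h1 i
  have g2 := cc_geom κ h0 h1 (n - (i + 1))
  have g3 : 2 * κ / (1 - κ) = κ / (1 - κ) + κ / (1 - κ) := by ring
  linarith

private theorem cc_split (p i j : ℕ) : Kp p i j =
    (if i = j then 1 else 0) + cco ((p : ℝ) ^ (-(39 / 80) : ℝ)) i j := by
  unfold Kp cco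
  by_cases h : i = j
  · subst h
    simp [ds]
  · rw [if_neg h, if_neg h, zero_add]

private theorem cc_le_one (n : ℕ) (x : ℕ → ℝ) (hx : ∀ i, 0 ≤ x i)
    (hx1 : ∑ i ∈ range n, x i = 1) (i : ℕ) (hi : i < n) : x i ≤ 1 := by
  rw [← hx1]
  exact Finset.single_le_sum (fun j _ => hx j) (Finset.mem_range.2 hi)

private theorem cc_half (a b : ℝ) (ha : 0 ≤ a) (hb : 0 ≤ b) :
    (a * b) ^ (1 / 2 : ℝ) ≤ (a + b) / 2 := by
  rw [← Real.sqrt_eq_rpow]
  refine Real.sqrt_le_iff.2 ⟨by positivity, ?_⟩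
  nlinarith [sq_nonneg (a - b)]

private theorem cc_amgm (a b : ℝ) (ha : 0 ≤ a) (hb : 0 ≤ b) (ha1 : a ≤ 1) (hb1 : b ≤ 1) :
    (a * b) ^ (51 / 100 : ℝ) ≤ (a + b) / 2 := by
  refine le_trans ?_ (cc_half a b ha hb)
  exact Real.rpow_le_rpow_of_exponent_ge' (mul_nonneg ha hb) (mul_le_one₀ ha1 hb hb1)
    (by norm_num) (by norm_num)

private theorem cc_diag (a b m : ℝ) (ha : 0 ≤ a) (hb : 0 ≤ b) (hm : a * b ≤ m) :
    (a * b) ^ (51 / 100 : ℝ) ≤ m ^ (1 / 100 : ℝ) * ((a + b) / 2) := by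
  have h1 : (a * b) ^ (51 / 100 : ℝ) = (a * b) ^ (1 / 100 : ℝ) * (a * b) ^ (1 / 2 : ℝ) := by
    rw [← Real.rpow_add' (mul_nonneg ha hb) (by norm_num)]
    norm_num
  rw [h1]
  have h2 := Real.rpow_le_rpow (mul_nonneg ha hb) hm (by norm_num : (0 : ℝ) ≤ 1 / 100)
  have h3 := cc_half a b ha hb
  have h4 : 0 ≤ (a * b) ^ (1 / 2 : ℝ) := Real.rpow_nonneg (mul_nonneg ha hb) _
  have h5 : 0 ≤ m ^ (1 / 100 : ℝ) := Real.rpow_nonneg ((mul_nonneg ha hb).trans hm) _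
  calc (a * b) ^ (1 / 100 : ℝ) * (a * b) ^ (1 / 2 : ℝ) ≤
      m ^ (1 / 100 : ℝ) * (a * b) ^ (1 / 2 : ℝ) := mul_le_mul_of_nonneg_right h2 h4
    _ ≤ m ^ (1 / 100 : ℝ) * ((a + b) / 2) := mul_le_mul_of_nonneg_left h3 h5

/-- off-diagonal part, weighted -/
private theorem cc_off (κ C : ℝ) (n : ℕ) (hC : ∀ i < n, ∑ j ∈ range n, cco κ i j ≤ C)
    (u v : ℕ → ℝ) (hu : ∀ i, 0 ≤ u i) (hv : ∀ i, 0 ≤ v i) :
    ∑ i ∈ range n, ∑ j ∈ range n, cco κ i j * (u i + v j) ≤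
      C * (∑ i ∈ range n, u i) + C * ∑ i ∈ range n, v i := by
  have h1 : ∑ i ∈ range n, ∑ j ∈ range n, cco κ i j * (u i + v j) =
      (∑ i ∈ range n, (∑ j ∈ range n, cco κ i j) * u i) +
        ∑ j ∈ range n, (∑ i ∈ range n, cco κ j i) * v j := by
    rw [Finset.sum_congr rfl fun i _ => Finset.sum_congr rfl fun j _ => mul_add (cco κ i j) (u i) (v j)]
    simp only [Finset.sum_add_distrib]
    congr 1
    · refine Finset.sum_congr rfl fun i _ => ?_
      rw [Finset.sum_mul]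
    · rw [Finset.sum_comm]
      refine Finset.sum_congr rfl fun j _ => ?_
      rw [Finset.sum_mul]
      refine Finset.sum_congr rfl fun i _ => ?_
      rw [cco_comm]
  rw [h1, Finset.mul_sum, Finset.mul_sum]
  refine add_le_add ?_ ?_
  · exact Finset.sum_le_sum fun i hi =>
      mul_le_mul_of_nonneg_right (hC i (Finset.mem_range.1 hi)) (hu i)
  · exact Finset.sum_le_sum fun i hi =>
      mul_le_mul_of_nonneg_right (hC i (Finset.mem_range.1 hi)) (hv i)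

private theorem cc_total (p n : ℕ) (x y : ℕ → ℝ) :
    ∑ i ∈ range n, ∑ j ∈ range n, Kp p i j * (x i * y j) ^ (51 / 100 : ℝ) =
      ∑ i ∈ range n, (x i * y i) ^ (51 / 100 : ℝ) +
        ∑ i ∈ range n, ∑ j ∈ range n,
          cco ((p : ℝ) ^ (-(39 / 80) : ℝ)) i j * (x i * y j) ^ (51 / 100 : ℝ) := by
  rw [← Finset.sum_add_distrib]
  refine Finset.sum_congr rfl fun i hi => ?_
  have h1 : (x i * y i) ^ (51 / 100 : ℝ) =
      ∑ j ∈ range n, (if i = j then 1 else 0) * (x i * y j) ^ (51 / 100 : ℝ) := by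
    simp only [ite_mul, one_mul, zero_mul]
    rw [Finset.sum_ite_eq, if_pos hi]
  rw [h1, ← Finset.sum_add_distrib]
  refine Finset.sum_congr rfl fun j _ => ?_
  rw [cc_split]
  ring

theorem kern_le (p n : ℕ) (hp : 2 ≤ p) (x y : ℕ → ℝ) (hx : ∀ i, 0 ≤ x i) (hy : ∀ i, 0 ≤ y i)
    (hx1 : ∑ i ∈ range n, x i = 1) (hy1 : ∑ i ∈ range n, y i = 1) :
    ∑ i ∈ range n, ∑ j ∈ range n, Kp p i j * (x i * y j) ^ (51 / 100 : ℝ) ≤ 6 := by
  obtain ⟨κ, hκ⟩ : ∃ κ : ℝ, κ = (p : ℝ) ^ (-(39 / 80) : ℝ) := ⟨_, rfl⟩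
  have hp' : (2 : ℝ) ≤ p := by exact_mod_cast hp
  have h0 : 0 ≤ κ := by
    rw [hκ]
    positivity
  have h57 : κ ≤ 5 / 7 := by
    have e1 : (p : ℝ) ^ (-(39 / 80) : ℝ) ≤ 2 ^ (-(39 / 80) : ℝ) :=
      Real.rpow_le_rpow_of_nonpos (by norm_num) hp' (by norm_num)
    have e2 : (2 : ℝ) ^ (-(39 / 80) : ℝ) ≤ 5 / 7 := by
      rw [Real.rpow_neg (by norm_num)]
      have e3 : (7 / 5 : ℝ) ≤ 2 ^ (39 / 80 : ℝ) := by
        have e4 : (7 / 5 : ℝ) = ((7 / 5 : ℝ) ^ (80 : ℕ)) ^ (1 / 80 : ℝ) := by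
          rw [← Real.rpow_natCast, ← Real.rpow_mul (by norm_num)]
          norm_num
        have e5 : (2 : ℝ) ^ (39 / 80 : ℝ) = ((2 : ℝ) ^ (39 : ℕ)) ^ (1 / 80 : ℝ) := by
          rw [← Real.rpow_natCast, ← Real.rpow_mul (by norm_num)]
          norm_num
        rw [e4, e5]
        exact Real.rpow_le_rpow (by positivity) (by norm_num) (by norm_num)
      calc ((2 : ℝ) ^ (39 / 80 : ℝ))⁻¹ ≤ (7 / 5 : ℝ)⁻¹ := inv_anti₀ (by norm_num) e3
        _ = 5 / 7 := by norm_num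
    rw [hκ]
    exact e1.trans e2
  have h1 : κ < 1 := by linarith
  have hrow : ∀ i < n, ∑ j ∈ range n, cco κ i j ≤ 5 := by
    intro i hi
    refine (cco_row κ h0 h1 n i hi).trans ?_
    rw [div_le_iff₀ (by linarith)]
    linarith
  rw [cc_total, ← hκ]
  have hd : ∑ i ∈ range n, (x i * y i) ^ (51 / 100 : ℝ) ≤ 1 := by
    calc ∑ i ∈ range n, (x i * y i) ^ (51 / 100 : ℝ) ≤ ∑ i ∈ range n, (x i + y i) / 2 :=
          Finset.sum_le_sum fun i hi => cc_amgm _ _ (hx i) (hy i)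
            (cc_le_one n x hx hx1 i (Finset.mem_range.1 hi))
            (cc_le_one n y hy hy1 i (Finset.mem_range.1 hi))
      _ = 1 := by
          rw [← Finset.sum_div, Finset.sum_add_distrib, hx1, hy1]
          norm_num
  have ho : ∑ i ∈ range n, ∑ j ∈ range n, cco κ i j * (x i * y j) ^ (51 / 100 : ℝ) ≤ 5 := by
    calc ∑ i ∈ range n, ∑ j ∈ range n, cco κ i j * (x i * y j) ^ (51 / 100 : ℝ) ≤
        ∑ i ∈ range n, ∑ j ∈ range n, cco κ i j * (x i / 2 + y j / 2) := by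
          refine Finset.sum_le_sum fun i hi => Finset.sum_le_sum fun j hj => ?_
          refine mul_le_mul_of_nonneg_left ?_ (cco_nonneg κ h0 i j)
          have := cc_amgm (x i) (y j) (hx i) (hy j)
            (cc_le_one n x hx hx1 i (Finset.mem_range.1 hi))
            (cc_le_one n y hy hy1 j (Finset.mem_range.1 hj))
          linarith
      _ ≤ 5 * (∑ i ∈ range n, x i / 2) + 5 * ∑ i ∈ range n, y i / 2 :=
          cc_off κ 5 n hrow _ _ (fun i => by have := hx i; positivity)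
            (fun i => by have := hy i; positivity)
      _ = 5 := by
          rw [← Finset.sum_div, ← Finset.sum_div, hx1, hy1]
          norm_num
  linarith

/-- the final algebra -/
private theorem cc_end (σ κ : ℝ) (h0 : 0 ≤ κ) (hσpos : 0 < σ) (hσs : σ ≤ 1 / 20)
    (h50 : σ ^ (1 / 50 : ℝ) ≤ 1 / 5)
    (hfin : 51 / 100 * σ ≤ σ ^ 2 + σ * σ ^ (1 / 50 : ℝ) + 12 * κ * σ ^ (51 / 100 : ℝ)) :
    σ ≤ (48 * κ) ^ (100 / 49 : ℝ) := by
  have hσ0 : 0 ≤ σ := hσpos.le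
  have h4 : σ ≤ 48 * κ * σ ^ (51 / 100 : ℝ) := by
    have e1 : σ ^ 2 ≤ 1 / 20 * σ := by
      rw [sq]
      exact mul_le_mul_of_nonneg_right hσs hσ0
    have e2 : σ * σ ^ (1 / 50 : ℝ) ≤ σ * (1 / 5) := mul_le_mul_of_nonneg_left h50 hσ0
    obtain ⟨t, ht⟩ : ∃ t : ℝ, t = σ ^ (51 / 100 : ℝ) := ⟨_, rfl⟩
    rw [← ht] at hfin ⊢
    have e3 : 0 ≤ κ * t := by
      rw [ht]
      exact mul_nonneg h0 (Real.rpow_nonneg hσ0 _)
    linarith
  have h5 : σ ^ (49 / 100 : ℝ) ≤ 48 * κ := by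
    have e1 : σ = σ ^ (49 / 100 : ℝ) * σ ^ (51 / 100 : ℝ) := by
      rw [← Real.rpow_add hσpos]
      norm_num
    have e2 : 0 < σ ^ (51 / 100 : ℝ) := Real.rpow_pos_of_pos hσpos _
    refine le_of_mul_le_mul_right ?_ e2
    rw [← e1]
    exact h4
  have h6 : (σ ^ (49 / 100 : ℝ)) ^ (100 / 49 : ℝ) = σ := by
    rw [← Real.rpow_mul hσ0]
    norm_num
  calc σ = (σ ^ (49 / 100 : ℝ)) ^ (100 / 49 : ℝ) := h6.symm
    _ ≤ (48 * κ) ^ (100 / 49 : ℝ) :=
      Real.rpow_le_rpow (Real.rpow_nonneg hσ0 _) h5 (by norm_num)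

private theorem cc_kk (a b σ : ℝ) (ha : 0 ≤ a) (hb : 0 ≤ b) (ha1 : a ≤ 1) (hb1 : b ≤ 1)
    (hσ : σ = max (1 - a) (1 - b)) :
    (a * b) ^ (51 / 100 : ℝ) ≤ 1 - 51 / 100 * σ + σ ^ 2 := by
  have hbern : ∀ z : ℝ, 0 ≤ z → z ≤ 1 → z ^ (51 / 100 : ℝ) ≤ 1 - 51 / 100 * (1 - z) := by
    intro z hz0 hz1
    have := rpow_one_add_le_one_add_mul_self (s := z - 1) (by linarith)
      (p := 51 / 100) (by norm_num) (by norm_num)
    have e1 : 1 + (z - 1) = z := by ring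
    rw [e1] at this
    linarith
  have hs : 1 - a ≤ σ := by
    rw [hσ]
    exact le_max_left _ _
  have hs' : 1 - b ≤ σ := by
    rw [hσ]
    exact le_max_right _ _
  rw [Real.mul_rpow ha hb]
  have e1 := hbern a ha ha1
  have e2 := hbern b hb hb1
  have e3 : 0 ≤ a ^ (51 / 100 : ℝ) := Real.rpow_nonneg ha _
  have e4 : 0 ≤ b ^ (51 / 100 : ℝ) := Real.rpow_nonneg hb _
  have e5 : a ^ (51 / 100 : ℝ) * b ^ (51 / 100 : ℝ) ≤
      (1 - 51 / 100 * (1 - a)) * (1 - 51 / 100 * (1 - b)) :=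
    mul_le_mul e1 e2 e4 (e3.trans e1)
  have e6 : (1 - a) * (1 - b) ≤ σ ^ 2 := by
    rw [sq]
    exact mul_le_mul hs hs' (by linarith) (by linarith)
  have e7 : σ ≤ (1 - a) + (1 - b) := by
    rw [hσ]
    exact max_le (by linarith) (by linarith)
  have e8 : 0 ≤ (1 - a) * (1 - b) := mul_nonneg (by linarith) (by linarith)
  nlinarith

/-- the main step of the concentration inequality -/
private theorem cc_main (n : ℕ) (x y : ℕ → ℝ) (κ : ℝ) (h0 : 0 ≤ κ)
    (hκs : κ ≤ 1 / 1000000) (hκ50 : (400 * κ) ^ (1 / 50 : ℝ) ≤ 1 / 5)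
    (hx : ∀ i, 0 ≤ x i) (hy : ∀ i, 0 ≤ y i)
    (hx1 : ∑ i ∈ range n, x i = 1) (hy1 : ∑ i ∈ range n, y i = 1)
    (hT : 1 ≤ ∑ i ∈ range n, (x i * y i) ^ (51 / 100 : ℝ) +
      ∑ i ∈ range n, ∑ j ∈ range n, cco κ i j * (x i * y j) ^ (51 / 100 : ℝ)) :
    ∃ k, k < n ∧ 1 - x k ≤ (48 * κ) ^ (100 / 49 : ℝ) ∧ 1 - y k ≤ (48 * κ) ^ (100 / 49 : ℝ) := by
  have h1 : κ < 1 := by linarith
  have hrow : ∀ i < n, ∑ j ∈ range n, cco κ i j ≤ 4 * κ := by
    intro i hi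
    refine (cco_row κ h0 h1 n i hi).trans ?_
    rw [div_le_iff₀ (by linarith)]
    nlinarith
  have hxle := cc_le_one n x hx hx1
  have hyle := cc_le_one n y hy hy1
  have hn : (range n).Nonempty := by
    rw [Finset.nonempty_iff_ne_empty]
    intro h
    rw [h] at hx1
    simp at hx1
  obtain ⟨k, hk, hkmax⟩ := Finset.exists_max_image (range n) (fun i => x i * y i) hn
  have hkn : k < n := Finset.mem_range.1 hk
  -- first bound
  have hoff1 : ∑ i ∈ range n, ∑ j ∈ range n, cco κ i j * (x i * y j) ^ (51 / 100 : ℝ) ≤ 4 * κ := by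
    calc ∑ i ∈ range n, ∑ j ∈ range n, cco κ i j * (x i * y j) ^ (51 / 100 : ℝ) ≤
        ∑ i ∈ range n, ∑ j ∈ range n, cco κ i j * (x i / 2 + y j / 2) := by
          refine Finset.sum_le_sum fun i hi => Finset.sum_le_sum fun j hj => ?_
          refine mul_le_mul_of_nonneg_left ?_ (cco_nonneg κ h0 i j)
          have := cc_amgm (x i) (y j) (hx i) (hy j)
            (hxle i (Finset.mem_range.1 hi)) (hyle j (Finset.mem_range.1 hj))
          linarith
      _ ≤ 4 * κ * (∑ i ∈ range n, x i / 2) + 4 * κ * ∑ i ∈ range n, y i / 2 :=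
          cc_off κ (4 * κ) n hrow _ _ (fun i => by have := hx i; positivity)
            (fun i => by have := hy i; positivity)
      _ = 4 * κ := by
          rw [← Finset.sum_div, ← Finset.sum_div, hx1, hy1]
          ring
  have hm0 : 0 ≤ x k * y k := mul_nonneg (hx k) (hy k)
  have hdiag1 : ∑ i ∈ range n, (x i * y i) ^ (51 / 100 : ℝ) ≤ (x k * y k) ^ (1 / 100 : ℝ) := by
    calc ∑ i ∈ range n, (x i * y i) ^ (51 / 100 : ℝ) ≤
        ∑ i ∈ range n, (x k * y k) ^ (1 / 100 : ℝ) * ((x i + y i) / 2) :=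
          Finset.sum_le_sum fun i hi => cc_diag _ _ _ (hx i) (hy i) (hkmax i hi)
      _ = (x k * y k) ^ (1 / 100 : ℝ) := by
          rw [← Finset.mul_sum, ← Finset.sum_div, Finset.sum_add_distrib, hx1, hy1]
          norm_num
  have hm1 : 1 - 4 * κ ≤ (x k * y k) ^ (1 / 100 : ℝ) := by linarith
  have hm2 : 1 - 400 * κ ≤ x k * y k := by
    have e1 : ((x k * y k) ^ (1 / 100 : ℝ)) ^ (100 : ℕ) = x k * y k := by
      rw [← Real.rpow_natCast, ← Real.rpow_mul hm0]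
      norm_num
    have e2 : (1 - 4 * κ) ^ (100 : ℕ) ≤ ((x k * y k) ^ (1 / 100 : ℝ)) ^ (100 : ℕ) :=
      pow_le_pow_left₀ (by linarith) hm1 100
    have e3 : 1 - 400 * κ ≤ (1 - 4 * κ) ^ (100 : ℕ) := by
      calc 1 - 400 * κ = 1 + (100 : ℕ) * (-(4 * κ)) := by
            push_cast
            ring
        _ ≤ (1 + -(4 * κ)) ^ (100 : ℕ) := one_add_mul_le_pow (by linarith) 100
        _ = (1 - 4 * κ) ^ (100 : ℕ) := by rw [← sub_eq_add_neg]
    rw [e1] at e2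
    exact e3.trans e2
  have hxk : x k * y k ≤ x k := by
    have := mul_le_mul_of_nonneg_left (hyle k hkn) (hx k)
    linarith
  have hyk : x k * y k ≤ y k := by
    have := mul_le_mul_of_nonneg_right (hxle k hkn) (hy k)
    linarith
  obtain ⟨σ, hσ⟩ : ∃ σ : ℝ, σ = max (1 - x k) (1 - y k) := ⟨_, rfl⟩
  have hs : 1 - x k ≤ σ := by
    rw [hσ]
    exact le_max_left _ _
  have hs' : 1 - y k ≤ σ := by
    rw [hσ]
    exact le_max_right _ _
  have hxk1 := hxle k hkn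
  have hyk1 := hyle k hkn
  have hσ0 : 0 ≤ σ := by linarith
  have hσ1 : σ ≤ 400 * κ := by
    rw [hσ]
    exact max_le (by linarith) (by linarith)
  suffices hsuff : σ ≤ (48 * κ) ^ (100 / 49 : ℝ) from
    ⟨k, hkn, hs.trans hsuff, hs'.trans hsuff⟩
  rcases hσ0.eq_or_lt with hz | hσpos
  · rw [← hz]
    exact Real.rpow_nonneg (by positivity) _
  -- truncated vectors
  obtain ⟨xt, hxt⟩ : ∃ xt : ℕ → ℝ, xt = fun i => if i = k then 0 else x i := ⟨_, rfl⟩
  obtain ⟨yt, hyt⟩ : ∃ yt : ℕ → ℝ, yt = fun i => if i = k then 0 else y i := ⟨_, rfl⟩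
  have hxt0 : ∀ i, 0 ≤ xt i := by
    intro i
    rw [hxt]
    dsimp only
    split_ifs
    · exact le_rfl
    · exact hx i
  have hyt0 : ∀ i, 0 ≤ yt i := by
    intro i
    rw [hyt]
    dsimp only
    split_ifs
    · exact le_rfl
    · exact hy i
  have hsumx : ∑ i ∈ range n, xt i = 1 - x k := by
    have e1 : ∀ i, xt i = x i - (if k = i then x k else 0) := by
      intro i
      rw [hxt]
      dsimp only
      by_cases h : i = k
      · subst h
        simp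
      · rw [if_neg h, if_neg (Ne.symm h), sub_zero]
    rw [Finset.sum_congr rfl fun i _ => e1 i, Finset.sum_sub_distrib, hx1, Finset.sum_ite_eq,
      if_pos hk]
  have hsumy : ∑ i ∈ range n, yt i = 1 - y k := by
    have e1 : ∀ i, yt i = y i - (if k = i then y k else 0) := by
      intro i
      rw [hyt]
      dsimp only
      by_cases h : i = k
      · subst h
        simp
      · rw [if_neg h, if_neg (Ne.symm h), sub_zero]
    rw [Finset.sum_congr rfl fun i _ => e1 i, Finset.sum_sub_distrib, hy1, Finset.sum_ite_eq,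
      if_pos hk]
  have hxi : ∀ i ∈ range n, i ≠ k → x i ≤ σ := by
    intro i hi hne
    have e1 : xt i ≤ ∑ j ∈ range n, xt j := Finset.single_le_sum (fun j _ => hxt0 j) hi
    have e2 : xt i = x i := by
      rw [hxt]
      dsimp only
      rw [if_neg hne]
    linarith
  have hyi : ∀ i ∈ range n, i ≠ k → y i ≤ σ := by
    intro i hi hne
    have e1 : yt i ≤ ∑ j ∈ range n, yt j := Finset.single_le_sum (fun j _ => hyt0 j) hi
    have e2 : yt i = y i := by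
      rw [hyt]
      dsimp only
      rw [if_neg hne]
    linarith
  have hσle : σ ≤ 1 := by linarith
  -- the off-diagonal part
  have hoff2 : ∑ i ∈ range n, ∑ j ∈ range n, cco κ i j * (x i * y j) ^ (51 / 100 : ℝ) ≤
      12 * κ * σ ^ (51 / 100 : ℝ) := by
    have e0 : 0 ≤ σ ^ (51 / 100 : ℝ) := Real.rpow_nonneg hσ0 _
    calc ∑ i ∈ range n, ∑ j ∈ range n, cco κ i j * (x i * y j) ^ (51 / 100 : ℝ) ≤
        ∑ i ∈ range n, ∑ j ∈ range n, cco κ i j *
          (((if k = i then σ ^ (51 / 100 : ℝ) else 0) + xt i / 2) +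
            ((if k = j then σ ^ (51 / 100 : ℝ) else 0) + yt j / 2)) := by
          refine Finset.sum_le_sum fun i hi => Finset.sum_le_sum fun j hj => ?_
          by_cases hij : i = j
          · have e1 : cco κ i j = 0 := by
              unfold cco
              rw [if_pos hij]
            rw [e1, zero_mul, zero_mul]
          · refine mul_le_mul_of_nonneg_left ?_ (cco_nonneg κ h0 i j)
            have hx0i := hxt0 i
            have hy0j := hyt0 j
            by_cases hik : i = k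
            · have hjk : j ≠ k := fun h => hij (hik.trans h.symm)
              have e1 : (x i * y j) ^ (51 / 100 : ℝ) ≤ σ ^ (51 / 100 : ℝ) := by
                refine Real.rpow_le_rpow (mul_nonneg (hx i) (hy j)) ?_ (by norm_num)
                calc x i * y j ≤ 1 * y j :=
                      mul_le_mul_of_nonneg_right (hxle i (Finset.mem_range.1 hi)) (hy j)
                  _ = y j := one_mul _
                  _ ≤ σ := hyi j hj hjk
              rw [if_pos hik.symm, if_neg (Ne.symm hjk)]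
              linarith
            · by_cases hjk : j = k
              · have e1 : (x i * y j) ^ (51 / 100 : ℝ) ≤ σ ^ (51 / 100 : ℝ) := by
                  refine Real.rpow_le_rpow (mul_nonneg (hx i) (hy j)) ?_ (by norm_num)
                  calc x i * y j ≤ x i * 1 :=
                        mul_le_mul_of_nonneg_left (hyle j (Finset.mem_range.1 hj)) (hx i)
                    _ = x i := mul_one _
                    _ ≤ σ := hxi i hi hik
                rw [if_neg (Ne.symm hik), if_pos hjk.symm]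
                linarith
              · have e1 := cc_amgm (x i) (y j) (hx i) (hy j)
                  (hxle i (Finset.mem_range.1 hi)) (hyle j (Finset.mem_range.1 hj))
                have e2 : xt i = x i := by
                  rw [hxt]
                  dsimp only
                  rw [if_neg hik]
                have e3 : yt j = y j := by
                  rw [hyt]
                  dsimp only
                  rw [if_neg hjk]
                rw [if_neg (Ne.symm hik), if_neg (Ne.symm hjk), e2, e3]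
                linarith
      _ ≤ 4 * κ * (∑ i ∈ range n, ((if k = i then σ ^ (51 / 100 : ℝ) else 0) + xt i / 2)) +
          4 * κ * ∑ i ∈ range n, ((if k = i then σ ^ (51 / 100 : ℝ) else 0) + yt i / 2) := by
          refine cc_off κ (4 * κ) n hrow
            (fun i => (if k = i then σ ^ (51 / 100 : ℝ) else 0) + xt i / 2)
            (fun i => (if k = i then σ ^ (51 / 100 : ℝ) else 0) + yt i / 2) ?_ ?_
          · intro i
            have := hxt0 i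
            split_ifs <;> positivity
          · intro i
            have := hyt0 i
            split_ifs <;> positivity
      _ = 4 * κ * (σ ^ (51 / 100 : ℝ) + (1 - x k) / 2) +
          4 * κ * (σ ^ (51 / 100 : ℝ) + (1 - y k) / 2) := by
          rw [Finset.sum_add_distrib, Finset.sum_add_distrib, Finset.sum_ite_eq, if_pos hk,
            ← Finset.sum_div, ← Finset.sum_div, hsumx, hsumy]
      _ ≤ 4 * κ * (σ ^ (51 / 100 : ℝ) + σ ^ (51 / 100 : ℝ) / 2) +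
          4 * κ * (σ ^ (51 / 100 : ℝ) + σ ^ (51 / 100 : ℝ) / 2) := by
          have e1 : σ ≤ σ ^ (51 / 100 : ℝ) := by
            calc σ = σ ^ (1 : ℝ) := (Real.rpow_one σ).symm
              _ ≤ σ ^ (51 / 100 : ℝ) :=
                Real.rpow_le_rpow_of_exponent_ge' hσ0 hσle (by norm_num) (by norm_num)
          have e2 : 0 ≤ 4 * κ := by positivity
          refine add_le_add (mul_le_mul_of_nonneg_left ?_ e2) (mul_le_mul_of_nonneg_left ?_ e2)
          · linarith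
          · linarith
      _ = 12 * κ * σ ^ (51 / 100 : ℝ) := by ring
  -- the diagonal part
  have hkk : (x k * y k) ^ (51 / 100 : ℝ) ≤ 1 - 51 / 100 * σ + σ ^ 2 :=
    cc_kk _ _ _ (hx k) (hy k) hxk1 hyk1 hσ
  have hdiag2 : ∑ i ∈ range n, (x i * y i) ^ (51 / 100 : ℝ) ≤
      1 - 51 / 100 * σ + σ ^ 2 + σ * σ ^ (1 / 50 : ℝ) := by
    have e0 : 0 ≤ σ ^ (1 / 50 : ℝ) := Real.rpow_nonneg hσ0 _
    calc ∑ i ∈ range n, (x i * y i) ^ (51 / 100 : ℝ) ≤
        ∑ i ∈ range n, ((if k = i then (1 - 51 / 100 * σ + σ ^ 2) else 0) +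
          σ ^ (1 / 50 : ℝ) * ((xt i + yt i) / 2)) := by
          refine Finset.sum_le_sum fun i hi => ?_
          by_cases hik : i = k
          · have h2 : 0 ≤ σ ^ (1 / 50 : ℝ) * ((xt i + yt i) / 2) := by
              have := hxt0 i
              have := hyt0 i
              positivity
            rw [if_pos hik.symm]
            have h3 : (x i * y i) ^ (51 / 100 : ℝ) = (x k * y k) ^ (51 / 100 : ℝ) := by rw [hik]
            rw [h3]
            linarith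
          · have e2 : xt i = x i := by
              rw [hxt]
              dsimp only
              rw [if_neg hik]
            have e3 : yt i = y i := by
              rw [hyt]
              dsimp only
              rw [if_neg hik]
            rw [if_neg (Ne.symm hik), zero_add, e2, e3]
            have e4 : x i * y i ≤ σ ^ 2 := by
              rw [sq]
              exact mul_le_mul (hxi i hi hik) (hyi i hi hik) (hy i) hσ0
            have e5 := cc_diag (x i) (y i) (σ ^ 2) (hx i) (hy i) e4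
            have e6 : (σ ^ 2) ^ (1 / 100 : ℝ) = σ ^ (1 / 50 : ℝ) := by
              rw [← Real.rpow_natCast, ← Real.rpow_mul hσ0]
              norm_num
            rw [e6] at e5
            exact e5
      _ = 1 - 51 / 100 * σ + σ ^ 2 + σ ^ (1 / 50 : ℝ) * (((1 - x k) + (1 - y k)) / 2) := by
          rw [Finset.sum_add_distrib, Finset.sum_ite_eq, if_pos hk, ← Finset.mul_sum,
            ← Finset.sum_div, Finset.sum_add_distrib, hsumx, hsumy]
      _ ≤ 1 - 51 / 100 * σ + σ ^ 2 + σ * σ ^ (1 / 50 : ℝ) := by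
          have : σ ^ (1 / 50 : ℝ) * (((1 - x k) + (1 - y k)) / 2) ≤ σ ^ (1 / 50 : ℝ) * σ :=
            mul_le_mul_of_nonneg_left (by linarith) e0
          linarith
  have hfin : 51 / 100 * σ ≤ σ ^ 2 + σ * σ ^ (1 / 50 : ℝ) + 12 * κ * σ ^ (51 / 100 : ℝ) := by
    linarith
  refine cc_end σ κ h0 hσpos (by linarith) ?_ hfin
  exact (Real.rpow_le_rpow hσ0 hσ1 (by norm_num)).trans hκ50

theorem conc : ∃ p0 : ℕ, 2 ≤ p0 ∧ ∀ p : ℕ, p0 ≤ p → ∀ (n : ℕ) (x y : ℕ → ℝ),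
    (∀ i, 0 ≤ x i) → (∀ i, 0 ≤ y i) →
    ∑ i ∈ range n, x i = 1 → ∑ i ∈ range n, y i = 1 →
    1 ≤ ∑ i ∈ range n, ∑ j ∈ range n, Kp p i j * (x i * y j) ^ (51 / 100 : ℝ) →
    ∃ k, k < n ∧ 1 - x k ≤ (p : ℝ) ^ (-(397 / 400) : ℝ) ∧ 1 - y k ≤ (p : ℝ) ^ (-(397 / 400) : ℝ) := by
  -- eventual bounds
  have t1 : Filter.Tendsto (fun p : ℕ => (p : ℝ) ^ (-(39 / 80) : ℝ)) Filter.atTop (nhds 0) :=
    (tendsto_rpow_neg_atTop (by norm_num : (0 : ℝ) < 39 / 80)).comp tendsto_natCast_atTop_atTop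
  have t2 : Filter.Tendsto (fun p : ℕ => (p : ℝ) ^ (-(47 / 19600) : ℝ)) Filter.atTop (nhds 0) :=
    (tendsto_rpow_neg_atTop (by norm_num : (0 : ℝ) < 47 / 19600)).comp tendsto_natCast_atTop_atTop
  have c1 : (0 : ℝ) < (1 / 5) ^ 50 / 400 := by positivity
  have c2 : (0 : ℝ) < ((48 : ℝ) ^ (100 / 49 : ℝ))⁻¹ := by positivity
  have ev1 := t1.eventually_le_const c1
  have ev2 := t2.eventually_le_const c2
  obtain ⟨q0, hq0⟩ := Filter.eventually_atTop.1 (ev1.and ev2)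
  refine ⟨max q0 2, le_max_right _ _, ?_⟩
  intro p hp n x y hx hy hx1 hy1 hT
  obtain ⟨g1, g2⟩ := hq0 p ((le_max_left _ _).trans hp)
  have hp2 : 2 ≤ p := (le_max_right _ _).trans hp
  have hp0 : (0 : ℝ) < p := by
    have : 0 < p := by omega
    exact_mod_cast this
  obtain ⟨κ, hκ⟩ : ∃ κ : ℝ, κ = (p : ℝ) ^ (-(39 / 80) : ℝ) := ⟨_, rfl⟩
  rw [← hκ] at g1
  have h0 : 0 ≤ κ := by
    rw [hκ]
    positivity
  rw [cc_total, ← hκ] at hT
  have g3 : (400 * κ) ^ (1 / 50 : ℝ) ≤ 1 / 5 := by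
    have f1 : 400 * κ ≤ (1 / 5 : ℝ) ^ (50 : ℕ) := by
      rw [le_div_iff₀ (by norm_num)] at g1
      rw [mul_comm]
      exact g1
    have f2 : ((1 / 5 : ℝ) ^ (50 : ℕ)) ^ (1 / 50 : ℝ) = 1 / 5 := by
      rw [← Real.rpow_natCast, ← Real.rpow_mul (by norm_num)]
      norm_num
    rw [← f2]
    exact Real.rpow_le_rpow (by positivity) f1 (by norm_num)
  have g4 : κ ≤ 1 / 1000000 := by
    refine g1.trans ?_
    norm_num
  obtain ⟨k, hk, hk1, hk2⟩ := cc_main n x y κ h0 g4 g3 hx hy hx1 hy1 hT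
  have hfin : (48 * κ) ^ (100 / 49 : ℝ) ≤ (p : ℝ) ^ (-(397 / 400) : ℝ) := by
    have e1 : (48 * κ) ^ (100 / 49 : ℝ) = (48 : ℝ) ^ (100 / 49 : ℝ) *
        ((p : ℝ) ^ (-(47 / 19600) : ℝ) * (p : ℝ) ^ (-(397 / 400) : ℝ)) := by
      rw [Real.mul_rpow (by norm_num) h0, hκ, ← Real.rpow_mul hp0.le, ← Real.rpow_add hp0]
      congr 2
      norm_num
    have e2 : (0 : ℝ) < (48 : ℝ) ^ (100 / 49 : ℝ) := by positivity
    have e3 : (48 : ℝ) ^ (100 / 49 : ℝ) * (p : ℝ) ^ (-(47 / 19600) : ℝ) ≤ 1 := by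
      calc (48 : ℝ) ^ (100 / 49 : ℝ) * (p : ℝ) ^ (-(47 / 19600) : ℝ) ≤
          (48 : ℝ) ^ (100 / 49 : ℝ) * ((48 : ℝ) ^ (100 / 49 : ℝ))⁻¹ :=
            mul_le_mul_of_nonneg_left g2 e2.le
        _ = 1 := mul_inv_cancel₀ e2.ne'
    rw [e1, ← mul_assoc]
    calc (48 : ℝ) ^ (100 / 49 : ℝ) * (p : ℝ) ^ (-(47 / 19600) : ℝ) * (p : ℝ) ^ (-(397 / 400) : ℝ) ≤
        1 * (p : ℝ) ^ (-(397 / 400) : ℝ) :=
          mul_le_mul_of_nonneg_right e3 (Real.rpow_nonneg hp0.le _)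
      _ = (p : ℝ) ^ (-(397 / 400) : ℝ) := one_mul _
  exact ⟨k, hk, hk1.trans hfin, hk2.trans hfin⟩

end Vale.Agent.P028E
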