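import Vale.Agent.Lib.P028.E.Defs
import Vale.Agent.Lib.P028.Sieve
import Vale.Agent.Lib.P028.Arith

/-!
P4a: counting integers `a` with `gcd (B a + A, q) = 1`.

`IsCoprime (B a + A) q` iff `p ∤ B a + A` for all primes `p ∣ q`, `p ∤ B` (for `p ∣ B` it is automatic as
`A`, `B` are coprime), i.e. `Vale.Agent.P028.Phi B A S a` with `S = {p ∣ q : p ∤ B}`; count with
`Vale.Agent.P028.full_period` and `Vale.Agent.P028.legendre` (error `2^(#S+1)`, `2^#S ≤ #divisors q ≤
C q^(1/32)` by `two_pow_card_le`-like argument and `card_pow_le_w 1`, and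
`∏_{p∈S}(1-1/p) ≥ (2 sg q)⁻¹ ≥ c q^(-1/32)` by `inv_le_prod_subset`, `sg_pow_le_w 1`).
-/

open Finset MeasureTheory

namespace Vale.Agent.P028E

/-- the density of the admissible `a` -/
noncomputable def dn (B q : ℕ) : ℝ := ∏ p ∈ q.primeFactors.filter (fun p => ¬ p ∣ B), (1 - 1 / (p : ℝ))

private lemma CrCnt_gcd_pf {B q : ℕ} (hq : 0 < q) :
    (Nat.gcd q B).primeFactors = q.primeFactors.filter (fun p => p ∣ B) := by
  ext p
  simp only [Nat.mem_primeFactors, Finset.mem_filter, Nat.dvd_gcd_iff]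
  have : Nat.gcd q B ≠ 0 := (Nat.gcd_pos_of_pos_left B hq).ne'
  constructor
  · rintro ⟨h1, ⟨h2, h3⟩, -⟩
    exact ⟨⟨h1, h2, hq.ne'⟩, h3⟩
  · rintro ⟨⟨h1, h2, -⟩, h3⟩
    exact ⟨h1, ⟨h2, h3⟩, this⟩

theorem lam_dn (B q : ℕ) (hq : 0 < q) : lam B q * dn B q = (Nat.totient q : ℝ) / q := by
  have hqR : (0 : ℝ) < q := by exact_mod_cast hq
  unfold lam dn
  rw [CrCnt_gcd_pf hq, Finset.prod_filter_mul_prod_filter_not]
  have h := Nat.totient_eq_mul_prod_factors q
  have h2 : (Nat.totient q : ℝ) = q * ∏ p ∈ q.primeFactors, (1 - (p : ℝ)⁻¹) := by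
    have h3 := congrArg (fun x : ℚ => (x : ℝ)) h
    push_cast at h3
    exact h3
  rw [h2, mul_div_cancel_left₀ _ hqR.ne']
  simp only [one_div]

theorem dn_pos (B q : ℕ) : 0 < dn B q :=
  Finset.prod_pos fun p hp =>
    Vale.Agent.P028.one_sub_inv_pos (n := q) (Finset.mem_filter.1 hp).1

theorem lam_pos (B q : ℕ) : 0 < lam B q ∧ lam B q ≤ 1 :=
  ⟨Finset.prod_pos fun p hp => Vale.Agent.P028.one_sub_inv_pos hp,
    Finset.prod_le_one (fun p hp => (Vale.Agent.P028.one_sub_inv_pos hp).le)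
      (fun p _ => Vale.Agent.P028.one_sub_inv_le)⟩

private lemma CrCnt_phi (A : ℤ) (B : ℕ) (hAB : IsCoprime A (B : ℤ)) (q : ℕ) (hq : 0 < q) (a : ℤ) :
    IsCoprime ((B : ℤ) * a + A) (q : ℤ) ↔
      Vale.Agent.P028.Phi B A (q.primeFactors.filter (fun p => ¬ p ∣ B)) a := by
  constructor
  · intro h p hp hd
    have hp1 := Finset.mem_filter.1 hp
    have hpp := Nat.prime_of_mem_primeFactors hp1.1
    have h2 : (p : ℤ) ∣ (q : ℤ) := by exact_mod_cast Nat.dvd_of_mem_primeFactors hp1.1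
    have h3 := h.isUnit_of_dvd' hd h2
    rw [Int.isUnit_iff] at h3
    have := hpp.two_le
    omega
  · intro h
    rw [Int.isCoprime_iff_gcd_eq_one]
    by_contra hcon
    obtain ⟨p, hpp, hpd⟩ := Nat.exists_prime_and_dvd hcon
    have h1 : (p : ℤ) ∣ (B : ℤ) * a + A := by
      have := Int.gcd_dvd_left (a := (B : ℤ) * a + A) (b := (q : ℤ))
      exact (Int.natCast_dvd_natCast.2 hpd).trans this
    have h2 : (p : ℤ) ∣ (q : ℤ) := by
      have := Int.gcd_dvd_right (a := (B : ℤ) * a + A) (b := (q : ℤ))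
      exact (Int.natCast_dvd_natCast.2 hpd).trans this
    have h2' : p ∣ q := by exact_mod_cast h2
    by_cases h3 : p ∣ B
    · have h4 : (p : ℤ) ∣ (B : ℤ) := by exact_mod_cast h3
      have h5 : (p : ℤ) ∣ A := by
        have h6 : (p : ℤ) ∣ (B : ℤ) * a := h4.mul_right a
        exact (Int.dvd_add_right h6).1 h1
      have h6 := hAB.isUnit_of_dvd' h5 h4
      rw [Int.isUnit_iff] at h6
      have := hpp.two_le
      omega
    · exact h p (Finset.mem_filter.2 ⟨Nat.mem_primeFactors.2 ⟨hpp, h2', hq.ne'⟩, h3⟩) h1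

open Classical in
private lemma CrCnt_filter (A : ℤ) (B : ℕ) (hAB : IsCoprime A (B : ℤ)) (q : ℕ) (hq : 0 < q)
    (u v : ℤ) :
    ((Ico u v).filter (fun a => IsCoprime ((B : ℤ) * a + A) (q : ℤ))) =
      (Ico u v).filter (fun a =>
        Vale.Agent.P028.Phi B A (q.primeFactors.filter (fun p => ¬ p ∣ B)) a) := by
  ext a
  simp only [Finset.mem_filter, CrCnt_phi A B hAB q hq a]

private lemma CrCnt_cop {B q : ℕ} : ∀ p ∈ q.primeFactors.filter (fun p => ¬ p ∣ B),
    IsCoprime (B : ℤ) (p : ℤ) := by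
  intro p hp
  have hp1 := Finset.mem_filter.1 hp
  have hpp := Nat.prime_of_mem_primeFactors hp1.1
  rw [Nat.isCoprime_iff_coprime]
  exact ((Nat.Prime.coprime_iff_not_dvd hpp).2 hp1.2).symm

private lemma CrCnt_prime {B q : ℕ} : ∀ p ∈ q.primeFactors.filter (fun p => ¬ p ∣ B), p.Prime :=
  fun _ hp => Nat.prime_of_mem_primeFactors (Finset.mem_filter.1 hp).1

open Classical in
theorem count_period (A : ℤ) (B : ℕ) (hB : 0 < B) (hAB : IsCoprime A (B : ℤ)) (q : ℕ) (hq : 0 < q)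
    (u : ℤ) :
    (((Ico u (u + q)).filter (fun a => IsCoprime ((B : ℤ) * a + A) (q : ℤ))).card : ℝ) =
      q * dn B q := by
  rw [CrCnt_filter A B hAB q hq]
  have h := Vale.Agent.P028.full_period (q.primeFactors.filter (fun p => ¬ p ∣ B)) (B : ℤ) A
    CrCnt_prime CrCnt_cop u q ((Finset.prod_dvd_prod_of_subset _ _ _
      (Finset.filter_subset _ _)).trans (Nat.prod_primeFactors_dvd q))
  unfold dn
  rw [← h]

/-- the error term of the sieve is a small multiple of the density -/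
private lemma CrCnt_err : ∃ C : ℝ, 1 ≤ C ∧ ∀ (B q : ℕ), 0 < q →
    (2 : ℝ) ^ (#(q.primeFactors.filter (fun p => ¬ p ∣ B)) + 1) ≤
      C * Vale.Agent.P028.w q ^ 2 * dn B q := by
  obtain ⟨C0, hC0, h0⟩ := Vale.Agent.P028.card_pow_le_w 1
  obtain ⟨C1, hC1, h1⟩ := Vale.Agent.P028.sg_pow_le_w 1
  refine ⟨4 * C0 * C1, by nlinarith, fun B q hq => ?_⟩
  have h2 : (2 : ℝ) ^ (#(q.primeFactors.filter (fun p => ¬ p ∣ B))) ≤
      C0 * Vale.Agent.P028.w q := by
    have h3 := h0 q hq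
    rw [pow_one] at h3
    refine le_trans ?_ h3
    have h4 : 2 ^ (#(q.primeFactors.filter (fun p => ¬ p ∣ B))) ≤ #q.divisors := by
      rw [Nat.card_divisors hq.ne']
      calc 2 ^ #(q.primeFactors.filter (fun p => ¬ p ∣ B)) ≤ 2 ^ #q.primeFactors :=
            Nat.pow_le_pow_right (by norm_num) (Finset.card_le_card (Finset.filter_subset _ _))
        _ = ∏ _p ∈ q.primeFactors, 2 := by rw [Finset.prod_const]
        _ ≤ ∏ p ∈ q.primeFactors, (q.factorization p + 1) := by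
            apply Finset.prod_le_prod'
            intro p hp
            have : 0 < q.factorization p :=
              (Nat.prime_of_mem_primeFactors hp).factorization_pos_of_dvd hq.ne'
                (Nat.dvd_of_mem_primeFactors hp)
            omega
    exact_mod_cast h4
  have hw : 0 < Vale.Agent.P028.w q := Vale.Agent.P028.w_pos hq
  have hd := dn_pos B q
  have h5 : 1 ≤ 2 * C1 * Vale.Agent.P028.w q * dn B q := by
    have h6 : (2 * Vale.Agent.P028.sg q)⁻¹ ≤ dn B q :=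
      Vale.Agent.P028.inv_le_prod_subset hq (Finset.filter_subset _ _)
    have h7 := h1 q hq
    rw [pow_one] at h7
    have hs := Vale.Agent.P028.sg_pos hq
    calc (1 : ℝ) = 2 * Vale.Agent.P028.sg q * (2 * Vale.Agent.P028.sg q)⁻¹ := by field_simp
      _ ≤ 2 * (C1 * Vale.Agent.P028.w q) * dn B q := by gcongr
      _ = 2 * C1 * Vale.Agent.P028.w q * dn B q := by ring
  calc (2 : ℝ) ^ (#(q.primeFactors.filter (fun p => ¬ p ∣ B)) + 1)
      = 2 * (2 : ℝ) ^ (#(q.primeFactors.filter (fun p => ¬ p ∣ B))) := by rw [pow_succ]; ring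
    _ ≤ 2 * (C0 * Vale.Agent.P028.w q) := by gcongr
    _ = 2 * (C0 * Vale.Agent.P028.w q) * 1 := by ring
    _ ≤ 2 * (C0 * Vale.Agent.P028.w q) * (2 * C1 * Vale.Agent.P028.w q * dn B q) :=
        mul_le_mul_of_nonneg_left h5 (by positivity)
    _ = 4 * C0 * C1 * Vale.Agent.P028.w q ^ 2 * dn B q := by ring

open Classical in
/-- in an interval of length at least `q^(1/2)` -/
theorem count_upper : ∃ C : ℝ, 1 ≤ C ∧ ∀ (A : ℤ) (B : ℕ), 0 < B → IsCoprime A (B : ℤ) → ∀ (q : ℕ),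
    0 < q → ∀ (u v : ℤ) (H : ℝ), (v : ℝ) - u ≤ H → (q : ℝ) ^ (1 / 2 : ℝ) ≤ H →
    (((Ico u v).filter (fun a => IsCoprime ((B : ℤ) * a + A) (q : ℤ))).card : ℝ) ≤
      C * H * dn B q := by
  obtain ⟨C, hC, h0⟩ := CrCnt_err
  refine ⟨1 + C, by linarith, fun A B hB hAB q hq u v H hH hqH => ?_⟩
  have hd := dn_pos B q
  have hqR : (1 : ℝ) ≤ q := by exact_mod_cast hq
  have hH0 : 0 ≤ H := le_trans (by positivity) hqH
  rcases le_or_gt u v with huv | huv
  · rw [CrCnt_filter A B hAB q hq]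
    have h1 := Vale.Agent.P028.legendre (q.primeFactors.filter (fun p => ¬ p ∣ B)) (B : ℤ) A
      CrCnt_prime CrCnt_cop u v huv
    have h2 := h0 B q hq
    have hw2 : Vale.Agent.P028.w q ^ 2 ≤ H := by
      refine le_trans ?_ hqH
      unfold Vale.Agent.P028.w
      rw [← Real.rpow_natCast, ← Real.rpow_mul (by positivity)]
      exact Real.rpow_le_rpow_of_exponent_le hqR (by norm_num)
    have h3 := (abs_le.1 h1).2
    have h4 : (#{a ∈ Ico u v | Vale.Agent.P028.Phi (B : ℤ) A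
        (q.primeFactors.filter (fun p => ¬ p ∣ B)) a} : ℝ) ≤ ((v - u : ℤ) : ℝ) * dn B q +
          C * Vale.Agent.P028.w q ^ 2 * dn B q := by
      unfold dn at h2 ⊢
      linarith
    have h5 : ((v - u : ℤ) : ℝ) ≤ H := by push_cast; exact hH
    have h6 : ((v - u : ℤ) : ℝ) * dn B q ≤ H * dn B q := mul_le_mul_of_nonneg_right h5 hd.le
    have h7 : C * Vale.Agent.P028.w q ^ 2 * dn B q ≤ C * H * dn B q := by gcongr
    refine le_trans (le_of_eq ?_) (h4.trans (by linarith))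
    congr!
  · rw [Finset.Ico_eq_empty (by omega)]
    simp only [Finset.filter_empty, Finset.card_empty, Nat.cast_zero]
    positivity

open Classical in
/-- lower bound in long intervals -/
theorem count_lower (κ : ℝ) (hκ : 0 < κ) : ∃ q₁ : ℕ, 1 ≤ q₁ ∧ ∀ (A : ℤ) (B : ℕ), 0 < B →
    IsCoprime A (B : ℤ) → ∀ (q : ℕ), q₁ ≤ q → ∀ (u v : ℤ), κ * q ≤ (v : ℝ) - u →
    ((v : ℝ) - u) / 2 * dn B q ≤
      (((Ico u v).filter (fun a => IsCoprime ((B : ℤ) * a + A) (q : ℤ))).card : ℝ) := by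
  obtain ⟨C, hC, h0⟩ := CrCnt_err
  obtain ⟨n, hn⟩ := exists_nat_ge ((2 * C / κ) ^ 32)
  refine ⟨max 1 n, le_max_left _ _, fun A B hB hAB q hq1 u v huv => ?_⟩
  have hq : 0 < q := lt_of_lt_of_le Nat.one_pos ((le_max_left _ _).trans hq1)
  have hqn : n ≤ q := (le_max_right _ _).trans hq1
  have hd := dn_pos B q
  have hqR : (1 : ℝ) ≤ q := by exact_mod_cast hq
  have hw1 := Vale.Agent.P028.one_le_w hq
  have hw : 2 * C / κ ≤ Vale.Agent.P028.w q := by
    apply le_of_pow_le_pow_left₀ (n := 32) (by norm_num) (by positivity)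
    rw [Vale.Agent.P028.w_pow]
    exact hn.trans (by exact_mod_cast hqn)
  have huv0 : 0 < (v : ℝ) - u := lt_of_lt_of_le (by positivity) huv
  have huv' : u ≤ v := by
    have : (u : ℝ) ≤ v := by linarith
    exact_mod_cast this
  rw [CrCnt_filter A B hAB q hq]
  have h1 := Vale.Agent.P028.legendre (q.primeFactors.filter (fun p => ¬ p ∣ B)) (B : ℤ) A
    CrCnt_prime CrCnt_cop u v huv'
  have h2 := h0 B q hq
  have h3 := (abs_le.1 h1).1
  have h4 : ((v - u : ℤ) : ℝ) * dn B q - C * Vale.Agent.P028.w q ^ 2 * dn B q ≤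
      (#{a ∈ Ico u v | Vale.Agent.P028.Phi (B : ℤ) A
        (q.primeFactors.filter (fun p => ¬ p ∣ B)) a} : ℝ) := by
    unfold dn at h2 ⊢
    linarith
  have h5 : C * Vale.Agent.P028.w q ^ 2 ≤ ((v : ℝ) - u) / 2 := by
    have h6 : 2 * C ≤ κ * Vale.Agent.P028.w q := by
      rw [div_le_iff₀ hκ] at hw
      linarith
    have h7 : 2 * (C * Vale.Agent.P028.w q ^ 2) ≤ κ * q := by
      calc 2 * (C * Vale.Agent.P028.w q ^ 2) = 2 * C * Vale.Agent.P028.w q ^ 2 := by ring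
        _ ≤ κ * Vale.Agent.P028.w q * Vale.Agent.P028.w q ^ 2 := by gcongr
        _ = κ * Vale.Agent.P028.w q ^ 3 := by ring
        _ ≤ κ * Vale.Agent.P028.w q ^ 32 :=
            mul_le_mul_of_nonneg_left (pow_le_pow_right₀ hw1 (by norm_num)) hκ.le
        _ = κ * q := by rw [Vale.Agent.P028.w_pow]
    linarith
  have h6 : C * Vale.Agent.P028.w q ^ 2 * dn B q ≤ ((v : ℝ) - u) / 2 * dn B q :=
    mul_le_mul_of_nonneg_right h5 hd.le
  have h7 : ((v - u : ℤ) : ℝ) * dn B q = ((v : ℝ) - u) * dn B q := by push_cast; ring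
  rw [h7] at h4
  refine le_trans ?_ (h4.trans (le_of_eq ?_))
  · have : ((v : ℝ) - u) * dn B q = ((v : ℝ) - u) / 2 * dn B q + ((v : ℝ) - u) / 2 * dn B q := by
      ring
    linarith
  · congr!

end Vale.Agent.P028E
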