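import Vale.Agent.Lib.P028.E.CrCnt

/-!
P4: pairs of very different sizes.

Let `x ∈ [0,1)` be in both sets, with `a` (for `q`) and `b` (for `r`).  `a` lies in an integer interval
`Ico u (u + 4 q)` (`|q x - a - γ| < δ ≤ 1`), so at most `4 q dn B q` values (`count_period`, four
periods).  For fixed `a`: `|x - (a+γ)/q| < δ/q`, so `|b + γ - r (a+γ)/q| < r δ/q + δ'`, `b` lies in an
integer interval `Ico u' v'` with `v' - u' ≤ 2 r δ/q + 2 δ' + 2 ≤ 6 r δ / q =: H` (`r δ/q ≥ r/q² ≥ r^(1/2) ≥ 1`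
as `q^4 ≤ r`), number of admissible `b` at most `C H dn B' r` (`count_upper`).  Each pair `(a,b)`
contributes at most the length `2 δ'/r` of `{x : |r x - b - γ| < δ'}`.  Multiply by the `lam`s and use
`lam_dn`.
-/

open Finset MeasureTheory

namespace Vale.Agent.P028E

open Classical in
private theorem cnt_periods (A : ℤ) (B : ℕ) (hB : 0 < B) (hAB : IsCoprime A (B : ℤ)) (q : ℕ)
    (hq : 0 < q) (u : ℤ) (k : ℕ) :
    (((Ico u (u + k * q)).filter (fun a => IsCoprime ((B : ℤ) * a + A) (q : ℤ))).card : ℝ) ≤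
      k * (q * dn B q) := by
  induction k with
  | zero => simp
  | succ k ih =>
    have h1 : (Ico u (u + ((k + 1 : ℕ) : ℤ) * q)).filter
        (fun a => IsCoprime ((B : ℤ) * a + A) (q : ℤ)) ⊆
        (Ico u (u + k * q)).filter (fun a => IsCoprime ((B : ℤ) * a + A) (q : ℤ)) ∪
        (Ico (u + k * q) (u + k * q + q)).filter
          (fun a => IsCoprime ((B : ℤ) * a + A) (q : ℤ)) := by
      intro a ha
      rw [mem_filter, mem_Ico] at ha
      rw [mem_union, mem_filter, mem_filter, mem_Ico, mem_Ico]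
      obtain ⟨⟨h2, h3⟩, h4⟩ := ha
      have h5 : a < u + k * q + q := by
        push_cast at h3
        linarith
      rcases lt_or_ge a (u + k * q) with h | h
      · exact Or.inl ⟨⟨h2, h⟩, h4⟩
      · exact Or.inr ⟨⟨h, h5⟩, h4⟩
    have h2 := (card_le_card h1).trans (card_union_le _ _)
    have h3 := count_period A B hB hAB q hq (u + k * q)
    have h4 : (((Ico u (u + ((k + 1 : ℕ) : ℤ) * q)).filter
        (fun a => IsCoprime ((B : ℤ) * a + A) (q : ℤ))).card : ℝ) ≤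
        (((Ico u (u + k * q)).filter
          (fun a => IsCoprime ((B : ℤ) * a + A) (q : ℤ))).card : ℝ) +
        (((Ico (u + k * q) (u + k * q + q)).filter
          (fun a => IsCoprime ((B : ℤ) * a + A) (q : ℤ))).card : ℝ) := by
      exact_mod_cast h2
    rw [h3] at h4
    push_cast at h4 ih ⊢
    linarith

private theorem vol_int (γ : ℝ) (r : ℕ) (hr : 0 < r) (δ' : ℝ) (b : ℤ) :
    volume {x : ℝ | |(r : ℝ) * x - b - γ| < δ'} ≤ ENNReal.ofReal (2 * δ' / r) := by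
  have hr' : (0 : ℝ) < r := by exact_mod_cast hr
  have h1 : {x : ℝ | |(r : ℝ) * x - b - γ| < δ'} ⊆
      Set.Ioo ((b + γ - δ') / r) ((b + γ + δ') / r) := by
    intro x hx
    have hx' : |(r : ℝ) * x - b - γ| < δ' := hx
    rw [abs_lt] at hx'
    constructor
    · rw [div_lt_iff₀ hr']
      nlinarith [hx'.1]
    · rw [lt_div_iff₀ hr']
      nlinarith [hx'.2]
  refine (measure_mono h1).trans (le_of_eq ?_)
  rw [Real.volume_Ioo]
  congr 1
  field_simp
  ring

/-- P4: pairs of very different sizes (different fractions). -/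
theorem cross : ∃ C : ℝ, 1 ≤ C ∧ ∀ (γ : ℝ) (A A' : ℤ) (B B' : ℕ), 0 < B → 0 < B' →
    IsCoprime A (B : ℤ) → IsCoprime A' (B' : ℤ) → ∀ (q r : ℕ), 0 < q → q ^ 4 ≤ r →
    ∀ δ δ' : ℝ, 1 / (q : ℝ) ≤ δ → 0 < δ' → δ ≤ 1 → δ' ≤ 1 →
      lam B q * lam B' r * volume.real (AS γ A B δ q ∩ AS γ A' B' δ' r) ≤
        C * ((Nat.totient q : ℝ) / q * δ) * ((Nat.totient r : ℝ) / r * δ') := by
  classical
  obtain ⟨C, hC1, hC⟩ := count_upper
  refine ⟨48 * C, by linarith, ?_⟩
  intro γ A A' B B' hB hB' hAB hAB' q r hq hqr δ δ' hδ hδ'0 hδ1 hδ'1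
  have hq' : (1 : ℝ) ≤ q := by exact_mod_cast hq
  have hq0 : (0 : ℝ) < q := by linarith
  have hqr' : (q : ℝ) ^ 4 ≤ r := by exact_mod_cast hqr
  have hr : 0 < r := lt_of_lt_of_le (pow_pos hq 4) hqr
  have hr' : (1 : ℝ) ≤ r := by exact_mod_cast hr
  have hr0 : (0 : ℝ) < r := by linarith
  have hδ0 : 0 < δ := lt_of_lt_of_le (by positivity) hδ
  -- the length of the range of `b`
  obtain ⟨H, hH⟩ : ∃ H : ℝ, H = 6 * (r * δ / q) := ⟨_, rfl⟩
  have hrq : (r : ℝ) / q ^ 2 ≤ r * δ / q := by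
    have h1 : (r : ℝ) / q ^ 2 = r * (1 / q) / q := by
      field_simp
    rw [h1]
    exact div_le_div_of_nonneg_right (mul_le_mul_of_nonneg_left hδ hr0.le) hq0.le
  have hsq : Real.sqrt r ≤ (r : ℝ) / q ^ 2 := by
    rw [Real.sqrt_le_iff]
    refine ⟨by positivity, ?_⟩
    rw [div_pow, le_div_iff₀ (by positivity)]
    have h1 : ((q : ℝ) ^ 2) ^ 2 = (q : ℝ) ^ 4 := by ring
    rw [h1, sq]
    exact mul_le_mul_of_nonneg_left hqr' hr0.le
  have hs1 : 1 ≤ Real.sqrt r := by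
    rw [Real.one_le_sqrt]
    exact hr'
  have hrd : 1 ≤ (r : ℝ) * δ / q := by linarith
  have hHr : (r : ℝ) ^ (1 / 2 : ℝ) ≤ H := by
    rw [← Real.sqrt_eq_rpow, hH]
    linarith
  -- the ranges
  obtain ⟨u, hu⟩ : ∃ u : ℤ, u = ⌊-γ - 1⌋ := ⟨_, rfl⟩
  obtain ⟨Fa, hFa⟩ : ∃ Fa : Finset ℤ, Fa = (Ico u (u + ((4 : ℕ) : ℤ) * q)).filter
    (fun a => IsCoprime ((B : ℤ) * a + A) (q : ℤ)) := ⟨_, rfl⟩
  obtain ⟨Fb, hFb⟩ : ∃ Fb : ℤ → Finset ℤ, ∀ a, Fb a =
      (Ico ⌊(r : ℝ) * (a + γ) / q - γ - (r * δ / q + δ')⌋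
        ⌈(r : ℝ) * (a + γ) / q - γ + (r * δ / q + δ')⌉).filter
    (fun b => IsCoprime ((B' : ℤ) * b + A') (r : ℤ)) := ⟨_, fun _ => rfl⟩
  have hcover : AS γ A B δ q ∩ AS γ A' B' δ' r ⊆
      ⋃ a ∈ Fa, ⋃ b ∈ Fb a, {x : ℝ | |(r : ℝ) * x - b - γ| < δ'} := by
    rintro x ⟨⟨hx, a, ha1, ha2⟩, ⟨_, b, hb1, hb2⟩⟩
    have hx0 : 0 ≤ x := hx.1
    have hx1 : x < 1 := hx.2
    have hqx0 : 0 ≤ (q : ℝ) * x := mul_nonneg hq0.le hx0
    have hqx1 : (q : ℝ) * x ≤ q := by nlinarith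
    have ha2' := abs_lt.1 ha2
    have hb2' := abs_lt.1 hb2
    have haF : a ∈ Fa := by
      rw [hFa, mem_filter, mem_Ico]
      refine ⟨⟨?_, ?_⟩, ha1⟩
      · have h1 : (u : ℝ) ≤ -γ - 1 := by
          rw [hu]
          exact Int.floor_le _
        have h2 : (u : ℝ) < a := by linarith [ha2'.2]
        exact_mod_cast h2.le
      · have h1 : -γ - 1 < (u : ℝ) + 1 := by
          rw [hu]
          exact Int.lt_floor_add_one _
        have h2 : (a : ℝ) < u + ((4 : ℕ) : ℝ) * q := by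
          push_cast
          linarith [ha2'.1]
        exact_mod_cast h2
    have hbF : b ∈ Fb a := by
      rw [hFb, mem_filter, mem_Ico]
      have h1 : (r : ℝ) * (a + γ) / q = r * x + r * (a + γ - q * x) / q := by
        field_simp
        ring
      have h2 : (r : ℝ) * (a + γ - q * x) / q ≤ r * δ / q := by
        refine div_le_div_of_nonneg_right (mul_le_mul_of_nonneg_left ?_ hr0.le) hq0.le
        linarith [ha2'.1]
      have h3 : -(r * δ / q) ≤ (r : ℝ) * (a + γ - q * x) / q := by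
        rw [← neg_div]
        refine div_le_div_of_nonneg_right ?_ hq0.le
        nlinarith [ha2'.2]
      refine ⟨⟨?_, ?_⟩, hb1⟩
      · have h4 : (⌊(r : ℝ) * (a + γ) / q - γ - (r * δ / q + δ')⌋ : ℝ) ≤
            (r : ℝ) * (a + γ) / q - γ - (r * δ / q + δ') := Int.floor_le _
        have h5 : (⌊(r : ℝ) * (a + γ) / q - γ - (r * δ / q + δ')⌋ : ℝ) < b := by
          refine lt_of_le_of_lt h4 ?_
          rw [h1]
          linarith [hb2'.2]
        exact_mod_cast h5.le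
      · have h4 : (r : ℝ) * (a + γ) / q - γ + (r * δ / q + δ') ≤
            (⌈(r : ℝ) * (a + γ) / q - γ + (r * δ / q + δ')⌉ : ℝ) := Int.le_ceil _
        have h5 : (b : ℝ) < (⌈(r : ℝ) * (a + γ) / q - γ + (r * δ / q + δ')⌉ : ℝ) := by
          refine lt_of_lt_of_le ?_ h4
          rw [h1]
          linarith [hb2'.1]
        exact_mod_cast h5
    rw [Set.mem_iUnion₂]
    refine ⟨a, haF, ?_⟩
    rw [Set.mem_iUnion₂]
    exact ⟨b, hbF, hb2⟩
  -- the counts
  have hFac : (Fa.card : ℝ) ≤ 4 * (q * dn B q) := by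
    have h := cnt_periods A B hB hAB q hq u 4
    rw [← hFa] at h
    exact_mod_cast h
  have hFbc : ∀ a, ((Fb a).card : ℝ) ≤ C * H * dn B' r := by
    intro a
    rw [hFb]
    refine hC A' B' hB' hAB' r hr _ _ H ?_ hHr
    have h1 := Int.sub_one_lt_floor ((r : ℝ) * (a + γ) / q - γ - (r * δ / q + δ'))
    have h2 := Int.ceil_lt_add_one ((r : ℝ) * (a + γ) / q - γ + (r * δ / q + δ'))
    rw [hH]
    linarith
  have hdn : 0 < dn B q := dn_pos B q
  have hdn' : 0 < dn B' r := dn_pos B' r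
  have hH0 : 0 ≤ H := by
    rw [hH]
    positivity
  -- the measure
  have hvol : volume (AS γ A B δ q ∩ AS γ A' B' δ' r) ≤
      ENNReal.ofReal (∑ a ∈ Fa, ∑ b ∈ Fb a, 2 * δ' / r) := by
    refine (measure_mono hcover).trans ((measure_biUnion_finset_le _ _).trans ?_)
    have h0 : ∀ a : ℤ, 0 ≤ ∑ b ∈ Fb a, 2 * δ' / (r : ℝ) := fun a =>
      sum_nonneg fun b _ => by positivity
    rw [ENNReal.ofReal_sum_of_nonneg fun a _ => h0 a]
    refine sum_le_sum fun a _ => ?_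
    refine (measure_biUnion_finset_le _ _).trans ?_
    rw [ENNReal.ofReal_sum_of_nonneg fun b _ => by positivity]
    exact sum_le_sum fun b _ => vol_int γ r hr δ' b
  have hsum : ∑ a ∈ Fa, ∑ b ∈ Fb a, 2 * δ' / (r : ℝ) ≤
      4 * (q * dn B q) * (C * H * dn B' r * (2 * δ' / r)) := by
    have h1 : ∀ a ∈ Fa, ∑ b ∈ Fb a, 2 * δ' / (r : ℝ) ≤ C * H * dn B' r * (2 * δ' / r) := by
      intro a _
      rw [sum_const, nsmul_eq_mul]
      exact mul_le_mul_of_nonneg_right (hFbc a) (by positivity)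
    refine (sum_le_card_nsmul _ _ _ h1).trans ?_
    rw [nsmul_eq_mul]
    refine mul_le_mul_of_nonneg_right hFac ?_
    have : 0 ≤ C := by linarith
    positivity
  have hreal : volume.real (AS γ A B δ q ∩ AS γ A' B' δ' r) ≤
      4 * (q * dn B q) * (C * H * dn B' r * (2 * δ' / r)) := by
    refine le_trans ?_ hsum
    refine ENNReal.toReal_le_of_le_ofReal ?_ hvol
    exact sum_nonneg fun a _ => sum_nonneg fun b _ => by positivity
  obtain ⟨hl1, _⟩ := lam_pos B q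
  obtain ⟨hl2, _⟩ := lam_pos B' r
  have hld := lam_dn B q hq
  have hld' := lam_dn B' r hr
  calc lam B q * lam B' r * volume.real (AS γ A B δ q ∩ AS γ A' B' δ' r)
      ≤ lam B q * lam B' r * (4 * (q * dn B q) * (C * H * dn B' r * (2 * δ' / r))) :=
        mul_le_mul_of_nonneg_left hreal (mul_pos hl1 hl2).le
    _ = 48 * C * ((lam B q * dn B q) * δ) * ((lam B' r * dn B' r) * δ') := by
        rw [hH]
        field_simp
        ring
    _ = 48 * C * ((Nat.totient q : ℝ) / q * δ) * ((Nat.totient r : ℝ) / r * δ') := by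
        rw [hld, hld']

end Vale.Agent.P028E
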