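import Mathlib

/-!
# P028, part E: inhomogeneous Duffin-Schaeffer for every shift and psi(q) = O(q^(-eps))

Common definitions.  Throughout `A : ℤ`, `B : ℕ` is a fraction close to the shift `γ`
(`|B γ - A|` small, `A`, `B` coprime).
-/

open Finset MeasureTheory

namespace Vale.Agent.P028E

/-- product of `(1-1/p)^(-1)` over the primes `p ∣ n`, `p ∤ B` -/
noncomputable def FB (B n : ℕ) : ℝ :=
  ∏ p ∈ n.primeFactors.filter (fun p => ¬ p ∣ B), (1 - 1 / (p : ℝ))⁻¹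

/-- scalar weight: product of `(1-1/p)` over the common primes of `q` and `B` -/
noncomputable def lam (B q : ℕ) : ℝ := ∏ p ∈ (Nat.gcd q B).primeFactors, (1 - 1 / (p : ℝ))

/-- `φ(q) δ(q) / q` -/
noncomputable def wt (δ : ℕ → ℝ) (q : ℕ) : ℝ := (Nat.totient q : ℝ) / q * δ q

/-- `q / gcd (q, r)` -/
def qp (q r : ℕ) : ℕ := q / Nat.gcd q r

/-- `max (r' δ(q), q' δ(r))` -/
noncomputable def MM (δ : ℕ → ℝ) (q r : ℕ) : ℝ := max ((qp r q : ℝ) * δ q) ((qp q r : ℝ) * δ r)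

/-- `r' - q'` -/
def DD (q r : ℕ) : ℤ := (qp r q : ℤ) - (qp q r : ℤ)

/-- `n B - A D` -/
def mm (A : ℤ) (B : ℕ) (D n : ℤ) : ℤ := n * B - A * D

/-- the approximation set with reduced numerators: some integer `a` with `gcd (B a + A, q) = 1`
and `|q x - a - γ| < δ` -/
def AS (γ : ℝ) (A : ℤ) (B : ℕ) (δ : ℝ) (q : ℕ) : Set ℝ :=
  {x | x ∈ Set.Ico (0 : ℝ) 1 ∧ ∃ a : ℤ, IsCoprime ((B : ℤ) * a + A) (q : ℤ) ∧
    |(q : ℝ) * x - a - γ| < δ}

/-- near coincidence of size `t` with a nonzero `m` divisible by `e` -/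
def Edge (γ : ℝ) (A : ℤ) (B : ℕ) (δ : ℕ → ℝ) (t : ℝ) (e : ℕ) (q r : ℕ) : Prop :=
  t ≤ MM δ q r ∧ MM δ q r < 2 * t ∧
    ∃ n : ℤ, |(n : ℝ) - (DD q r : ℝ) * γ| < 4 * t ∧ mm A B (DD q r) n ≠ 0 ∧
      (e : ℤ) ∣ mm A B (DD q r) n

open Classical in
/-- integers at distance less than `L` from `x` -/
noncomputable def nS (x L : ℝ) : Finset ℤ :=
  (Finset.Icc ⌊x - L⌋ ⌈x + L⌉).filter (fun n => |(n : ℝ) - x| < L)

open Classical in
/-- integers `n` at distance less than `L` from `x` with `n B - A D` coprime to `s` -/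
noncomputable def nC (A : ℤ) (B : ℕ) (D : ℤ) (s : ℕ) (x L : ℝ) : Finset ℤ :=
  (nS x L).filter (fun n => IsCoprime (mm A B D n) (s : ℤ))

open Classical in
/-- sum of `1/φ(e)` over the squarefree `e ∣ m`, coprime to `B`, with `e ≤ E` -/
noncomputable def hs (B : ℕ) (E : ℝ) (m : ℤ) : ℝ :=
  ∑ e ∈ m.natAbs.divisors.filter (fun e => Squarefree e ∧ Nat.Coprime e B ∧ (e : ℝ) ≤ E),
    1 / (Nat.totient e : ℝ)

open Classical in
/-- product of `(1-1/p)^(-1)` over the primes `p ∣ n`, `p > Y` -/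
noncomputable def FY (Y : ℝ) (n : ℕ) : ℝ :=
  ∏ p ∈ n.primeFactors.filter (fun p => Y < (p : ℝ)), (1 - 1 / (p : ℝ))⁻¹

/-- the anatomy cut-off -/
noncomputable def Yc (M : ℝ) : ℝ := 4 + Real.log (2 + M) ^ 2

/-- the class of `q`: `2^(2^i) ≤ q < 2^(2^(i+1))` -/
def cls (q : ℕ) : ℕ := Nat.log 2 (Nat.log 2 q)

end Vale.Agent.P028E
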