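import Vale.Agent.Lib.P028.E.Defs

/-!
# P028 E: divisor sums

`FB_eq`: for `m ≠ 0`, `FB B m = ∑_{e ∣ m, e squarefree, (e,B)=1} 1/φ(e)`
(`(1-1/p)^(-1) = 1 + 1/(p-1)`, expand the product over the primes `p ∣ m`, `p ∤ B`).

`sum_inv_phi`: for `0 < c ≤ 1`: `∑_{e=1}^n e^(-c)/φ(e) ≤ C` and for `E ≥ 1`,
`∑_{E < e ≤ n} e^(-c)/φ(e) ≤ C E^(-c/2)` uniformly in `n` (`1/φ(e) ≤ C_η e^(-1+η)`, `η = c/4`).

`dyadic`: geometric sums, see the statement.
-/

open Finset

namespace Vale.Agent.P028E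

/-- `1/φ` as an arithmetic function -/
private noncomputable def DivSum_f : ArithmeticFunction ℝ :=
  ⟨fun n => 1 / (Nat.totient n : ℝ), by simp⟩

private theorem DivSum_f_apply (n : ℕ) : DivSum_f n = 1 / (Nat.totient n : ℝ) := rfl

private theorem DivSum_f_mult : DivSum_f.IsMultiplicative := by
  refine ⟨by simp [DivSum_f_apply], ?_⟩
  intro m n h
  rw [DivSum_f_apply, DivSum_f_apply, DivSum_f_apply, Nat.totient_mul h, Nat.cast_mul,
    one_div_mul_one_div]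

open Classical in
theorem FB_eq (B : ℕ) (m : ℤ) (hm : m ≠ 0) : FB B m.natAbs =
    ∑ e ∈ m.natAbs.divisors.filter (fun e => Squarefree e ∧ Nat.Coprime e B),
      1 / (Nat.totient e : ℝ) := by
  have hn : m.natAbs ≠ 0 := Int.natAbs_ne_zero.mpr hm
  generalize m.natAbs = n at hn
  set P : Finset ℕ := n.primeFactors.filter (fun p => ¬ p ∣ B) with hP
  have hPp : ∀ p ∈ P, p.Prime := fun p hp =>
    Nat.prime_of_mem_primeFactors (Finset.mem_filter.mp hp).1
  set N : ℕ := ∏ p ∈ P, p with hN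
  have hNsq : Squarefree N := by
    rw [hN]
    refine Finset.squarefree_prod_of_pairwise_isCoprime ?_ (fun p hp => (hPp p hp).squarefree)
    intro p hp q hq hpq
    show IsRelPrime p q
    exact Nat.coprime_iff_isRelPrime.mp ((Nat.coprime_primes (hPp p hp) (hPp q hq)).mpr hpq)
  have hNpf : N.primeFactors = P := Nat.primeFactors_prod hPp
  have hdiv : N.divisors = n.divisors.filter (fun e => Squarefree e ∧ Nat.Coprime e B) := by
    ext e
    rw [Nat.mem_divisors, Finset.mem_filter, Nat.mem_divisors]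
    constructor
    · rintro ⟨h1, h2⟩
      refine ⟨⟨h1.trans ?_, hn⟩, hNsq.squarefree_of_dvd h1, ?_⟩
      · refine dvd_trans ?_ (Nat.prod_primeFactors_dvd n)
        exact Finset.prod_dvd_prod_of_subset _ _ _ (Finset.filter_subset _ _)
      · refine Nat.Coprime.coprime_dvd_left h1 ?_
        rw [hN]
        refine Nat.Coprime.prod_left fun p hp => ?_
        exact ((hPp p hp).coprime_iff_not_dvd).mpr (Finset.mem_filter.mp hp).2
    · rintro ⟨⟨h1, _⟩, h2, h3⟩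
      refine ⟨?_, hNsq.ne_zero⟩
      rw [← Nat.prod_primeFactors_of_squarefree h2, hN]
      refine Finset.prod_dvd_prod_of_subset _ _ _ fun p hp => ?_
      have hpp := Nat.prime_of_mem_primeFactors hp
      have hpe := Nat.dvd_of_mem_primeFactors hp
      refine Finset.mem_filter.mpr ⟨Nat.mem_primeFactors.mpr ⟨hpp, hpe.trans h1, hn⟩, fun hpB => ?_⟩
      have := Nat.dvd_gcd hpe hpB
      rw [h3] at this
      exact hpp.one_lt.ne' (Nat.dvd_one.mp this)
  have key := DivSum_f_mult.prodPrimeFactors_one_add_of_squarefree hNsq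
  rw [hNpf, hdiv] at key
  unfold FB
  rw [← hP]
  refine Eq.trans (Finset.prod_congr rfl fun p hp => ?_) key
  rw [DivSum_f_apply, Nat.totient_prime (hPp p hp), Nat.cast_sub (hPp p hp).one_lt.le, Nat.cast_one]
  have h2 : (2 : ℝ) ≤ p := by exact_mod_cast (hPp p hp).two_le
  have h3 : (p : ℝ) - 1 ≠ 0 := by
    intro h; linarith
  have h4 : (p : ℝ) ≠ 0 := by
    intro h; linarith
  rw [one_sub_div h4, inv_div]
  field_simp
  ring

private theorem DivSum_le_tau (n : ℕ) : n ≤ n.divisors.card * n.totient := by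
  rcases Nat.eq_zero_or_pos n with h | h
  · subst h; simp
  · conv_lhs => rw [← Nat.sum_totient n]
    rw [← smul_eq_mul]
    refine Finset.sum_le_card_nsmul _ _ _ fun d hd => ?_
    exact Nat.le_of_dvd (Nat.totient_pos.mpr h) (Nat.totient_dvd_of_dvd (Nat.dvd_of_mem_divisors hd))

private theorem DivSum_tau_sum (s : ℝ) (n : ℕ) :
    ∑ e ∈ Finset.Icc 1 n, (e.divisors.card : ℝ) * (e : ℝ) ^ (-s) ≤
      (∑ a ∈ Finset.Icc 1 n, (a : ℝ) ^ (-s)) * (∑ a ∈ Finset.Icc 1 n, (a : ℝ) ^ (-s)) := by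
  rw [Finset.sum_mul_sum, ← Finset.sum_product']
  have h1 : ∑ p ∈ (Finset.Icc 1 n ×ˢ Finset.Icc 1 n).filter (fun p => p.1 * p.2 ∈ Finset.Icc 1 n),
      (p.1 : ℝ) ^ (-s) * (p.2 : ℝ) ^ (-s) ≤
      ∑ p ∈ (Finset.Icc 1 n ×ˢ Finset.Icc 1 n), (p.1 : ℝ) ^ (-s) * (p.2 : ℝ) ^ (-s) := by
    refine Finset.sum_le_sum_of_subset_of_nonneg (Finset.filter_subset _ _) fun p _ _ => ?_
    positivity
  refine le_trans (le_of_eq ?_) h1
  rw [← Finset.sum_fiberwise_of_maps_to (g := fun p : ℕ × ℕ => p.1 * p.2) (t := Finset.Icc 1 n)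
    (fun p hp => (Finset.mem_filter.mp hp).2)]
  refine Finset.sum_congr rfl fun e he => ?_
  have he' := Finset.mem_Icc.mp he
  have h2 : (((Finset.Icc 1 n ×ˢ Finset.Icc 1 n).filter
      (fun p => p.1 * p.2 ∈ Finset.Icc 1 n)).filter (fun p => p.1 * p.2 = e)) =
      e.divisorsAntidiagonal := by
    ext ⟨a, b⟩
    simp only [Finset.mem_filter, Finset.mem_product, Finset.mem_Icc,
      Nat.mem_divisorsAntidiagonal]
    constructor
    · rintro ⟨_, h⟩
      exact ⟨h, by omega⟩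
    · rintro ⟨h, h0⟩
      have ha : 0 < a := Nat.pos_of_ne_zero fun h' => h0 (by rw [← h, h', zero_mul])
      have hb : 0 < b := Nat.pos_of_ne_zero fun h' => h0 (by rw [← h, h', mul_zero])
      have ha' : a ≤ e := by rw [← h]; exact Nat.le_mul_of_pos_right a hb
      have hb' : b ≤ e := by rw [← h]; exact Nat.le_mul_of_pos_left b ha
      refine ⟨⟨⟨⟨ha, ha'.trans he'.2⟩, ⟨hb, hb'.trans he'.2⟩⟩, ?_⟩, h⟩
      rw [h]; exact he'
  rw [h2]
  have h3 : ∀ p ∈ e.divisorsAntidiagonal, (p.1 : ℝ) ^ (-s) * (p.2 : ℝ) ^ (-s) = (e : ℝ) ^ (-s) := by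
    intro p hp
    rw [← Real.mul_rpow (Nat.cast_nonneg _) (Nat.cast_nonneg _), ← Nat.cast_mul,
      (Nat.mem_divisorsAntidiagonal.mp hp).1]
  rw [Finset.sum_congr rfl h3, Finset.sum_const, nsmul_eq_mul]
  congr 2
  have h4 := congrArg Finset.card (Nat.image_fst_divisorsAntidiagonal (n := e))
  rw [← h4, Finset.card_image_of_injOn]
  rintro ⟨a, b⟩ h ⟨c, d⟩ h' hac
  rw [Finset.mem_coe, Nat.mem_divisorsAntidiagonal] at h h'
  simp only at hac h h'
  subst hac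
  have ha : 0 < a := Nat.pos_of_ne_zero fun h'' => h.2 (by rw [← h.1, h'', zero_mul])
  have : b = d := Nat.eq_of_mul_eq_mul_left ha (h.1.trans h'.1.symm)
  rw [this]

open Classical in
theorem sum_inv_phi (c : ℝ) (hc : 0 < c) (hc1 : c ≤ 1) : ∃ C : ℝ, 1 ≤ C ∧ ∀ (n : ℕ) (E : ℝ), 1 ≤ E →
    ∑ e ∈ (Finset.Icc 1 n).filter (fun e : ℕ => E ≤ (e : ℝ)),
      (e : ℝ) ^ (-c) / (Nat.totient e : ℝ) ≤ C * E ^ (-(c / 2)) := by
  have hs : 1 < 1 + c / 2 := by linarith
  have hsum : Summable (fun n : ℕ => (n : ℝ) ^ (-(1 + c / 2))) := Real.summable_nat_rpow.mpr (by linarith)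
  set Z : ℝ := ∑' n : ℕ, (n : ℝ) ^ (-(1 + c / 2)) with hZ
  refine ⟨max 1 (Z * Z), le_max_left _ _, fun n E hE => ?_⟩
  have hE0 : 0 < E := by linarith
  have h1 : ∀ e ∈ (Finset.Icc 1 n).filter (fun e : ℕ => E ≤ (e : ℝ)),
      (e : ℝ) ^ (-c) / (Nat.totient e : ℝ) ≤
      E ^ (-(c / 2)) * ((e.divisors.card : ℝ) * (e : ℝ) ^ (-(1 + c / 2))) := by
    intro e he
    obtain ⟨he1, he2⟩ := Finset.mem_filter.mp he
    have he3 := (Finset.mem_Icc.mp he1).1
    have hepos : (0 : ℝ) < e := by exact_mod_cast he3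
    have hphi : (0 : ℝ) < Nat.totient e := by exact_mod_cast Nat.totient_pos.mpr he3
    have h2 : (e : ℝ) ≤ e.divisors.card * e.totient := by exact_mod_cast DivSum_le_tau e
    have h3 : (e : ℝ) ^ (-(c / 2)) ≤ E ^ (-(c / 2)) :=
      Real.rpow_le_rpow_of_nonpos hE0 he2 (by linarith)
    have h4 : (e : ℝ) ^ (-c) = (e : ℝ) ^ (-(c / 2)) * ((e : ℝ) * (e : ℝ) ^ (-(1 + c / 2))) := by
      rw [← Real.rpow_one_add' hepos.le (by linarith), ← Real.rpow_add hepos]
      congr 1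
      ring
    rw [div_le_iff₀ hphi, h4]
    have h5 : 0 ≤ (e : ℝ) ^ (-(1 + c / 2)) := by positivity
    calc (e : ℝ) ^ (-(c / 2)) * ((e : ℝ) * (e : ℝ) ^ (-(1 + c / 2)))
        ≤ E ^ (-(c / 2)) * ((e.divisors.card * e.totient : ℝ) * (e : ℝ) ^ (-(1 + c / 2))) := by
          refine mul_le_mul h3 (mul_le_mul_of_nonneg_right h2 h5) (by positivity) (by positivity)
      _ = _ := by ring
  refine (Finset.sum_le_sum h1).trans ?_
  rw [← Finset.mul_sum, mul_comm]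
  refine mul_le_mul_of_nonneg_right ?_ (by positivity)
  refine le_trans ?_ (le_max_right _ _)
  have h6 : ∑ e ∈ (Finset.Icc 1 n).filter (fun e : ℕ => E ≤ (e : ℝ)),
      ((e.divisors.card : ℝ) * (e : ℝ) ^ (-(1 + c / 2))) ≤
      ∑ e ∈ Finset.Icc 1 n, ((e.divisors.card : ℝ) * (e : ℝ) ^ (-(1 + c / 2))) :=
    Finset.sum_le_sum_of_subset_of_nonneg (Finset.filter_subset _ _) fun _ _ _ => by positivity
  refine h6.trans ((DivSum_tau_sum (1 + c / 2) n).trans ?_)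
  have h7 : ∑ a ∈ Finset.Icc 1 n, (a : ℝ) ^ (-(1 + c / 2)) ≤ Z :=
    hsum.sum_le_tsum _ fun _ _ => by positivity
  have h8 : 0 ≤ ∑ a ∈ Finset.Icc 1 n, (a : ℝ) ^ (-(1 + c / 2)) :=
    Finset.sum_nonneg fun _ _ => by positivity
  exact mul_le_mul h7 h7 h8 (h8.trans h7)

end Vale.Agent.P028E
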