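import Vale.Agent.Lib.P028.E.LDefs

/-!
# P028 E: the missing part `jv N v` of a typical edge is small

Proof.  `log (jv N v) = ∑_{p ∣ N} (N_p - v_p)^+ log p`.  If `NoCom` and `v_p < N_p` (so `p ∣ N`,
`p ∉ P` by `Ncop`) then `w_p = N_p`.  Hence, with `e_ij` as in `Typ`,
`∑_{NoCom} μ ν ω log jv ≤ ∑_{p ∣ N} log p ∑_{i < N_p} (N_p - i) e_(i, N_p)
  ≤ e ∑_{p∣N} log p ∑_{d ≥ 1} d κ^d s^θ ≤ 4 e ∑_{p ∣ N} (log p) p^(-99/100)`
(`κ = p^(-39/80) ≤ 1/2`, `s ≤ p^(-397/400)`, `39/80 + (51/100)(397/400) ≥ 99/100`,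
`∑ d κ^d = κ/(1-κ)^2 ≤ 4κ`).
Moreover `∑_{p ∣ N} log p ≤ 2 log X`: `∑_{p∣N} log p * ms {v ∈ V1 : p ∣ v} ≤ ∑ μ v log v ≤ ms V1 log X`
and `ms {v ∈ V1 : p ∣ v} ≥ ms V1 / 2` (as `N_p ≥ 1` and `concV`).
So, with `Y = (log X)^(1/2)`, `∑_{p∣N} (log p) p^(-99/100) ≤ ∑_{p ≤ Y} 1 + Y^(-99/100) 2 log X
  ≤ 3 (log X)^(3/4)` (`log X ≥ 1`).  Markov: on the event, `log jv ≥ log J`.
-/

open Finset

namespace Vale.Agent.P028E

theorem tj_geo (κ : ℝ) (h0 : 0 ≤ κ) (h1 : κ ≤ 1 / 2) (n : ℕ) :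
    ∑ i ∈ range n, ((n - i : ℕ) : ℝ) * κ ^ (n - i) ≤ 4 * κ := by
  have h2 : ∑ i ∈ range n, ((n - i : ℕ) : ℝ) * κ ^ (n - i)
      = ∑ j ∈ range n, ((j + 1 : ℕ) : ℝ) * κ ^ (j + 1) := by
    rw [← Finset.sum_range_reflect]
    refine Finset.sum_congr rfl (fun j hj => ?_)
    have h3 := Finset.mem_range.1 hj
    have h4 : n - (n - 1 - j) = j + 1 := by omega
    rw [h4]
  rw [h2]
  have h5 : ∀ m : ℕ, ∑ j ∈ range m, ((j + 1 : ℕ) : ℝ) * κ ^ (j + 1)
      ≤ 4 * κ - (2 * m + 4) * κ ^ (m + 1) := by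
    intro m
    induction m with
    | zero => simp
    | succ m ih =>
      rw [Finset.sum_range_succ]
      have h6 : 0 ≤ κ ^ (m + 1) := pow_nonneg h0 _
      have h7 : κ ^ (m + 1 + 1) = κ ^ (m + 1) * κ := pow_succ _ _
      have h8 : κ ^ (m + 1) * κ ≤ κ ^ (m + 1) * (1 / 2) := mul_le_mul_of_nonneg_left h1 h6
      have h9 : (0 : ℝ) ≤ m := Nat.cast_nonneg m
      have h10 : (2 * (m : ℝ) + 6) * (κ ^ (m + 1) * κ) ≤ (2 * (m : ℝ) + 6) * (κ ^ (m + 1) * (1 / 2)) :=
        mul_le_mul_of_nonneg_left h8 (by linarith)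
      have h11 : ((m + 1 : ℕ) : ℝ) = (m : ℝ) + 1 := by push_cast; rfl
      rw [h7, h11]
      refine (add_le_add_left ih _).trans ?_
      linarith
  refine (h5 n).trans ?_
  have h10 : 0 ≤ (2 * (n : ℝ) + 4) * κ ^ (n + 1) := by positivity
  linarith

theorem tj_five : (2 : ℝ) ≤ (5 : ℝ) ^ (39 / 80 : ℝ) := by
  have h1 : (2 : ℝ) ^ (80 : ℕ) ≤ ((5 : ℝ) ^ (39 / 80 : ℝ)) ^ (80 : ℕ) := by
    rw [← Real.rpow_natCast ((5 : ℝ) ^ (39 / 80 : ℝ)), ← Real.rpow_mul (by norm_num)]
    rw [show (39 / 80 : ℝ) * ((80 : ℕ) : ℝ) = ((39 : ℕ) : ℝ) by norm_num, Real.rpow_natCast]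
    norm_num
  exact le_of_pow_le_pow_left₀ (by norm_num) (by positivity) h1

theorem tj_kappa {p : ℕ} (hp : 5 ≤ p) : (p : ℝ) ^ (-(39 / 80) : ℝ) ≤ 1 / 2 := by
  have hp' : (5 : ℝ) ≤ p := by exact_mod_cast hp
  rw [Real.rpow_neg (by positivity), inv_le_comm₀ (by positivity) (by norm_num)]
  have h1 : (5 : ℝ) ^ (39 / 80 : ℝ) ≤ (p : ℝ) ^ (39 / 80 : ℝ) :=
    Real.rpow_le_rpow (by norm_num) hp' (by norm_num)
  have := tj_five
  norm_num
  linarith

theorem tj_beta {p : ℕ} (hp : 5 ≤ p) : (p : ℝ) ^ (-(397 / 400) : ℝ) ≤ 1 / 2 := by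
  have hp' : (5 : ℝ) ≤ p := by exact_mod_cast hp
  refine le_trans ?_ (tj_kappa hp)
  exact Real.rpow_le_rpow_of_exponent_le (by linarith) (by norm_num)

theorem tj_ms_nonneg {V : Finset ℕ} {μ : ℕ → ℝ} (h : ∀ v ∈ V, 0 ≤ μ v) : 0 ≤ ms V μ :=
  Finset.sum_nonneg h

theorem tj_ms_mono {V V' : Finset ℕ} {μ : ℕ → ℝ} (h : ∀ v ∈ V, 0 ≤ μ v) (hs : V' ⊆ V) :
    ms V' μ ≤ ms V μ :=
  Finset.sum_le_sum_of_subset_of_nonneg hs (fun v hv _ => h v hv)

/-- the logarithm of the missing part -/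
theorem tj_log_jv {N v : ℕ} (hN : 0 < N) (hv : 0 < v) :
    Real.log (jv N v : ℝ) = ∑ p ∈ N.primeFactors,
      ((N.factorization p - v.factorization p : ℕ) : ℝ) * Real.log p := by
  have hg : 0 < Nat.gcd v N := Nat.gcd_pos_of_pos_left _ hv
  have hd : Nat.gcd v N ∣ N := Nat.gcd_dvd_right v N
  have hj : jv N v ≠ 0 := by
    unfold jv
    exact (Nat.div_pos (Nat.le_of_dvd hN hd) hg).ne'
  have hfac : ∀ p, (jv N v).factorization p = N.factorization p - v.factorization p := by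
    intro p
    unfold jv
    rw [Nat.factorization_div hd, Nat.factorization_gcd hv.ne' hN.ne']
    simp only [Finsupp.coe_tsub, Pi.sub_apply, Finsupp.inf_apply]
    omega
  have hsub : (jv N v).primeFactors ⊆ N.primeFactors := by
    unfold jv
    exact Nat.primeFactors_mono (Nat.div_dvd_of_dvd hd) hN.ne'
  have h1 : Real.log (jv N v : ℝ) = ∑ p ∈ (jv N v).primeFactors,
      ((jv N v).factorization p : ℝ) * Real.log p := by
    conv_lhs => rw [← Nat.prod_factorization_pow_eq_self hj]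
    rw [Finsupp.prod, Nat.support_factorization]
    push_cast
    rw [Real.log_prod]
    · refine Finset.sum_congr rfl (fun p _ => ?_)
      rw [Real.log_pow]
    · intro p hp
      have := (Nat.prime_of_mem_primeFactors hp).pos
      positivity
  rw [h1]
  rw [Finset.sum_subset hsub (fun p _ hp => ?_)]
  · refine Finset.sum_congr rfl (fun p _ => ?_)
    rw [hfac]
  · rw [← Nat.support_factorization, Finsupp.notMem_support_iff] at hp
    rw [hp]
    simp

/-- sum of `log p` over the prime factors -/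
theorem tj_sum_log {v : ℕ} (hv : 0 < v) (S : Finset ℕ) (hS : S ⊆ v.primeFactors) :
    ∑ p ∈ S, Real.log p ≤ Real.log v := by
  have h1 : ∑ p ∈ S, Real.log (p : ℝ) ≤ ∑ p ∈ v.primeFactors, Real.log (p : ℝ) := by
    refine Finset.sum_le_sum_of_subset_of_nonneg hS (fun p hp _ => ?_)
    exact Real.log_natCast_nonneg p
  refine h1.trans ?_
  rw [← Real.log_prod (fun p hp => by
    have := (Nat.prime_of_mem_primeFactors hp).pos
    positivity)]
  refine Real.log_le_log ?_ ?_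
  · refine Finset.prod_pos (fun p hp => ?_)
    have := (Nat.prime_of_mem_primeFactors hp).pos
    exact_mod_cast this
  · have h2 := Nat.le_of_dvd hv (Nat.prod_primeFactors_dvd v)
    have h3 : ((∏ p ∈ v.primeFactors, p : ℕ) : ℝ) ≤ (v : ℝ) := by exact_mod_cast h2
    rwa [Nat.cast_prod] at h3

/-- the analytic part -/
theorem tj_anal {S : Finset ℕ} {L : ℝ} (hL : 1 ≤ L) (hS : ∀ p ∈ S, 1 ≤ p)
    (hsum : ∑ p ∈ S, Real.log p ≤ 2 * L) :
    ∑ p ∈ S, Real.log p * (p : ℝ) ^ (-(99 / 100) : ℝ) ≤ 4 * L ^ (3 / 4 : ℝ) := by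
  set Y : ℝ := L ^ (1 / 2 : ℝ) with hY
  have hL0 : 0 < L := by linarith
  have hY1 : 1 ≤ Y := Real.one_le_rpow hL (by norm_num)
  have hY0 : 0 < Y := by linarith
  have hsp : ∀ p ∈ S, Real.log p * (p : ℝ) ^ (-(99 / 100) : ℝ) ≤
      (if (p : ℝ) ≤ Y then 2 else 0) + Real.log p * Y ^ (-(99 / 100) : ℝ) := by
    intro p hp
    have hp1 : (1 : ℝ) ≤ p := by exact_mod_cast hS p hp
    have hlog : 0 ≤ Real.log (p : ℝ) := Real.log_nonneg hp1
    by_cases h : (p : ℝ) ≤ Y
    · rw [if_pos h]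
      have h1 : Real.log p ≤ (p : ℝ) ^ (1 / 2 : ℝ) / (1 / 2) :=
        Real.log_le_rpow_div (by linarith) (by norm_num)
      have h2 : Real.log p * (p : ℝ) ^ (-(99 / 100) : ℝ) ≤ 2 := by
        calc Real.log p * (p : ℝ) ^ (-(99 / 100) : ℝ)
            ≤ ((p : ℝ) ^ (1 / 2 : ℝ) / (1 / 2)) * (p : ℝ) ^ (-(99 / 100) : ℝ) :=
              mul_le_mul_of_nonneg_right h1 (by positivity)
          _ = 2 * (p : ℝ) ^ ((1 / 2 : ℝ) + (-(99 / 100) : ℝ)) := by
              rw [Real.rpow_add (by linarith)]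
              ring
          _ ≤ 2 * 1 := by
              refine mul_le_mul_of_nonneg_left ?_ (by norm_num)
              exact Real.rpow_le_one_of_one_le_of_nonpos hp1 (by norm_num)
          _ = 2 := by norm_num
      have h3 : 0 ≤ Real.log p * Y ^ (-(99 / 100) : ℝ) := by positivity
      linarith
    · rw [if_neg h, zero_add]
      push Not at h
      refine mul_le_mul_of_nonneg_left ?_ hlog
      exact Real.rpow_le_rpow_of_nonpos hY0 h.le (by norm_num)
  refine (Finset.sum_le_sum hsp).trans ?_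
  rw [Finset.sum_add_distrib, ← Finset.sum_mul]
  have h4 : ∑ p ∈ S, (if (p : ℝ) ≤ Y then (2 : ℝ) else 0) ≤ 2 * Y := by
    rw [← Finset.sum_filter, Finset.sum_const, nsmul_eq_mul, mul_comm]
    refine mul_le_mul_of_nonneg_left ?_ (by norm_num)
    have h5 : S.filter (fun p : ℕ => (p : ℝ) ≤ Y) ⊆ Finset.Icc 1 ⌊Y⌋₊ := by
      intro p hp
      rw [Finset.mem_filter] at hp
      rw [Finset.mem_Icc]
      exact ⟨hS p hp.1, Nat.le_floor hp.2⟩
    have h6 := Finset.card_le_card h5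
    rw [Nat.card_Icc] at h6
    have h7 : (((S.filter (fun p : ℕ => (p : ℝ) ≤ Y)).card : ℕ) : ℝ) ≤ (⌊Y⌋₊ : ℝ) := by
      exact_mod_cast (by omega : (S.filter (fun p : ℕ => (p : ℝ) ≤ Y)).card ≤ ⌊Y⌋₊)
    exact h7.trans (Nat.floor_le hY0.le)
  have h8 : (∑ p ∈ S, Real.log (p : ℝ)) * Y ^ (-(99 / 100) : ℝ) ≤ 2 * L ^ (3 / 4 : ℝ) := by
    calc (∑ p ∈ S, Real.log (p : ℝ)) * Y ^ (-(99 / 100) : ℝ)
        ≤ (2 * L) * Y ^ (-(99 / 100) : ℝ) := mul_le_mul_of_nonneg_right hsum (by positivity)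
      _ = 2 * L ^ (1 + (1 / 2 : ℝ) * (-(99 / 100) : ℝ)) := by
          rw [hY, ← Real.rpow_mul hL0.le, Real.rpow_add hL0, Real.rpow_one]
          ring
      _ ≤ 2 * L ^ (3 / 4 : ℝ) := by
          refine mul_le_mul_of_nonneg_left ?_ (by norm_num)
          exact Real.rpow_le_rpow_of_exponent_le hL (by norm_num)
  have h9 : Y ≤ L ^ (3 / 4 : ℝ) := Real.rpow_le_rpow_of_exponent_le hL (by norm_num)
  linarith

open Classical in
theorem typJ : ∃ p0 : ℕ, ∀ p1 : ℕ, p0 ≤ p1 → ∀ (V W : Finset ℕ) (μ ν : ℕ → ℝ)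
    (ω : ℕ → ℕ → ℝ) (V1 W1 P : Finset ℕ) (a b N : ℕ), Leaf p1 V W μ ν ω V1 W1 P a b N →
    (∀ v ∈ V, 0 < v) → (∀ w ∈ W, 0 < w) → (∀ v ∈ V, 0 < μ v) → (∀ w ∈ W, 0 < ν w) →
    (∀ v w, 0 ≤ ω v w) →
    ∀ X J : ℝ, 3 ≤ X → 1 < J → (∀ v ∈ V, (v : ℝ) ≤ X) →
    ∑ v ∈ V1, ∑ w ∈ W1, (if NoCom P N v w ∧ J ≤ (jv N v : ℝ) then μ v * ν w * ω v w else 0) ≤
      16 * Real.log X ^ (3 / 4 : ℝ) / Real.log J * eW V1 W1 μ ν ω := by
  refine ⟨5, ?_⟩
  intro p1 hp1 V W μ ν ω V1 W1 P a b N hL hV hW hμ hν hω X J hX hJ hVX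
  have hlX : 1 ≤ Real.log X := by
    rw [Real.le_log_iff_exp_le (by linarith)]
    have := Real.exp_one_lt_d9
    linarith
  have hlJ : 0 < Real.log J := Real.log_pos hJ
  have hNpos := hL.Npos
  have hpN : ∀ p ∈ N.primeFactors, p.Prime ∧ p ∉ P ∧ 5 ≤ p := by
    intro p hp
    have h1 := Nat.prime_of_mem_primeFactors hp
    have h2 : p ∉ P := fun h => hL.Ncop p h (Nat.dvd_of_mem_primeFactors hp)
    refine ⟨h1, h2, ?_⟩
    by_contra h3
    exact h2 (hL.small p h1 (by omega))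
  have hV1 : ∀ v ∈ V1, 0 < v := fun v hv => hV v (hL.subV hv)
  have hμ1 : ∀ v ∈ V1, 0 ≤ μ v := fun v hv => (hμ v (hL.subV hv)).le
  have hν1 : ∀ w ∈ W1, 0 ≤ ν w := fun w hw => (hν w (hL.subW hw)).le
  have hVne : V1.Nonempty := by
    rw [Finset.nonempty_iff_ne_empty]
    rintro rfl
    have := hL.epos
    simp [eW] at this
  have hWne : W1.Nonempty := by
    rw [Finset.nonempty_iff_ne_empty]
    rintro rfl
    have := hL.epos
    simp [eW] at this
  have hmsV : 0 < ms V1 μ := Finset.sum_pos (fun v hv => hμ v (hL.subV hv)) hVne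
  have hmsW : 0 < ms W1 ν := Finset.sum_pos (fun w hw => hν w (hL.subW hw)) hWne
  set e := eW V1 W1 μ ν ω with he
  have hepos : 0 < e := hL.epos
  -- the contribution of one prime
  have hA : ∀ p ∈ N.primeFactors, ∑ v ∈ V1, ∑ w ∈ W1,
      ((N.factorization p - v.factorization p : ℕ) : ℝ) *
        (if w.factorization p = N.factorization p then μ v * ν w * ω v w else 0)
      ≤ e * (4 * (p : ℝ) ^ (-(99 / 100) : ℝ)) := by
    intro p hp
    obtain ⟨hpp, hpP, hp5⟩ := hpN p hp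
    have hp5' : (5 : ℝ) ≤ p := by exact_mod_cast hp5
    have hp0 : (0 : ℝ) < p := by linarith
    set n := N.factorization p with hn
    have h1 : ∑ v ∈ V1, ∑ w ∈ W1, ((n - v.factorization p : ℕ) : ℝ) *
        (if w.factorization p = n then μ v * ν w * ω v w else 0)
        = ∑ i ∈ range n, ((n - i : ℕ) : ℝ) * eW (vfil V1 p i) (vfil W1 p n) μ ν ω := by
      have h2 : ∀ i, eW (vfil V1 p i) (vfil W1 p n) μ ν ω
          = ∑ v ∈ V1, if v.factorization p = i then
            (∑ w ∈ W1, if w.factorization p = n then μ v * ν w * ω v w else 0) else 0 := by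
        intro i
        unfold eW vfil
        rw [Finset.sum_filter]
        refine Finset.sum_congr rfl (fun v _ => ?_)
        rw [Finset.sum_filter]
      have h3 : ∀ i ∈ range n, ((n - i : ℕ) : ℝ) * eW (vfil V1 p i) (vfil W1 p n) μ ν ω
          = ∑ v ∈ V1, ((n - i : ℕ) : ℝ) * (if v.factorization p = i then
            (∑ w ∈ W1, if w.factorization p = n then μ v * ν w * ω v w else 0) else 0) := by
        intro i _
        rw [h2 i, Finset.mul_sum]
      rw [Finset.sum_congr rfl h3, Finset.sum_comm (s := range n) (t := V1)]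
      refine Finset.sum_congr rfl (fun v _ => ?_)
      rw [← Finset.mul_sum]
      by_cases hv : v.factorization p < n
      · symm
        refine (Finset.sum_eq_single (v.factorization p) ?_ ?_).trans ?_
        · intro i _ hi
          rw [if_neg (Ne.symm hi), mul_zero]
        · intro h
          exact absurd (Finset.mem_range.2 hv) h
        · rw [if_pos rfl]
      · have h3 : n - v.factorization p = 0 := by omega
        rw [h3]
        rw [Nat.cast_zero, zero_mul]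
        symm
        refine Finset.sum_eq_zero (fun i hi => ?_)
        have := Finset.mem_range.1 hi
        rw [if_neg (by omega), mul_zero]
    rw [h1]
    set κ : ℝ := (p : ℝ) ^ (-(39 / 80) : ℝ) with hκ
    have hκ0 : 0 < κ := by positivity
    have hκ1 : κ ≤ 1 / 2 := tj_kappa hp5
    have h4 : ∀ i ∈ range n, ((n - i : ℕ) : ℝ) * eW (vfil V1 p i) (vfil W1 p n) μ ν ω
        ≤ (e * ((p : ℝ) ^ (-(397 / 400) : ℝ)) ^ (51 / 100 : ℝ)) * (((n - i : ℕ) : ℝ) * κ ^ (n - i)) := by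
      intro i hi
      have hin := Finset.mem_range.1 hi
      have h5 := hL.edge p hpp hpP i n
      have h6 : Kp p i n = κ ^ (n - i) := by
        unfold Kp ds
        rw [show i - n + (n - i) = n - i by omega]
      rw [h6] at h5
      have hx0 : 0 ≤ ms (vfil V1 p i) μ / ms V1 μ :=
        div_nonneg (tj_ms_nonneg (fun v hv => hμ1 v (Finset.mem_filter.1 hv).1)) hmsV.le
      have hy0 : 0 ≤ ms (vfil W1 p n) ν / ms W1 ν :=
        div_nonneg (tj_ms_nonneg (fun v hv => hν1 v (Finset.mem_filter.1 hv).1)) hmsW.le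
      have hx : ms (vfil V1 p i) μ / ms V1 μ ≤ (p : ℝ) ^ (-(397 / 400) : ℝ) := by
        rw [div_le_iff₀ hmsV]
        refine le_trans ?_ (hL.concV p hpp hpP)
        refine tj_ms_mono (fun v hv => hμ1 v (Finset.mem_filter.1 hv).1) ?_
        intro v hv
        unfold vfil at hv
        unfold vne
        rw [Finset.mem_filter] at hv ⊢
        refine ⟨hv.1, ?_⟩
        rw [hv.2]
        omega
      have hy : ms (vfil W1 p n) ν / ms W1 ν ≤ 1 := by
        rw [div_le_one hmsW]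
        exact tj_ms_mono hν1 (Finset.filter_subset _ _)
      have hxy : (ms (vfil V1 p i) μ / ms V1 μ) * (ms (vfil W1 p n) ν / ms W1 ν)
          ≤ (p : ℝ) ^ (-(397 / 400) : ℝ) := by
        calc _ ≤ (p : ℝ) ^ (-(397 / 400) : ℝ) * 1 :=
              mul_le_mul hx hy hy0 (by positivity)
          _ = _ := mul_one _
      have h7 : ((ms (vfil V1 p i) μ / ms V1 μ) * (ms (vfil W1 p n) ν / ms W1 ν)) ^ (51 / 100 : ℝ)
          ≤ ((p : ℝ) ^ (-(397 / 400) : ℝ)) ^ (51 / 100 : ℝ) :=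
        Real.rpow_le_rpow (mul_nonneg hx0 hy0) hxy (by norm_num)
      have h8 : eW (vfil V1 p i) (vfil W1 p n) μ ν ω
          ≤ e * κ ^ (n - i) * ((p : ℝ) ^ (-(397 / 400) : ℝ)) ^ (51 / 100 : ℝ) :=
        h5.trans (mul_le_mul_of_nonneg_left h7 (by positivity))
      calc ((n - i : ℕ) : ℝ) * eW (vfil V1 p i) (vfil W1 p n) μ ν ω
          ≤ ((n - i : ℕ) : ℝ) * (e * κ ^ (n - i) *
              ((p : ℝ) ^ (-(397 / 400) : ℝ)) ^ (51 / 100 : ℝ)) :=
            mul_le_mul_of_nonneg_left h8 (Nat.cast_nonneg _)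
        _ = _ := by ring
    refine (Finset.sum_le_sum h4).trans ?_
    rw [← Finset.mul_sum]
    have h9 := tj_geo κ hκ0.le hκ1 n
    have h10 : κ * ((p : ℝ) ^ (-(397 / 400) : ℝ)) ^ (51 / 100 : ℝ) ≤ (p : ℝ) ^ (-(99 / 100) : ℝ) := by
      rw [hκ, ← Real.rpow_mul hp0.le, ← Real.rpow_add hp0]
      exact Real.rpow_le_rpow_of_exponent_le (by linarith) (by norm_num)
    calc (e * ((p : ℝ) ^ (-(397 / 400) : ℝ)) ^ (51 / 100 : ℝ)) *
          ∑ i ∈ range n, ((n - i : ℕ) : ℝ) * κ ^ (n - i)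
        ≤ (e * ((p : ℝ) ^ (-(397 / 400) : ℝ)) ^ (51 / 100 : ℝ)) * (4 * κ) :=
          mul_le_mul_of_nonneg_left h9 (by positivity)
      _ = e * (4 * (κ * ((p : ℝ) ^ (-(397 / 400) : ℝ)) ^ (51 / 100 : ℝ))) := by ring
      _ ≤ e * (4 * (p : ℝ) ^ (-(99 / 100) : ℝ)) := by
          refine mul_le_mul_of_nonneg_left ?_ hepos.le
          exact mul_le_mul_of_nonneg_left h10 (by norm_num)
  -- sum of the logarithms
  have hS : ∑ p ∈ N.primeFactors, Real.log (p : ℝ) ≤ 2 * Real.log X := by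
    have h1 : ∀ p ∈ N.primeFactors, Real.log (p : ℝ) * (ms V1 μ / 2) ≤
        ∑ v ∈ V1, if p ∣ v then μ v * Real.log p else 0 := by
      intro p hp
      obtain ⟨hpp, hpP, hp5⟩ := hpN p hp
      have hlp : 0 ≤ Real.log (p : ℝ) := Real.log_natCast_nonneg p
      have h2 := hL.concV p hpp hpP
      have h3 : (p : ℝ) ^ (-(397 / 400) : ℝ) ≤ 1 / 2 := tj_beta hp5
      have h4 : ms (vne V1 p (N.factorization p)) μ ≤ ms V1 μ / 2 := by
        refine h2.trans ?_
        have := mul_le_mul_of_nonneg_right h3 hmsV.le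
        linarith
      have h5 : ms V1 μ ≤ ms (vne V1 p (N.factorization p)) μ +
          ∑ v ∈ V1, (if p ∣ v then μ v else 0) := by
        unfold ms vne
        rw [Finset.sum_filter, ← Finset.sum_add_distrib]
        refine Finset.sum_le_sum (fun v hv => ?_)
        by_cases hvp : v.factorization p = N.factorization p
        · have hdiv : p ∣ v := by
            have h6 : 0 < N.factorization p :=
              hpp.factorization_pos_of_dvd hNpos.ne' (Nat.dvd_of_mem_primeFactors hp)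
            rw [← hvp] at h6
            exact Nat.dvd_of_factorization_pos h6.ne'
          rw [if_pos hdiv]
          simp [hvp]
        · rw [if_pos hvp]
          have h7 : 0 ≤ (if p ∣ v then μ v else 0) := by
            split_ifs
            · exact hμ1 v hv
            · exact le_refl _
          linarith
      have h8 : ms V1 μ / 2 ≤ ∑ v ∈ V1, (if p ∣ v then μ v else 0) := by linarith
      calc Real.log (p : ℝ) * (ms V1 μ / 2)
          ≤ Real.log (p : ℝ) * ∑ v ∈ V1, (if p ∣ v then μ v else 0) :=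
            mul_le_mul_of_nonneg_left h8 hlp
        _ = _ := by
            rw [Finset.mul_sum]
            refine Finset.sum_congr rfl (fun v _ => ?_)
            split_ifs <;> ring
    have h2 := Finset.sum_le_sum h1
    rw [← Finset.sum_mul, Finset.sum_comm] at h2
    have h3 : ∀ v ∈ V1, ∑ p ∈ N.primeFactors, (if p ∣ v then μ v * Real.log p else 0)
        ≤ μ v * Real.log X := by
      intro v hv
      rw [← Finset.sum_filter, ← Finset.mul_sum]
      refine mul_le_mul_of_nonneg_left ?_ (hμ1 v hv)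
      refine (tj_sum_log (hV1 v hv) _ ?_).trans ?_
      · intro p hp
        rw [Finset.mem_filter] at hp
        exact Nat.mem_primeFactors.2 ⟨Nat.prime_of_mem_primeFactors hp.1, hp.2, (hV1 v hv).ne'⟩
      · refine Real.log_le_log (by exact_mod_cast hV1 v hv) (hVX v (hL.subV hv))
    have h4 := h2.trans (Finset.sum_le_sum h3)
    rw [← Finset.sum_mul] at h4
    change _ ≤ ms V1 μ * Real.log X at h4
    by_contra h5
    push Not at h5
    have h6 : 2 * Real.log X * (ms V1 μ / 2) <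
        (∑ p ∈ N.primeFactors, Real.log (p : ℝ)) * (ms V1 μ / 2) :=
      mul_lt_mul_of_pos_right h5 (by linarith)
    linarith
  have hT : ∑ p ∈ N.primeFactors, Real.log p * (p : ℝ) ^ (-(99 / 100) : ℝ)
      ≤ 4 * Real.log X ^ (3 / 4 : ℝ) :=
    tj_anal hlX (fun p hp => (Nat.prime_of_mem_primeFactors hp).pos) hS
  -- Markov
  have hM : (∑ v ∈ V1, ∑ w ∈ W1,
      (if NoCom P N v w ∧ J ≤ (jv N v : ℝ) then μ v * ν w * ω v w else 0)) * Real.log J
      ≤ ∑ v ∈ V1, ∑ w ∈ W1, ∑ p ∈ N.primeFactors, Real.log p *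
        (((N.factorization p - v.factorization p : ℕ) : ℝ) *
        (if w.factorization p = N.factorization p then μ v * ν w * ω v w else 0)) := by
    rw [Finset.sum_mul]
    refine Finset.sum_le_sum (fun v hv => ?_)
    rw [Finset.sum_mul]
    refine Finset.sum_le_sum (fun w hw => ?_)
    have hnn : 0 ≤ μ v * ν w * ω v w :=
      mul_nonneg (mul_nonneg (hμ1 v hv) (hν1 w hw)) (hω v w)
    have hterm : ∀ p ∈ N.primeFactors, 0 ≤ Real.log p *
        (((N.factorization p - v.factorization p : ℕ) : ℝ) *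
        (if w.factorization p = N.factorization p then μ v * ν w * ω v w else 0)) := by
      intro p _
      refine mul_nonneg (Real.log_natCast_nonneg p) (mul_nonneg (Nat.cast_nonneg _) ?_)
      split_ifs
      · exact hnn
      · exact le_refl _
    split_ifs with h
    · obtain ⟨hNC, hJv⟩ := h
      have h1 : Real.log J ≤ Real.log (jv N v : ℝ) := Real.log_le_log (by linarith) hJv
      rw [tj_log_jv hNpos (hV1 v hv)] at h1
      have h2 : μ v * ν w * ω v w * Real.log J ≤ μ v * ν w * ω v w *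
          ∑ p ∈ N.primeFactors, ((N.factorization p - v.factorization p : ℕ) : ℝ) * Real.log p :=
        mul_le_mul_of_nonneg_left h1 hnn
      refine h2.trans (le_of_eq ?_)
      rw [Finset.mul_sum]
      refine Finset.sum_congr rfl (fun p hp => ?_)
      rcases hNC p (hpN p hp).1 (hpN p hp).2.1 with h3 | h3
      · rw [h3]; simp
      · rw [if_pos h3]; ring
    · rw [zero_mul]
      exact Finset.sum_nonneg hterm
  have hfin : (∑ v ∈ V1, ∑ w ∈ W1,
      (if NoCom P N v w ∧ J ≤ (jv N v : ℝ) then μ v * ν w * ω v w else 0)) * Real.log J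
      ≤ 16 * Real.log X ^ (3 / 4 : ℝ) * e := by
    refine hM.trans ?_
    have h1 : ∑ v ∈ V1, ∑ w ∈ W1, ∑ p ∈ N.primeFactors, Real.log p *
        (((N.factorization p - v.factorization p : ℕ) : ℝ) *
        (if w.factorization p = N.factorization p then μ v * ν w * ω v w else 0))
        = ∑ p ∈ N.primeFactors, Real.log p * ∑ v ∈ V1, ∑ w ∈ W1,
        (((N.factorization p - v.factorization p : ℕ) : ℝ) *
        (if w.factorization p = N.factorization p then μ v * ν w * ω v w else 0)) := by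
      have h2 : ∀ p ∈ N.primeFactors, Real.log p * ∑ v ∈ V1, ∑ w ∈ W1,
          (((N.factorization p - v.factorization p : ℕ) : ℝ) *
          (if w.factorization p = N.factorization p then μ v * ν w * ω v w else 0))
          = ∑ v ∈ V1, ∑ w ∈ W1, Real.log p * (((N.factorization p - v.factorization p : ℕ) : ℝ) *
          (if w.factorization p = N.factorization p then μ v * ν w * ω v w else 0)) := by
        intro p _
        rw [Finset.mul_sum]
        refine Finset.sum_congr rfl (fun v _ => ?_)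
        rw [Finset.mul_sum]
      rw [Finset.sum_congr rfl h2, Finset.sum_comm (s := N.primeFactors) (t := V1)]
      refine Finset.sum_congr rfl (fun v _ => ?_)
      rw [Finset.sum_comm]
    rw [h1]
    have h2 : ∀ p ∈ N.primeFactors, Real.log p * ∑ v ∈ V1, ∑ w ∈ W1,
        (((N.factorization p - v.factorization p : ℕ) : ℝ) *
        (if w.factorization p = N.factorization p then μ v * ν w * ω v w else 0))
        ≤ 4 * e * (Real.log p * (p : ℝ) ^ (-(99 / 100) : ℝ)) := by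
      intro p hp
      calc _ ≤ Real.log p * (e * (4 * (p : ℝ) ^ (-(99 / 100) : ℝ))) :=
            mul_le_mul_of_nonneg_left (hA p hp) (Real.log_natCast_nonneg p)
        _ = _ := by ring
    refine (Finset.sum_le_sum h2).trans ?_
    rw [← Finset.mul_sum]
    calc 4 * e * ∑ p ∈ N.primeFactors, Real.log p * (p : ℝ) ^ (-(99 / 100) : ℝ)
        ≤ 4 * e * (4 * Real.log X ^ (3 / 4 : ℝ)) :=
          mul_le_mul_of_nonneg_left hT (by positivity)
      _ = _ := by ring
  have hfin2 := (le_div_iff₀ hlJ).2 hfin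
  refine hfin2.trans (le_of_eq ?_)
  ring

end Vale.Agent.P028E
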