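import Vale.Agent.Lib.P028.E.RegIIa
import Vale.Agent.Lib.P028.E.LeafEx
import Vale.Agent.Lib.P028.E.Typ
import Vale.Agent.Lib.P028.E.TypJ
import Vale.Agent.Lib.P028.E.Num

/-!
# P028 E: regime II, `1 ≤ T = e/t ≤ Z^(c3/400)`

Proof.  Fix an absolute `p1` larger than the thresholds of `leaf_exists`, `typ`, `typJ` and such that
`∑_{p ∈ F} 14 p^(-1) p^(-99/100) ≤ 1/16` for all finite sets `F` of integers `≥ p1` (`g p = 1/p`).
If `WE = 0` there is nothing to prove; else take a leaf `V1, W1, P, a, b, N` for `V = W = S`,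
`μ = ν = wt δ`, `ω = omE`.  Write `m = (∑ wt)²`, `m1 = ms V1 * ms W1`, `R = rab a b ≥ 1`,
`e1 = eW V1 W1`, `c2 = c3/8`, `J = Z^c2`.
Let `G` = pairs `(v,w) ∈ V1 × W1` with `omE ≠ 0`, `Good P N g v w`, `jv N v < J`, `jv N w < J`.
By `typ` and `typJ` (twice: for `v`, and for `w` through `Leaf.swap`; `X = Z²`,
`16 (2 log Z)^(3/4)/(c2 log Z) ≤ 1/8` for `Z ≥ Z0`), `e1 ≤ ∑_G μ_v μ_w omE + (1/8+1/8+1/8) e1`, so
`e1 ≤ 2 ∑_G μ_v μ_w omE ≤ 2 C R^(1/800) E0`, `E0 = ∑_G wt_v wt_w` (`FB_good` with `κ = 1/800`).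
`E0 ≤ m1`.
* Always (`triv_fin`): `E0 ≤ 16 t R^(-1/2) m1^(1/2)`.  `interp`: `WE ≤ C t^(49/50) R^(-1/800) m^(51/100)`.
  If `R > T^24` this is `≤ C t^(49/50) T^(-3/100) m^(51/100)`.
* If `R ≤ T^24`: call `w` good if `T^(1/8) gcd(B, a' jv N w) ≤ B` or `T^(1/8) B δ_w/2 ≤ |Bγ-A|`,
  bad otherwise; `G = Ga ∪ Gb`.  `Ga`: `fin_count` with `G1 = 1` (`triv_cnt`) and
  `G2 = 50 T^(-1/8)` (`good_side`).  `Gb`: `fin_count` with `G1 = 30 T^(-1/8)` (`bad_side`),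
  `G2 = 1`.  The size conditions: `a', b' ≤ R ≤ T^24 ≤ Z^(24 c3/400)`, `jv ≤ Z^(c3/8)`, so
  `a' jv ≤ Z^(c3/2)`; `t = e/T ≥ Z^(-c3/400)`, `δ ≤ Z^(-ε0)`, hence
  `2t/(δ a' jv) ≥ Z^(ε0 - c3/400 - 24 c3/400 - c3/8) ≥ Z^(2 c3)` as `ε0 ≥ 10 c3`.  (For the vertices
  `v`, `w` with no neighbour in `G` the sums are empty.)  So
  `E0 ≤ 16 t ((50)^(1/2) + (30)^(1/2)) T^(-1/16) R^(-1/2) m1^(1/2)`, and `interp` gives
  `WE ≤ C (t T^(-1/16))^(49/50) R^(-1/800) m^(51/100) ≤ C t^(49/50) T^(-3/100) m^(51/100)`.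
In both cases `t^(49/50) = t * t^(-1/50) ≤ t T^(1/50)` (`1/t ≤ T`), and
`m^(51/100) = (∑ wt)^(51/50) ≤ 2 ∑ wt`.  So `WE ≤ C t T^(-1/100) ∑ wt`.
-/

open Finset

namespace Vale.Agent.P028E

theorem rg_tail (M : ℕ) : ∃ p1 : ℕ, M ≤ p1 ∧ ∀ F : Finset ℕ, (∀ p ∈ F, p.Prime ∧ p1 ≤ p) →
      ∑ p ∈ F, 14 * (1 / (p : ℝ)) * (p : ℝ) ^ (-(99 / 100) : ℝ) ≤ 1 / 16 := by
  have hs : Summable (fun n : ℕ => 14 * (1 / (n : ℝ)) * (n : ℝ) ^ (-(99 / 100) : ℝ)) := by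
    have h1 : Summable (fun n : ℕ => (14 : ℝ) * (n : ℝ) ^ (-(199 / 100) : ℝ)) :=
      (Real.summable_nat_rpow.mpr (by norm_num)).mul_left 14
    refine h1.congr fun n => ?_
    rcases Nat.eq_zero_or_pos n with h | h
    · subst h
      simp
    · have hn : (0 : ℝ) < n := by exact_mod_cast h
      rw [mul_assoc, one_div, ← Real.rpow_neg_one, ← Real.rpow_add hn]
      norm_num
  have hv := (summable_iff_vanishing_norm.mp hs) (1 / 16) (by norm_num)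
  obtain ⟨s, hs2⟩ := hv
  refine ⟨max M (s.sup id + 1), le_max_left _ _, fun F hF => ?_⟩
  have hd : Disjoint F s := by
    rw [Finset.disjoint_left]
    intro p hp hps
    have h1 : p ≤ s.sup id := Finset.le_sup (f := id) hps
    have h2 := (hF p hp).2
    have h3 := le_max_right M (s.sup id + 1)
    omega
  have := hs2 F hd
  exact (le_abs_self _).trans (by rw [← Real.norm_eq_abs]; exact this.le)

theorem rg_Z0 (c3 : ℝ) (hc3 : 0 < c3) : ∃ Z0 : ℝ, 3 ≤ Z0 ∧ ∀ Z : ℝ, Z0 ≤ Z →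
    3 ≤ Z ^ 2 ∧ 1 < Z ^ (c3 / 8) ∧
    16 * Real.log (Z ^ 2) ^ (3 / 4 : ℝ) / Real.log (Z ^ (c3 / 8)) ≤ 1 / 8 := by
  set K : ℝ := (2048 / c3) ^ 4 + 2 with hK
  have hK2 : 2 ≤ K := by
    have : 0 ≤ (2048 / c3) ^ 4 := by positivity
    linarith
  refine ⟨Real.exp K, ?_, fun Z hZ => ?_⟩
  · have := Real.add_one_le_exp K
    linarith
  · have hZ3 : 3 ≤ Z := by
      have := Real.add_one_le_exp K
      linarith
    have hZ0 : 0 < Z := by linarith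
    have hL : K ≤ Real.log Z := by
      rw [Real.le_log_iff_exp_le hZ0]
      exact hZ
    have hL0 : 0 < Real.log Z := by linarith
    refine ⟨by nlinarith, Real.one_lt_rpow (by linarith) (by positivity), ?_⟩
    rw [Real.log_pow, Real.log_rpow hZ0]
    set L := Real.log Z with hLdef
    have hden : 0 < c3 / 8 * L := by positivity
    rw [div_le_iff₀ hden]
    -- 16 (2L)^(3/4) ≤ c3 L / 64
    have h1 : ((2 : ℕ) : ℝ) * L = 2 * L := by norm_num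
    rw [h1]
    have h2 : (2 * L) ^ (3 / 4 : ℝ) ≤ 2 * L ^ (3 / 4 : ℝ) := by
      rw [Real.mul_rpow (by norm_num) hL0.le]
      refine mul_le_mul_of_nonneg_right ?_ (by positivity)
      calc (2 : ℝ) ^ (3 / 4 : ℝ) ≤ 2 ^ (1 : ℝ) :=
            Real.rpow_le_rpow_of_exponent_le (by norm_num) (by norm_num)
        _ = 2 := Real.rpow_one 2
    have h3 : L = L ^ (3 / 4 : ℝ) * L ^ (1 / 4 : ℝ) := by
      rw [← Real.rpow_add hL0]
      norm_num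
    have h4 : 2048 / c3 ≤ L ^ (1 / 4 : ℝ) := by
      have h5 : (2048 / c3) ^ 4 ≤ L := by linarith
      have h6 : ((2048 / c3) ^ 4) ^ (1 / 4 : ℝ) ≤ L ^ (1 / 4 : ℝ) :=
        Real.rpow_le_rpow (by positivity) h5 (by norm_num)
      have h7 : ((2048 / c3) ^ 4) ^ (1 / 4 : ℝ) = 2048 / c3 := by
        rw [← Real.rpow_natCast, ← Real.rpow_mul (by positivity)]
        norm_num
      rwa [h7] at h6
    have h8 : 2048 ≤ c3 * L ^ (1 / 4 : ℝ) := by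
      rw [div_le_iff₀ hc3] at h4
      linarith
    have h9 : 0 ≤ L ^ (3 / 4 : ℝ) := by positivity
    have h10 : 1 / 8 * (c3 / 8 * L) = L ^ (3 / 4 : ℝ) * (c3 * L ^ (1 / 4 : ℝ)) / 64 := by
      conv_lhs => rw [h3]
      ring
    rw [h10]
    have h11 : L ^ (3 / 4 : ℝ) * 2048 ≤ L ^ (3 / 4 : ℝ) * (c3 * L ^ (1 / 4 : ℝ)) :=
      mul_le_mul_of_nonneg_left h8 h9
    linarith

theorem rg_FB_nonneg (B n : ℕ) : 0 ≤ FB B n := by
  unfold FB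
  refine Finset.prod_nonneg fun p hp => ?_
  rw [inv_nonneg]
  have h1 := Nat.prime_of_mem_primeFactors (Finset.mem_filter.mp hp).1
  have h2 : (1 : ℝ) ≤ p := by exact_mod_cast h1.one_le
  have h3 : 1 / (p : ℝ) ≤ 1 := by
    rw [div_le_one (by linarith)]
    exact h2
  linarith

theorem rg_omE_nonneg (γ : ℝ) (A : ℤ) (B : ℕ) (δ : ℕ → ℝ) (t : ℝ) (e q r : ℕ) :
    0 ≤ omE γ A B δ t e q r := by
  unfold omE
  split_ifs
  · exact rg_FB_nonneg _ _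
  · exact le_refl _

/-- final numerical step -/
theorem rg_final (W K t T m : ℝ) (hK : 0 ≤ K) (ht : 0 < t) (hT : 1 ≤ T) (htT : 1 / t ≤ T)
    (hm : 0 ≤ m) (hm2 : m ≤ 2)
    (h : W ≤ K * t ^ (49 / 50 : ℝ) * T ^ (-(3 / 100) : ℝ) * (m * m) ^ (51 / 100 : ℝ)) :
    W ≤ 2 * K * t * T ^ (-(1 / 100) : ℝ) * m := by
  have hT0 : 0 < T := by linarith
  have h1 : t ^ (49 / 50 : ℝ) ≤ t * T ^ (1 / 50 : ℝ) := by
    have e1 : t ^ (49 / 50 : ℝ) = t * (1 / t) ^ (1 / 50 : ℝ) := by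
      rw [one_div, Real.inv_rpow ht.le, ← Real.rpow_neg ht.le]
      nth_rewrite 2 [← Real.rpow_one t]
      rw [← Real.rpow_add ht]
      norm_num
    rw [e1]
    exact mul_le_mul_of_nonneg_left (Real.rpow_le_rpow (by positivity) htT (by norm_num)) ht.le
  have h2 : (m * m) ^ (51 / 100 : ℝ) ≤ 2 * m := by
    rcases eq_or_lt_of_le hm with h0 | h0
    · rw [← h0]
      simp
    · rw [Real.mul_rpow hm hm, ← Real.rpow_add h0]
      have e2 : (51 / 100 + 51 / 100 : ℝ) = 1 / 50 + 1 := by norm_num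
      rw [e2, Real.rpow_add h0, Real.rpow_one]
      refine mul_le_mul_of_nonneg_right ?_ hm
      calc m ^ (1 / 50 : ℝ) ≤ 2 ^ (1 / 50 : ℝ) := Real.rpow_le_rpow hm hm2 (by norm_num)
        _ ≤ 2 ^ (1 : ℝ) := Real.rpow_le_rpow_of_exponent_le (by norm_num) (by norm_num)
        _ = 2 := Real.rpow_one 2
  have h3 : T ^ (1 / 50 : ℝ) * T ^ (-(3 / 100) : ℝ) = T ^ (-(1 / 100) : ℝ) := by
    rw [← Real.rpow_add hT0]
    norm_num
  calc W ≤ K * t ^ (49 / 50 : ℝ) * T ^ (-(3 / 100) : ℝ) * (m * m) ^ (51 / 100 : ℝ) := h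
    _ ≤ K * (t * T ^ (1 / 50 : ℝ)) * T ^ (-(3 / 100) : ℝ) * (2 * m) := by
        have hp : 0 ≤ T ^ (-(3 / 100) : ℝ) := by positivity
        gcongr
    _ = 2 * K * t * (T ^ (1 / 50 : ℝ) * T ^ (-(3 / 100) : ℝ)) * m := by ring
    _ = _ := by rw [h3]

open Classical in
/-- the good edges -/
noncomputable def rgG (V1 W1 P : Finset ℕ) (N : ℕ) (g : ℕ → ℝ) (J : ℝ) (ω : ℕ → ℕ → ℝ) :
    Finset (ℕ × ℕ) :=
  (V1 ×ˢ W1).filter (fun z => ω z.1 z.2 ≠ 0 ∧ Good P N g z.1 z.2 ∧ (jv N z.1 : ℝ) < J ∧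
    (jv N z.2 : ℝ) < J)

open Classical in
theorem rg_e1 (V1 W1 P : Finset ℕ) (N : ℕ) (g : ℕ → ℝ) (J : ℝ) (μ ν : ℕ → ℝ) (ω : ℕ → ℕ → ℝ)
    (hμ : ∀ v ∈ V1, 0 ≤ μ v) (hν : ∀ w ∈ W1, 0 ≤ ν w) (hω : ∀ v w, 0 ≤ ω v w)
    (h1 : ∑ v ∈ V1, ∑ w ∈ W1, (if Good P N g v w then 0 else μ v * ν w * ω v w) ≤
      1 / 8 * eW V1 W1 μ ν ω)
    (h2 : ∑ v ∈ V1, ∑ w ∈ W1, (if NoCom P N v w ∧ J ≤ (jv N v : ℝ) then μ v * ν w * ω v w else 0) ≤
      1 / 8 * eW V1 W1 μ ν ω)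
    (h3 : ∑ v ∈ V1, ∑ w ∈ W1, (if NoCom P N v w ∧ J ≤ (jv N w : ℝ) then μ v * ν w * ω v w else 0) ≤
      1 / 8 * eW V1 W1 μ ν ω) :
    eW V1 W1 μ ν ω ≤ 2 * ∑ z ∈ rgG V1 W1 P N g J ω, μ z.1 * ν z.2 * ω z.1 z.2 := by
  have h4 : ∑ z ∈ rgG V1 W1 P N g J ω, μ z.1 * ν z.2 * ω z.1 z.2 =
      ∑ v ∈ V1, ∑ w ∈ W1, (if (ω v w ≠ 0 ∧ Good P N g v w ∧ (jv N v : ℝ) < J ∧
        (jv N w : ℝ) < J) then μ v * ν w * ω v w else 0) := by
    unfold rgG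
    rw [Finset.sum_filter, Finset.sum_product]
  have h5 : eW V1 W1 μ ν ω ≤
      ∑ v ∈ V1, ∑ w ∈ W1, (if (ω v w ≠ 0 ∧ Good P N g v w ∧ (jv N v : ℝ) < J ∧
        (jv N w : ℝ) < J) then μ v * ν w * ω v w else 0) +
      ∑ v ∈ V1, ∑ w ∈ W1, (if Good P N g v w then 0 else μ v * ν w * ω v w) +
      ∑ v ∈ V1, ∑ w ∈ W1, (if NoCom P N v w ∧ J ≤ (jv N v : ℝ) then μ v * ν w * ω v w else 0) +
      ∑ v ∈ V1, ∑ w ∈ W1, (if NoCom P N v w ∧ J ≤ (jv N w : ℝ) then μ v * ν w * ω v w else 0) := by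
    unfold eW
    rw [← Finset.sum_add_distrib, ← Finset.sum_add_distrib, ← Finset.sum_add_distrib]
    refine Finset.sum_le_sum fun v hv => ?_
    rw [← Finset.sum_add_distrib, ← Finset.sum_add_distrib, ← Finset.sum_add_distrib]
    refine Finset.sum_le_sum fun w hw => ?_
    have hnn : 0 ≤ μ v * ν w * ω v w := mul_nonneg (mul_nonneg (hμ v hv) (hν w hw)) (hω v w)
    have nn : ∀ (p : Prop) [Decidable p], 0 ≤ (if p then μ v * ν w * ω v w else 0) := by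
      intro p _
      split_ifs
      · exact hnn
      · exact le_refl _
    by_cases hG : Good P N g v w
    · rw [if_pos hG]
      by_cases hJ1 : J ≤ (jv N v : ℝ)
      · rw [if_pos (⟨hG.1, hJ1⟩ : NoCom P N v w ∧ J ≤ (jv N v : ℝ))]
        have a1 := nn (ω v w ≠ 0 ∧ Good P N g v w ∧ (jv N v : ℝ) < J ∧ (jv N w : ℝ) < J)
        have a2 := nn (NoCom P N v w ∧ J ≤ (jv N w : ℝ))
        linarith
      · by_cases hJ2 : J ≤ (jv N w : ℝ)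
        · rw [if_pos (⟨hG.1, hJ2⟩ : NoCom P N v w ∧ J ≤ (jv N w : ℝ))]
          have a1 := nn (ω v w ≠ 0 ∧ Good P N g v w ∧ (jv N v : ℝ) < J ∧ (jv N w : ℝ) < J)
          have a2 := nn (NoCom P N v w ∧ J ≤ (jv N v : ℝ))
          linarith
        · have a2 := nn (NoCom P N v w ∧ J ≤ (jv N v : ℝ))
          have a3 := nn (NoCom P N v w ∧ J ≤ (jv N w : ℝ))
          by_cases hz : ω v w = 0
          · have a1 := nn (ω v w ≠ 0 ∧ Good P N g v w ∧ (jv N v : ℝ) < J ∧ (jv N w : ℝ) < J)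
            have e0 : μ v * ν w * ω v w = 0 := by rw [hz, mul_zero]
            linarith
          · rw [if_pos (⟨hz, hG, not_le.1 hJ1, not_le.1 hJ2⟩ : ω v w ≠ 0 ∧ Good P N g v w ∧
              (jv N v : ℝ) < J ∧ (jv N w : ℝ) < J)]
            linarith
    · rw [if_neg hG]
      have a1 := nn (ω v w ≠ 0 ∧ Good P N g v w ∧ (jv N v : ℝ) < J ∧ (jv N w : ℝ) < J)
      have a2 := nn (NoCom P N v w ∧ J ≤ (jv N v : ℝ))
      have a3 := nn (NoCom P N v w ∧ J ≤ (jv N w : ℝ))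
      linarith
  have h6 : 0 ≤ eW V1 W1 μ ν ω := by
    unfold eW
    exact Finset.sum_nonneg fun v hv => Finset.sum_nonneg fun w hw =>
      mul_nonneg (mul_nonneg (hμ v hv) (hν w hw)) (hω v w)
  rw [h4]
  linarith

theorem rg_jv_pos {N : ℕ} (hN : 0 < N) (v : ℕ) : 0 < jv N v := by
  unfold jv
  exact Nat.div_pos (Nat.le_of_dvd hN (Nat.gcd_dvd_right v N)) (Nat.gcd_pos_of_pos_right v hN)

theorem rg_size {ε0 c3 Z : ℝ} (hε : 0 < ε0) (hc3 : 0 < c3) (hc : c3 ≤ ε0 / 10) (hZ : 1 ≤ Z)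
    {γ : ℝ} {A : ℤ} {B : ℕ} {δ : ℕ → ℝ} {S : Finset ℕ} (hC : Cls ε0 c3 Z γ A B δ S)
    {t : ℝ} {e : ℕ} (ht : 0 < t) (he : 0 < e) (hT1 : 1 ≤ (e : ℝ) / t)
    (hT2 : (e : ℝ) / t ≤ Z ^ (c3 / 400)) {k' j x : ℕ} (hk : 0 < k') (hj : 0 < j)
    (hkT : (k' : ℝ) ≤ ((e : ℝ) / t) ^ 24) (hjZ : (j : ℝ) < Z ^ (c3 / 8)) (hx : x ∈ S) :
    ((k' * j : ℕ) : ℝ) ≤ Z ^ (c3 / 2) ∧
      Z ^ (2 * c3) ≤ 2 * t / (δ x * ((k' * j : ℕ) : ℝ)) := by
  have hZ0 : 0 < Z := by linarith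
  have hT0 : 0 < (e : ℝ) / t := by linarith
  have h1 : ((k' * j : ℕ) : ℝ) ≤ Z ^ (c3 / 2) := by
    push_cast
    calc (k' : ℝ) * j ≤ (Z ^ (c3 / 400)) ^ 24 * Z ^ (c3 / 8) := by
          have : ((e : ℝ) / t) ^ 24 ≤ (Z ^ (c3 / 400)) ^ 24 :=
            pow_le_pow_left₀ hT0.le hT2 24
          have h0 : (0 : ℝ) ≤ k' := Nat.cast_nonneg _
          exact mul_le_mul (hkT.trans this) hjZ.le (Nat.cast_nonneg _) (by positivity)
      _ = Z ^ (c3 / 400 * 24 + c3 / 8) := by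
          rw [← Real.rpow_natCast, ← Real.rpow_mul hZ0.le, ← Real.rpow_add hZ0]
          norm_num
      _ ≤ Z ^ (c3 / 2) := Real.rpow_le_rpow_of_exponent_le hZ (by linarith)
  refine ⟨h1, ?_⟩
  have hxpos : 0 < x := hC.Spos x hx
  have hxp : (0 : ℝ) < x := by exact_mod_cast hxpos
  have hδ0 : 0 < δ x := lt_of_lt_of_le (by positivity) (hC.dlow x hx)
  have hkj : (0 : ℝ) < ((k' * j : ℕ) : ℝ) := by exact_mod_cast Nat.mul_pos hk hj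
  have hδ1 : δ x ≤ Z ^ (-ε0) :=
    (hC.dupp x hx).trans (Real.rpow_le_rpow_of_nonpos hZ0 (hC.Slow x hx) (by linarith))
  have ht1 : Z ^ (-(c3 / 400)) ≤ t := by
    have h2 : 1 / t ≤ Z ^ (c3 / 400) := by
      refine le_trans ?_ hT2
      have : (1 : ℝ) ≤ e := by exact_mod_cast he
      gcongr
    rw [div_le_iff₀ ht] at h2
    have h3 : 0 < Z ^ (c3 / 400) := by positivity
    rw [Real.rpow_neg hZ0.le, inv_le_iff_one_le_mul₀ h3]
    linarith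
  rw [le_div_iff₀ (mul_pos hδ0 hkj)]
  calc Z ^ (2 * c3) * (δ x * ((k' * j : ℕ) : ℝ))
      ≤ Z ^ (2 * c3) * (Z ^ (-ε0) * Z ^ (c3 / 2)) := by
        gcongr
    _ = Z ^ (2 * c3 + (-ε0 + c3 / 2)) := by
        rw [← Real.rpow_add hZ0, ← Real.rpow_add hZ0]
    _ ≤ Z ^ (-(c3 / 400)) := Real.rpow_le_rpow_of_exponent_le hZ (by linarith)
    _ ≤ t := ht1
    _ ≤ 2 * t := by linarith

theorem rg_count {ε0 c3 Z : ℝ} (hε : 0 < ε0) (hc3 : 0 < c3) (hc : c3 ≤ ε0 / 10)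
    (hZ : 1 ≤ Z) {γ : ℝ} {A : ℤ} {B : ℕ} {δ : ℕ → ℝ} {S : Finset ℕ} (hC : Cls ε0 c3 Z γ A B δ S)
    {t : ℝ} {e : ℕ} (ht : 0 < t) (he : 0 < e) (heB : Nat.Coprime e B) (hT1 : 1 ≤ (e : ℝ) / t)
    (hT2 : (e : ℝ) / t ≤ Z ^ (c3 / 400)) {P : Finset ℕ} (hP : ∀ p ∈ P, p.Prime) {N a b : ℕ}
    (ha0 : 0 < a) (hb0 : 0 < b) (hN : 0 < N) (hNP : ∀ p ∈ P, ¬ p ∣ N) (V1 W1 : Finset ℕ)
    (hV : ∀ v ∈ V1, v ∈ S ∧ partP P v = a) (hW : ∀ w ∈ W1, w ∈ S ∧ partP P w = b)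
    (g : ℕ → ℝ) (hg : ∀ p, 0 ≤ g p) (hg1 : ∀ p : ℕ, p.Prime → 1 / (p : ℝ) ≤ g p)
    (hR : (rab a b : ℝ) ≤ ((e : ℝ) / t) ^ 24) (G : Finset (ℕ × ℕ)) (hG : G ⊆ V1 ×ˢ W1)
    (hGg : ∀ z ∈ G, Good P N g z.1 z.2 ∧ Edge γ A B δ t e z.1 z.2 ∧ qp z.2 z.1 ≤ qp z.1 z.2 ∧
      (jv N z.1 : ℝ) < Z ^ (c3 / 8) ∧ (jv N z.2 : ℝ) < Z ^ (c3 / 8)) :
    ∑ z ∈ G, wt δ z.1 * wt δ z.2 ≤ 16 * (t * 14 * ((e : ℝ) / t) ^ (-(1 / 16) : ℝ)) *
      (rab a b : ℝ) ^ (-(1 / 2) : ℝ) * (ms V1 (wt δ) * ms W1 (wt δ)) ^ (1 / 2 : ℝ) := by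
  classical
  set T : ℝ := (e : ℝ) / t with hTdef
  have hT0 : 0 < T := by linarith
  have hZ0 : 0 < Z := by linarith
  have hTZ : T ≤ Z ^ c3 := hT2.trans (Real.rpow_le_rpow_of_exponent_le hZ (by linarith))
  have hVp : ∀ v ∈ V1, 0 < v := fun v hv => hC.Spos v (hV v hv).1
  have hWp : ∀ w ∈ W1, 0 < w := fun w hw => hC.Spos w (hW w hw).1
  have hδS : ∀ q ∈ S, 0 < δ q := fun q hq => by
    have h1 : (0 : ℝ) < q := by exact_mod_cast hC.Spos q hq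
    exact lt_of_lt_of_le (by positivity) (hC.dlow q hq)
  have hδV : ∀ v ∈ V1, 0 < δ v := fun v hv => hδS v (hV v hv).1
  have hδW : ∀ w ∈ W1, 0 < δ w := fun w hw => hδS w (hW w hw).1
  have hg0 : 0 < Nat.gcd a b := Nat.gcd_pos_of_pos_left b ha0
  have ha' : 0 < a / Nat.gcd a b := Nat.div_pos (Nat.le_of_dvd ha0 (Nat.gcd_dvd_left a b)) hg0
  have hb' : 0 < b / Nat.gcd a b := Nat.div_pos (Nat.le_of_dvd hb0 (Nat.gcd_dvd_right a b)) hg0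
  have haR : ((a / Nat.gcd a b : ℕ) : ℝ) ≤ T ^ 24 := by
    refine le_trans ?_ hR
    unfold rab
    exact_mod_cast Nat.le_mul_of_pos_right _ hb'
  have hbR : ((b / Nat.gcd a b : ℕ) : ℝ) ≤ T ^ 24 := by
    refine le_trans ?_ hR
    unfold rab
    exact_mod_cast Nat.le_mul_of_pos_left _ ha'
  have hσ : 0 ≤ ∑ k ∈ N.divisors, 1 / (k : ℝ) := Finset.sum_nonneg fun k _ => by positivity
  set gd : ℕ → Prop := fun w =>
    T ^ (1 / 8 : ℝ) * (Nat.gcd B (a / Nat.gcd a b * jv N w) : ℝ) ≤ B ∨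
      T ^ (1 / 8 : ℝ) * B * δ w / 2 ≤ |(B : ℝ) * γ - A| with hgd
  have hsplit := Finset.sum_filter_add_sum_filter_not G (fun z => gd z.2)
    (fun z => wt δ z.1 * wt δ z.2)
  rw [← hsplit]
  have h34 : ∀ z ∈ G, (Nat.totient z.1 : ℝ) / z.1 * ∑ k ∈ N.divisors, 1 / (k : ℝ) ≤ 8 ∧
      (Nat.totient z.2 : ℝ) / z.2 * ∑ k ∈ N.divisors, 1 / (k : ℝ) ≤ 8 := by
    intro z hz
    have hz2 := Finset.mem_product.mp (hG hz)
    have hgood := (hGg z hz).1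
    exact ⟨phi_sigma hP (hVp _ hz2.1) (hWp _ hz2.2) hN hNP g hg hg1 hgood,
      phi_sigma hP (hWp _ hz2.2) (hVp _ hz2.1) hN hNP g hg hg1 hgood.swap⟩
  -- trivial counts
  have trivV : ∀ v ∈ V1, ∀ Γ : Finset ℕ, (∀ w ∈ Γ, w ∈ W1 ∧ (v, w) ∈ G) →
      ∑ w ∈ Γ, (jv N v : ℝ) / (jv N w : ℝ) ≤
      1 * (∑ k ∈ N.divisors, 1 / (k : ℝ)) * (2 * t / (δ v * ((b / Nat.gcd a b : ℕ) : ℝ))) := by
    intro v hv Γ hΓ
    refine triv_cnt hP (hVp v hv) ha0 hb0 hN hNP (hV v hv).2 Γ δ (hδV v hv) t ht ?_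
    intro w hw
    obtain ⟨hw1, hw2⟩ := hΓ w hw
    have h := hGg _ hw2
    exact ⟨hWp w hw1, (hW w hw1).2, h.1.1, h.2.1.2.1⟩
  have trivW : ∀ w ∈ W1, ∀ Γ : Finset ℕ, (∀ v ∈ Γ, v ∈ V1 ∧ (v, w) ∈ G) →
      ∑ v ∈ Γ, (jv N w : ℝ) / (jv N v : ℝ) ≤
      1 * (∑ k ∈ N.divisors, 1 / (k : ℝ)) * (2 * t / (δ w * ((a / Nat.gcd a b : ℕ) : ℝ))) := by
    intro w hw Γ hΓ
    rw [Nat.gcd_comm a b]
    refine triv_cnt hP (hWp w hw) hb0 ha0 hN hNP (hW w hw).2 Γ δ (hδW w hw) t ht ?_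
    intro v hv
    obtain ⟨hv1, hv2⟩ := hΓ v hv
    have h := hGg _ hv2
    refine ⟨hVp v hv1, (hV v hv1).2, h.1.1.swap, ?_⟩
    rw [MM_comm]
    exact h.2.1.2.1
  have hpow : ∀ c : ℝ, 0 ≤ c → (c * T ^ (-(1 / 8) : ℝ)) ^ (1 / 2 : ℝ) =
      c ^ (1 / 2 : ℝ) * T ^ (-(1 / 16) : ℝ) := by
    intro c hc0
    rw [Real.mul_rpow hc0 (by positivity), ← Real.rpow_mul hT0.le]
    norm_num
  -- good part
  have hA : ∑ z ∈ G.filter (fun z => gd z.2), wt δ z.1 * wt δ z.2 ≤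
      16 * t * (1 * (50 * T ^ (-(1 / 8) : ℝ))) ^ (1 / 2 : ℝ) *
      (rab a b : ℝ) ^ (-(1 / 2) : ℝ) * (ms V1 (wt δ) * ms W1 (wt δ)) ^ (1 / 2 : ℝ) := by
    refine fin_count N hN V1 W1 _ ((Finset.filter_subset _ _).trans hG) δ hδV hδW hVp hWp t 1
      (50 * T ^ (-(1 / 8) : ℝ)) ht zero_le_one (by positivity) a b ha0 hb0 ?_ ?_ ?_ ?_
    · intro v hv
      refine trivV v hv _ ?_
      intro w hw
      rw [Finset.mem_filter, Finset.mem_filter] at hw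
      exact ⟨hw.1, hw.2.1⟩
    · intro w hw
      rcases (V1.filter (fun v => (v, w) ∈ G.filter (fun z => gd z.2))).eq_empty_or_nonempty
        with h0 | ⟨v0, hv0⟩
      · rw [h0, Finset.sum_empty]
        have := hδW w hw
        positivity
      · rw [Finset.mem_filter, Finset.mem_filter] at hv0
        have hz := hGg _ hv0.2.1
        have hsz := rg_size hε hc3 hc hZ hC ht he hT1 hT2 ha' (rg_jv_pos hN w) haR hz.2.2.2.2
          (hW w hw).1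
        refine good_side c3 Z hc3 hZ γ A B e t hC.Bpos hC.cop he heB ht hC.BZ hC.gZ hT1 hTZ hP
          (hWp w hw) ha0 hb0 hN hNP (hW w hw).2 δ (hδW w hw) hsz.1 hsz.2 hv0.2.2 _ ?_
        intro v hv
        rw [Finset.mem_filter, Finset.mem_filter] at hv
        have h := hGg _ hv.2.1
        exact ⟨hVp v hv.1, (hV v hv.1).2, h.1.1, h.2.1, h.2.2.1⟩
    · intro z hz
      exact (h34 z (Finset.mem_filter.mp hz).1).1
    · intro z hz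
      exact (h34 z (Finset.mem_filter.mp hz).1).2
  -- bad part
  have hB : ∑ z ∈ G.filter (fun z => ¬ gd z.2), wt δ z.1 * wt δ z.2 ≤
      16 * t * ((30 * T ^ (-(1 / 8) : ℝ)) * 1) ^ (1 / 2 : ℝ) *
      (rab a b : ℝ) ^ (-(1 / 2) : ℝ) * (ms V1 (wt δ) * ms W1 (wt δ)) ^ (1 / 2 : ℝ) := by
    refine fin_count N hN V1 W1 _ ((Finset.filter_subset _ _).trans hG) δ hδV hδW hVp hWp t
      (30 * T ^ (-(1 / 8) : ℝ)) 1 ht (by positivity) zero_le_one a b ha0 hb0 ?_ ?_ ?_ ?_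
    · intro v hv
      rcases (W1.filter (fun w => (v, w) ∈ G.filter (fun z => ¬ gd z.2))).eq_empty_or_nonempty
        with h0 | ⟨w0, hw0⟩
      · rw [h0, Finset.sum_empty]
        have := hδV v hv
        positivity
      · rw [Finset.mem_filter, Finset.mem_filter] at hw0
        have hz := hGg _ hw0.2.1
        have hsz := rg_size hε hc3 hc hZ hC ht he hT1 hT2 hb' (rg_jv_pos hN v) hbR hz.2.2.2.1
          (hV v hv).1
        refine bad_side c3 Z hc3 hZ γ A B e t hC.Bpos hC.cop he heB ht hC.BZ hT1 hTZ hP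
          (hVp v hv) ha0 hb0 hN hNP (hV v hv).2 δ (hδV v hv) hsz.2 _ ?_
        intro w hw
        rw [Finset.mem_filter, Finset.mem_filter] at hw
        have h := hGg _ hw.2.1
        have hng : ¬ gd w := hw.2.2
        rw [hgd] at hng
        simp only [not_or, not_le] at hng
        exact ⟨hWp w hw.1, hδW w hw.1, (hW w hw.1).2, h.1.1, h.2.1, h.2.2.1, hng.1, hng.2⟩
    · intro w hw
      refine trivW w hw _ ?_
      intro v hv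
      rw [Finset.mem_filter, Finset.mem_filter] at hv
      exact ⟨hv.1, hv.2.1⟩
    · intro z hz
      exact (h34 z (Finset.mem_filter.mp hz).1).1
    · intro z hz
      exact (h34 z (Finset.mem_filter.mp hz).1).2
  rw [one_mul, hpow 50 (by norm_num)] at hA
  rw [mul_one, hpow 30 (by norm_num)] at hB
  have h50 : (50 : ℝ) ^ (1 / 2 : ℝ) ≤ 8 := by
    rw [← Real.sqrt_eq_rpow]
    rw [Real.sqrt_le_left (by norm_num)]
    norm_num
  have h30 : (30 : ℝ) ^ (1 / 2 : ℝ) ≤ 6 := by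
    rw [← Real.sqrt_eq_rpow]
    rw [Real.sqrt_le_left (by norm_num)]
    norm_num
  have hM0 : 0 ≤ (rab a b : ℝ) ^ (-(1 / 2) : ℝ) * (ms V1 (wt δ) * ms W1 (wt δ)) ^ (1 / 2 : ℝ) := by
    refine mul_nonneg (Real.rpow_nonneg (Nat.cast_nonneg _) _) (Real.rpow_nonneg ?_ _)
    refine mul_nonneg (Finset.sum_nonneg fun v hv => ?_) (Finset.sum_nonneg fun v hv => ?_)
    · have := hδV v hv
      unfold wt
      positivity
    · have := hδW v hv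
      unfold wt
      positivity
  set M := (rab a b : ℝ) ^ (-(1 / 2) : ℝ) * (ms V1 (wt δ) * ms W1 (wt δ)) ^ (1 / 2 : ℝ) with hM
  have hTp : 0 ≤ t * T ^ (-(1 / 16) : ℝ) := by positivity
  calc _ ≤ 16 * t * ((50 : ℝ) ^ (1 / 2 : ℝ) * T ^ (-(1 / 16) : ℝ)) * M +
        16 * t * ((30 : ℝ) ^ (1 / 2 : ℝ) * T ^ (-(1 / 16) : ℝ)) * M := by
        rw [hM]
        refine le_trans (add_le_add hA hB) (le_of_eq ?_)
        ring
    _ = 16 * ((t * T ^ (-(1 / 16) : ℝ)) * M) * ((50 : ℝ) ^ (1 / 2 : ℝ) + (30 : ℝ) ^ (1 / 2 : ℝ)) := by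
        ring
    _ ≤ 16 * ((t * T ^ (-(1 / 16) : ℝ)) * M) * 14 := by
        have : 0 ≤ 16 * ((t * T ^ (-(1 / 16) : ℝ)) * M) := by positivity
        exact mul_le_mul_of_nonneg_left (by linarith) this
    _ = _ := by
        rw [hM]
        ring

theorem rg_H1 (t T : ℝ) (ht : 0 < t) (hT : 1 ≤ T) :
    (16 * (t * 14 * T ^ (-(1 / 16) : ℝ))) ^ (49 / 50 : ℝ) ≤
      224 * t ^ (49 / 50 : ℝ) * T ^ (-(3 / 100) : ℝ) := by
  have hT0 : 0 < T := by linarith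
  have e1 : 16 * (t * 14 * T ^ (-(1 / 16) : ℝ)) = 224 * t * T ^ (-(1 / 16) : ℝ) := by ring
  rw [e1, Real.mul_rpow (by positivity) (by positivity), Real.mul_rpow (by norm_num) ht.le,
    ← Real.rpow_mul hT0.le]
  have h1 : (224 : ℝ) ^ (49 / 50 : ℝ) ≤ 224 := by
    calc (224 : ℝ) ^ (49 / 50 : ℝ) ≤ 224 ^ (1 : ℝ) :=
          Real.rpow_le_rpow_of_exponent_le (by norm_num) (by norm_num)
      _ = 224 := Real.rpow_one _
  have h2 : T ^ (-(1 / 16) * (49 / 50) : ℝ) ≤ T ^ (-(3 / 100) : ℝ) :=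
    Real.rpow_le_rpow_of_exponent_le hT (by norm_num)
  have h3 : 0 ≤ t ^ (49 / 50 : ℝ) := by positivity
  have h4 : 0 ≤ T ^ (-(1 / 16) * (49 / 50) : ℝ) := by positivity
  gcongr

theorem rg_H2 (t : ℝ) (ht : 0 < t) :
    (16 * t) ^ (49 / 50 : ℝ) ≤ 224 * t ^ (49 / 50 : ℝ) := by
  rw [Real.mul_rpow (by norm_num) ht.le]
  have h1 : (16 : ℝ) ^ (49 / 50 : ℝ) ≤ 224 := by
    calc (16 : ℝ) ^ (49 / 50 : ℝ) ≤ 16 ^ (1 : ℝ) :=
          Real.rpow_le_rpow_of_exponent_le (by norm_num) (by norm_num)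
      _ = 16 := Real.rpow_one _
      _ ≤ 224 := by norm_num
  gcongr

theorem regII (ε0 c3 : ℝ) (hε : 0 < ε0) (hε1 : ε0 < 1) (hc3 : 0 < c3) (hc : c3 ≤ ε0 / 10) :
    ∃ C Z0 : ℝ, 1 ≤ C ∧ 2 ≤ Z0 ∧ ∀ (Z γ : ℝ) (A : ℤ) (B : ℕ) (δ : ℕ → ℝ) (S : Finset ℕ),
      Z0 ≤ Z → Cls ε0 c3 Z γ A B δ S → ∀ (t : ℝ) (e : ℕ), 0 < t → 0 < e → Nat.Coprime e B →
        1 ≤ (e : ℝ) / t → (e : ℝ) / t ≤ Z ^ (c3 / 400) →
        WE γ A B δ S t e ≤ C * t * ((e : ℝ) / t) ^ (-(1 / 100) : ℝ) * ∑ q ∈ S, wt δ q := by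
  classical
  obtain ⟨pl, hpl⟩ := leaf_exists
  obtain ⟨pt, hpt⟩ := typ
  obtain ⟨pj, hpj⟩ := typJ
  obtain ⟨p1, hp1, htail⟩ := rg_tail (max pl (max pt pj))
  obtain ⟨CF, hCF1, hCF⟩ := FB_good (1 / 800) (by norm_num)
  obtain ⟨Z0, hZ03, hZ0⟩ := rg_Z0 c3 hc3
  have hpl1 : pl ≤ p1 := (le_max_left _ _).trans hp1
  have hpt1 : pt ≤ p1 := ((le_max_left _ _).trans (le_max_right _ _)).trans hp1
  have hpj1 : pj ≤ p1 := ((le_max_right _ _).trans (le_max_right _ _)).trans hp1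
  have h7 : (1 : ℝ) ≤ 7 ^ p1 := one_le_pow₀ (by norm_num)
  have h7CF : (1 : ℝ) ≤ 7 ^ p1 * (2 * CF) := by nlinarith
  set KK : ℝ := 7 ^ p1 * (2 * CF) * 224 with hKK
  have hKK1 : 1 ≤ KK := by rw [hKK]; linarith
  refine ⟨2 * KK, Z0, by linarith, by linarith, ?_⟩
  intro Z γ A B δ S hZ hC t e ht he heB hT1 hT2
  obtain ⟨hX3, hJ1, hlog⟩ := hZ0 Z hZ
  have hZ1 : 1 ≤ Z := by linarith
  set T : ℝ := (e : ℝ) / t with hTdef
  have hT0 : 0 < T := by linarith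
  have hδS : ∀ q ∈ S, 0 < δ q := fun q hq => by
    have h1 : (0 : ℝ) < q := by exact_mod_cast hC.Spos q hq
    exact lt_of_lt_of_le (by positivity) (hC.dlow q hq)
  have hwt : ∀ q ∈ S, 0 < wt δ q := fun q hq => by
    have h1 : (0 : ℝ) < q := by exact_mod_cast hC.Spos q hq
    have h2 : (0 : ℝ) < Nat.totient q := by exact_mod_cast Nat.totient_pos.mpr (hC.Spos q hq)
    have h3 := hδS q hq
    unfold wt
    positivity
  have hms : 0 ≤ ms S (wt δ) := Finset.sum_nonneg fun q hq => (hwt q hq).le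
  have hω : ∀ v w, 0 ≤ omE γ A B δ t e v w := fun v w => rg_omE_nonneg _ _ _ _ _ _ _ _
  by_cases hW0 : 0 < WE γ A B δ S t e
  swap
  · refine (not_lt.mp hW0).trans ?_
    have : 0 ≤ ∑ q ∈ S, wt δ q := hms
    positivity
  have hW0' : 0 < eW S S (wt δ) (wt δ) (omE γ A B δ t e) := hW0
  obtain ⟨V1, W1, P, a, b, N, hL⟩ := hpl p1 hpl1 S S (wt δ) (wt δ) (omE γ A B δ t e)
    hC.Spos hC.Spos hwt hwt hω hW0'
  set g : ℕ → ℝ := fun p => 1 / (p : ℝ) with hgdef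
  have hg : ∀ p, 0 ≤ g p := fun p => by rw [hgdef]; positivity
  have hg1 : ∀ p : ℕ, p.Prime → 1 / (p : ℝ) ≤ g p := fun p _ => le_refl _
  have hXS : ∀ v ∈ S, (v : ℝ) ≤ Z ^ 2 := hC.Supp
  set e1 : ℝ := eW V1 W1 (wt δ) (wt δ) (omE γ A B δ t e) with he1
  have he1pos : 0 < e1 := hL.epos
  have t1 : ∑ v ∈ V1, ∑ w ∈ W1, (if Good P N g v w then 0 else
      wt δ v * wt δ w * omE γ A B δ t e v w) ≤ 1 / 8 * e1 := by
    have := hpt p1 hpt1 S S (wt δ) (wt δ) (omE γ A B δ t e) V1 W1 P a b N hL hC.Spos hC.Spos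
      hwt hwt hω g hg htail
    convert this using 6
  have t2 : ∑ v ∈ V1, ∑ w ∈ W1, (if NoCom P N v w ∧ Z ^ (c3 / 8) ≤ (jv N v : ℝ) then
      wt δ v * wt δ w * omE γ A B δ t e v w else 0) ≤ 1 / 8 * e1 := by
    have := hpj p1 hpj1 S S (wt δ) (wt δ) (omE γ A B δ t e) V1 W1 P a b N hL hC.Spos hC.Spos
      hwt hwt hω (Z ^ 2) (Z ^ (c3 / 8)) hX3 hJ1 hXS
    refine le_trans (le_of_eq ?_) (this.trans (mul_le_mul_of_nonneg_right hlog he1pos.le))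
    refine Finset.sum_congr rfl fun v _ => Finset.sum_congr rfl fun w _ => ?_
    congr
  have t3 : ∑ v ∈ V1, ∑ w ∈ W1, (if NoCom P N v w ∧ Z ^ (c3 / 8) ≤ (jv N w : ℝ) then
      wt δ v * wt δ w * omE γ A B δ t e v w else 0) ≤ 1 / 8 * e1 := by
    have := hpj p1 hpj1 S S (wt δ) (wt δ) (fun w v => omE γ A B δ t e v w) W1 V1 P b a N hL.swap
      hC.Spos hC.Spos hwt hwt (fun w v => hω v w) (Z ^ 2) (Z ^ (c3 / 8)) hX3 hJ1 hXS
    rw [← eW_comm V1 W1 (wt δ) (wt δ) (omE γ A B δ t e)] at this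
    refine le_trans (le_of_eq ?_) (this.trans (mul_le_mul_of_nonneg_right hlog he1pos.le))
    rw [Finset.sum_comm]
    refine Finset.sum_congr rfl fun w _ => Finset.sum_congr rfl fun v _ => ?_
    by_cases h : NoCom P N v w ∧ Z ^ (c3 / 8) ≤ (jv N w : ℝ)
    · have h' : NoCom P N w v ∧ Z ^ (c3 / 8) ≤ (jv N w : ℝ) := ⟨h.1.swap, h.2⟩
      rw [if_pos h, if_pos h']
      ring
    · have h' : ¬ (NoCom P N w v ∧ Z ^ (c3 / 8) ≤ (jv N w : ℝ)) := fun h2 =>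
        h ⟨h2.1.swap, h2.2⟩
      rw [if_neg h, if_neg h']
  have hV1wt : ∀ v ∈ V1, 0 < wt δ v := fun v hv => hwt v (hL.subV hv)
  have hW1wt : ∀ w ∈ W1, 0 < wt δ w := fun w hw => hwt w (hL.subW hw)
  have hE := rg_e1 V1 W1 P N g (Z ^ (c3 / 8)) (wt δ) (wt δ) (omE γ A B δ t e)
    (fun v hv => (hV1wt v hv).le) (fun w hw => (hW1wt w hw).le) hω
    (le_trans (le_of_eq (by
      refine Finset.sum_congr rfl fun v _ => Finset.sum_congr rfl fun w _ => ?_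
      congr)) t1)
    (le_trans (le_of_eq (by
      refine Finset.sum_congr rfl fun v _ => Finset.sum_congr rfl fun w _ => ?_
      congr)) t2)
    (le_trans (le_of_eq (by
      refine Finset.sum_congr rfl fun v _ => Finset.sum_congr rfl fun w _ => ?_
      congr)) t3)
  set G := rgG V1 W1 P N g (Z ^ (c3 / 8)) (omE γ A B δ t e) with hGdef
  have hGsub : G ⊆ V1 ×ˢ W1 := by
    rw [hGdef]
    unfold rgG
    exact Finset.filter_subset _ _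
  have hGmem : ∀ z ∈ G, z.1 ∈ V1 ∧ z.2 ∈ W1 ∧ omE γ A B δ t e z.1 z.2 ≠ 0 ∧
      Good P N g z.1 z.2 ∧ (jv N z.1 : ℝ) < Z ^ (c3 / 8) ∧ (jv N z.2 : ℝ) < Z ^ (c3 / 8) := by
    intro z hz
    rw [hGdef] at hz
    unfold rgG at hz
    rw [Finset.mem_filter, Finset.mem_product] at hz
    exact ⟨hz.1.1, hz.1.2, hz.2⟩
  have hGedge : ∀ z ∈ G, Edge γ A B δ t e z.1 z.2 ∧ qp z.2 z.1 ≤ qp z.1 z.2 ∧
      omE γ A B δ t e z.1 z.2 = FB B (qp z.1 z.2 * qp z.2 z.1) := by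
    intro z hz
    have h := (hGmem z hz).2.2.1
    unfold omE at h ⊢
    split_ifs at h ⊢ with h2
    · exact ⟨h2.1, h2.2, rfl⟩
    · exact absurd rfl h
  have hrab : 0 < rab a b := by
    unfold rab
    have hg0 : 0 < Nat.gcd a b := Nat.gcd_pos_of_pos_left b hL.apos
    exact Nat.mul_pos (Nat.div_pos (Nat.le_of_dvd hL.apos (Nat.gcd_dvd_left a b)) hg0)
      (Nat.div_pos (Nat.le_of_dvd hL.bpos (Nat.gcd_dvd_right a b)) hg0)
  set R : ℝ := (rab a b : ℝ) with hRdef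
  have hR1 : 1 ≤ R := by
    rw [hRdef]
    exact_mod_cast hrab
  set E0 : ℝ := ∑ z ∈ G, wt δ z.1 * wt δ z.2 with hE0def
  have hE00 : 0 ≤ E0 := Finset.sum_nonneg fun z hz =>
    mul_nonneg (hV1wt _ (hGmem z hz).1).le (hW1wt _ (hGmem z hz).2.1).le
  have hE1 : e1 ≤ 2 * CF * R ^ (1 / 800 : ℝ) * E0 := by
    refine hE.trans ?_
    have h1 : ∑ z ∈ G, wt δ z.1 * wt δ z.2 * omE γ A B δ t e z.1 z.2 ≤
        ∑ z ∈ G, wt δ z.1 * wt δ z.2 * (CF * R ^ (1 / 800 : ℝ)) := by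
      refine Finset.sum_le_sum fun z hz => ?_
      obtain ⟨z1, z2, z3, z4, z5, z6⟩ := hGmem z hz
      rw [(hGedge z hz).2.2]
      refine mul_le_mul_of_nonneg_left ?_ (mul_nonneg (hV1wt _ z1).le (hW1wt _ z2).le)
      exact hCF B P hL.prime (hC.Spos _ (hL.subV z1)) (hC.Spos _ (hL.subW z2)) hL.Npos hL.Ncop
        (hL.partV _ z1) (hL.partW _ z2) g hg hg1 z4
    rw [← Finset.sum_mul] at h1
    calc 2 * ∑ z ∈ G, wt δ z.1 * wt δ z.2 * omE γ A B δ t e z.1 z.2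
        ≤ 2 * (E0 * (CF * R ^ (1 / 800 : ℝ))) := by linarith
      _ = _ := by ring
  have hEm : E0 ≤ ms V1 (wt δ) * ms W1 (wt δ) := by
    unfold ms
    rw [Finset.sum_mul_sum, ← Finset.sum_product']
    refine Finset.sum_le_sum_of_subset_of_nonneg hGsub fun z hz _ => ?_
    rw [Finset.mem_product] at hz
    exact mul_nonneg (hV1wt _ hz.1).le (hW1wt _ hz.2).le
  have hm1 : 0 < ms V1 (wt δ) * ms W1 (wt δ) := by
    have hE0pos : 0 < E0 := by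
      by_contra hcon
      have h0 : E0 = 0 := le_antisymm (not_lt.mp hcon) hE00
      rw [h0, mul_zero] at hE1
      linarith
    linarith
  have hV' : ∀ v ∈ V1, v ∈ S ∧ partP P v = a := fun v hv => ⟨hL.subV hv, hL.partV v hv⟩
  have hW' : ∀ w ∈ W1, w ∈ S ∧ partP P w = b := fun w hw => ⟨hL.subW hw, hL.partW w hw⟩
  have htT : 1 / t ≤ T := by
    rw [hTdef]
    have : (1 : ℝ) ≤ e := by exact_mod_cast he
    gcongr
  have key : WE γ A B δ S t e ≤ KK * t ^ (49 / 50 : ℝ) * T ^ (-(3 / 100) : ℝ) *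
      (ms S (wt δ) * ms S (wt δ)) ^ (51 / 100 : ℝ) := by
    have hmm : 0 ≤ ms S (wt δ) * ms S (wt δ) := mul_nonneg hms hms
    have hmmr : 0 ≤ (ms S (wt δ) * ms S (wt δ)) ^ (51 / 100 : ℝ) := Real.rpow_nonneg hmm _
    rcases le_or_gt R (T ^ 24) with hRT | hRT
    · have hcount := rg_count hε hc3 hc hZ1 hC ht he heB hT1 hT2 hL.prime hL.apos hL.bpos hL.Npos
        hL.Ncop V1 W1 hV' hW' g hg hg1 hRT G hGsub (fun z hz =>
          ⟨(hGmem z hz).2.2.2.1, (hGedge z hz).1, (hGedge z hz).2.1, (hGmem z hz).2.2.2.2.1,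
            (hGmem z hz).2.2.2.2.2⟩)
      have hH0 : 0 ≤ 16 * (t * 14 * T ^ (-(1 / 16) : ℝ)) := by positivity
      have := interp (WE γ A B δ S t e) e1 E0 (ms S (wt δ) * ms S (wt δ))
        (ms V1 (wt δ) * ms W1 (wt δ)) R (16 * (t * 14 * T ^ (-(1 / 16) : ℝ))) (7 ^ p1) (2 * CF)
        hmm hm1 hR1 hH0 (by positivity) (by linarith) hE00 hL.qual hE1 hEm hcount
      refine this.trans ?_
      have hR' : R ^ (-(1 / 800) : ℝ) ≤ 1 :=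
        Real.rpow_le_one_of_one_le_of_nonpos hR1 (by norm_num)
      have hH' := rg_H1 t T ht hT1
      have hH0' : 0 ≤ (16 * (t * 14 * T ^ (-(1 / 16) : ℝ))) ^ (49 / 50 : ℝ) :=
        Real.rpow_nonneg hH0 _
      calc 7 ^ p1 * (2 * CF) * (16 * (t * 14 * T ^ (-(1 / 16) : ℝ))) ^ (49 / 50 : ℝ) *
            R ^ (-(1 / 800) : ℝ) * (ms S (wt δ) * ms S (wt δ)) ^ (51 / 100 : ℝ)
          ≤ 7 ^ p1 * (2 * CF) * (224 * t ^ (49 / 50 : ℝ) * T ^ (-(3 / 100) : ℝ)) *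
            1 * (ms S (wt δ) * ms S (wt δ)) ^ (51 / 100 : ℝ) := by
            have h0 : (0 : ℝ) ≤ 7 ^ p1 * (2 * CF) := by linarith
            gcongr
        _ = _ := by rw [hKK]; ring
    · have htriv := triv_fin hL.prime hL.apos hL.bpos hL.Npos hL.Ncop V1 W1
        (fun v hv => ⟨hC.Spos v (hL.subV hv), hL.partV v hv⟩)
        (fun w hw => ⟨hC.Spos w (hL.subW hw), hL.partW w hw⟩) δ
        (fun v hv => hδS v (hL.subV hv)) (fun w hw => hδS w (hL.subW hw)) t ht g hg hg1 G hGsub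
        (fun z hz => ⟨(hGmem z hz).2.2.2.1, (hGedge z hz).1.2.1⟩)
      have hH0 : 0 ≤ 16 * t := by positivity
      have := interp (WE γ A B δ S t e) e1 E0 (ms S (wt δ) * ms S (wt δ))
        (ms V1 (wt δ) * ms W1 (wt δ)) R (16 * t) (7 ^ p1) (2 * CF)
        hmm hm1 hR1 hH0 (by positivity) (by linarith) hE00 hL.qual hE1 hEm htriv
      refine this.trans ?_
      have hR' : R ^ (-(1 / 800) : ℝ) ≤ T ^ (-(3 / 100) : ℝ) := by
        calc R ^ (-(1 / 800) : ℝ) ≤ (T ^ 24) ^ (-(1 / 800) : ℝ) :=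
              Real.rpow_le_rpow_of_nonpos (by positivity) hRT.le (by norm_num)
          _ = T ^ (-(3 / 100) : ℝ) := by
              rw [← Real.rpow_natCast, ← Real.rpow_mul hT0.le]
              norm_num
      have hH' := rg_H2 t ht
      have hH0' : 0 ≤ (16 * t) ^ (49 / 50 : ℝ) := Real.rpow_nonneg hH0 _
      have hR0' : 0 ≤ R ^ (-(1 / 800) : ℝ) := by positivity
      calc 7 ^ p1 * (2 * CF) * (16 * t) ^ (49 / 50 : ℝ) *
            R ^ (-(1 / 800) : ℝ) * (ms S (wt δ) * ms S (wt δ)) ^ (51 / 100 : ℝ)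
          ≤ 7 ^ p1 * (2 * CF) * (224 * t ^ (49 / 50 : ℝ)) *
            T ^ (-(3 / 100) : ℝ) * (ms S (wt δ) * ms S (wt δ)) ^ (51 / 100 : ℝ) := by
            have h0 : (0 : ℝ) ≤ 7 ^ p1 * (2 * CF) := by linarith
            gcongr
        _ = _ := by rw [hKK]; ring
  exact rg_final _ KK t T (ms S (wt δ)) (by linarith) ht hT1 htT hms hC.mass key

end Vale.Agent.P028E
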