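import Vale.Agent.Lib.P028.E.RegI
import Vale.Agent.Lib.P028.E.RegII

/-!
# P028 E: the edge estimate

Combine `regI` (with `c = c3/400`) and `regII`: for `1 ≤ T = e/t`, either `T ≤ Z^(c3/400)` or
`Z^(c3/400) ≤ T`.  `c1 = min (1/100) (c3/16)`.  The full edge sum is at most
`2 * WE` : by `Edge_comm`, `MM_comm` and `FB B (q'r') = FB B (r'q')`, the part with `q' ≤ r'` equals
the part with `q' ≥ r'` of the exchanged pair.
-/

open Finset

namespace Vale.Agent.P028E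

namespace EEstAux

theorem FB_nonneg (B n : ℕ) : 0 ≤ FB B n := by
  unfold FB
  refine Finset.prod_nonneg fun p hp => ?_
  have hp1 : p.Prime := Nat.prime_of_mem_primeFactors (Finset.mem_filter.1 hp).1
  have h1 : (1 : ℝ) ≤ p := by exact_mod_cast hp1.one_lt.le
  have h2 : 1 / (p : ℝ) ≤ 1 := by
    rw [div_le_one (by linarith)]
    exact h1
  exact inv_nonneg.2 (by linarith)

theorem wt_nonneg {δ : ℕ → ℝ} {q : ℕ} (h : 0 ≤ δ q) : 0 ≤ wt δ q := by
  unfold wt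
  positivity

open Classical in
theorem sum_le (γ : ℝ) (A : ℤ) (B : ℕ) (δ : ℕ → ℝ) (S : Finset ℕ) (t : ℝ) (e : ℕ)
    (hδ : ∀ q ∈ S, 0 ≤ δ q) :
    ∑ q ∈ S, ∑ r ∈ S, (if Edge γ A B δ t e q r then
      wt δ q * wt δ r * FB B (qp q r * qp r q) else 0) ≤ 2 * WE γ A B δ S t e := by
  have h2 : WE γ A B δ S t e = ∑ q ∈ S, ∑ r ∈ S, wt δ q * wt δ r * omE γ A B δ t e q r := rfl
  have h3 : WE γ A B δ S t e = ∑ q ∈ S, ∑ r ∈ S, wt δ q * wt δ r * omE γ A B δ t e r q := by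
    rw [h2, Finset.sum_comm]
    refine Finset.sum_congr rfl fun q _ => Finset.sum_congr rfl fun r _ => ?_
    ring
  have h4 : 2 * WE γ A B δ S t e = ∑ q ∈ S, ∑ r ∈ S,
      (wt δ q * wt δ r * omE γ A B δ t e q r + wt δ q * wt δ r * omE γ A B δ t e r q) := by
    rw [two_mul]
    conv_lhs => rw [h2]
    rw [← h2]
    conv_lhs =>
      congr
      · rw [h2]
      · rw [h3]
    rw [← Finset.sum_add_distrib]
    refine Finset.sum_congr rfl fun q _ => ?_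
    rw [← Finset.sum_add_distrib]
  rw [h4]
  refine Finset.sum_le_sum fun q hq => Finset.sum_le_sum fun r hr => ?_
  have hq0 := wt_nonneg (hδ q hq)
  have hr0 := wt_nonneg (hδ r hr)
  have ho : ∀ x y : ℕ, 0 ≤ omE γ A B δ t e x y := by
    intro x y
    unfold omE
    split_ifs
    · exact FB_nonneg _ _
    · exact le_rfl
  have hqr := mul_nonneg hq0 hr0
  have h5 := mul_nonneg hqr (ho q r)
  have h6 := mul_nonneg hqr (ho r q)
  split_ifs with hE
  · rcases le_total (qp r q) (qp q r) with hle | hle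
    · have h7 : omE γ A B δ t e q r = FB B (qp q r * qp r q) := by
        unfold omE
        rw [if_pos ⟨hE, hle⟩]
      rw [h7] at *
      linarith
    · have h7 : omE γ A B δ t e r q = FB B (qp q r * qp r q) := by
        unfold omE
        rw [if_pos ⟨(Edge_comm γ A B δ t e q r).1 hE, hle⟩, Nat.mul_comm]
      rw [h7] at *
      linarith
  · linarith

end EEstAux

open Classical in
theorem edge_est (ε0 c3 : ℝ) (hε : 0 < ε0) (hε1 : ε0 < 1) (hc3 : 0 < c3) (hc : c3 ≤ ε0 / 10) :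
    ∃ C Z0 c1 : ℝ, 1 ≤ C ∧ 2 ≤ Z0 ∧ 0 < c1 ∧ c1 ≤ 1 / 100 ∧
      ∀ (Z γ : ℝ) (A : ℤ) (B : ℕ) (δ : ℕ → ℝ) (S : Finset ℕ),
      Z0 ≤ Z → Cls ε0 c3 Z γ A B δ S → ∀ (t : ℝ) (e : ℕ), 0 < t → 0 < e → Nat.Coprime e B →
        1 ≤ (e : ℝ) / t →
        ∑ q ∈ S, ∑ r ∈ S, (if Edge γ A B δ t e q r then
          wt δ q * wt δ r * FB B (qp q r * qp r q) else 0) ≤
        C * t * (t / (e : ℝ)) ^ c1 * ∑ q ∈ S, wt δ q := by
  obtain ⟨C1, hC1, h1⟩ := regI ε0 c3 (c3 / 400) hε hε1 hc3 hc (by positivity)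
  obtain ⟨C2, Z0, hC2, hZ0, h2⟩ := regII ε0 c3 hε hε1 hc3 hc
  have hmin : 0 < min (1 / 100 : ℝ) (c3 / 16) := lt_min (by norm_num) (by positivity)
  refine ⟨2 * max C1 C2, Z0, min (1 / 100) (c3 / 16), ?_, hZ0, hmin, min_le_left _ _, ?_⟩
  · have := le_max_left C1 C2
    linarith
  intro Z γ A B δ S hZ hS t e ht he hcop hT
  have hδ : ∀ q ∈ S, 0 ≤ δ q := fun q hq =>
    le_trans (by positivity) (hS.dlow q hq)
  have he' : (0 : ℝ) < e := by exact_mod_cast he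
  have hm0 : 0 ≤ ∑ q ∈ S, wt δ q :=
    Finset.sum_nonneg fun q hq => EEstAux.wt_nonneg (hδ q hq)
  have hTe : (t / (e : ℝ)) ^ (min (1 / 100 : ℝ) (c3 / 16)) =
      ((e : ℝ) / t) ^ (-(min (1 / 100 : ℝ) (c3 / 16))) := by
    rw [Real.rpow_neg (by positivity), ← Real.inv_rpow (by positivity), inv_div]
  have hmono : ∀ (C' c' : ℝ), 0 ≤ C' → C' ≤ max C1 C2 → min (1 / 100 : ℝ) (c3 / 16) ≤ c' →
      C' * t * ((e : ℝ) / t) ^ (-c') * ∑ q ∈ S, wt δ q ≤
      max C1 C2 * t * (t / (e : ℝ)) ^ (min (1 / 100 : ℝ) (c3 / 16)) * ∑ q ∈ S, wt δ q := by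
    intro C' c' hC0 hC' hc'
    rw [hTe]
    refine mul_le_mul_of_nonneg_right ?_ hm0
    refine mul_le_mul (mul_le_mul_of_nonneg_right hC' ht.le) ?_ (by positivity) ?_
    · exact Real.rpow_le_rpow_of_exponent_le hT (by linarith)
    · exact mul_nonneg (hC0.trans hC') ht.le
  have hWE : WE γ A B δ S t e ≤
      max C1 C2 * t * (t / (e : ℝ)) ^ (min (1 / 100 : ℝ) (c3 / 16)) * ∑ q ∈ S, wt δ q := by
    rcases le_total (Z ^ (c3 / 400)) ((e : ℝ) / t) with hc | hc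
    · exact (h1 Z γ A B δ S (hZ0.trans hZ) hS t e ht he hcop hT hc).trans
        (hmono C1 (c3 / 16) (by linarith) (le_max_left _ _) (min_le_right _ _))
    · exact (h2 Z γ A B δ S hZ hS t e ht he hcop hT hc).trans
        (hmono C2 (1 / 100) (by linarith) (le_max_right _ _) (min_le_left _ _))
  refine (EEstAux.sum_le γ A B δ S t e hδ).trans ?_
  calc 2 * WE γ A B δ S t e ≤ 2 * (max C1 C2 * t * (t / (e : ℝ)) ^ (min (1 / 100 : ℝ) (c3 / 16)) *
        ∑ q ∈ S, wt δ q) := by linarith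
    _ = _ := by ring

end Vale.Agent.P028E
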