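import Vale.Agent.Lib.P028.E.LDefs

/-!
# P028 E: the final Cauchy-Schwarz count

`G` a finite set of edges.  With `α = jv N v / jv N w` and `σ = ∑_{k∣N} 1/k`, Cauchy-Schwarz gives
`∑_G μ_v μ_w ≤ (∑_G μ_v² α)^(1/2) (∑_G μ_w²/α)^(1/2)`, and
`∑_G μ_v² α = ∑_v μ_v² ∑_{w : (v,w) ∈ G} α ≤ ∑_v μ_v² G1 σ 2t/(δ_v b')
 = (2t G1/b') ∑_v μ_v (φ(v)/v σ) ≤ (16 t G1/b') ms V1` where `μ = wt δ`, `μ_v/δ_v = φ(v)/v`
(only vertices `v` incident to `G` matter).  Symmetrically for `w`.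
-/

open Finset

namespace Vale.Agent.P028E

private theorem fin_jv_pos {N : ℕ} (hN : 0 < N) (v : ℕ) : 0 < (jv N v : ℝ) := by
  have h : 0 < jv N v := by
    unfold jv
    exact Nat.div_pos (Nat.le_of_dvd hN (Nat.gcd_dvd_right v N)) (Nat.gcd_pos_of_pos_right v hN)
  exact_mod_cast h

private theorem fin_wt_nonneg {δ : ℕ → ℝ} {v : ℕ} (hδ : 0 < δ v) : 0 ≤ wt δ v := by
  unfold wt
  positivity

/-- the one-sided sum -/
private theorem fin_side (V : Finset ℕ) (δ : ℕ → ℝ) (hδV : ∀ v ∈ V, 0 < δ v)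
    (σ : ℝ) (t G1 : ℝ) (ht : 0 < t) (hG1 : 0 ≤ G1) (b' : ℝ) (hb' : 0 < b')
    (I : ℕ → ℝ) (hI : ∀ v ∈ V, I v ≤ G1 * σ * (2 * t / (δ v * b')))
    (h3 : ∀ v ∈ V, I v ≠ 0 → (Nat.totient v : ℝ) / v * σ ≤ 8) :
    ∑ v ∈ V, wt δ v ^ 2 * I v ≤ 16 * t * G1 / b' * ms V (wt δ) := by
  unfold ms
  rw [Finset.mul_sum]
  refine Finset.sum_le_sum fun v hv => ?_
  have hδ := hδV v hv
  have hw := fin_wt_nonneg hδ
  by_cases h0 : I v = 0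
  · rw [h0, mul_zero]
    positivity
  · have h8 := h3 v hv h0
    calc wt δ v ^ 2 * I v ≤ wt δ v ^ 2 * (G1 * σ * (2 * t / (δ v * b'))) :=
          mul_le_mul_of_nonneg_left (hI v hv) (by positivity)
      _ = 2 * t * G1 / b' * wt δ v * ((Nat.totient v : ℝ) / v * σ) := by
          rw [sq]
          nth_rewrite 1 [wt]
          field_simp
      _ ≤ 2 * t * G1 / b' * wt δ v * 8 := mul_le_mul_of_nonneg_left h8 (by positivity)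
      _ = 16 * t * G1 / b' * wt δ v := by ring

open Classical in
private theorem fin_sum_left (V1 W1 : Finset ℕ) (G : Finset (ℕ × ℕ)) (hG : G ⊆ V1 ×ˢ W1)
    (f : ℕ → ℝ) (g : ℕ → ℕ → ℝ) :
    ∑ z ∈ G, f z.1 * g z.1 z.2 =
      ∑ v ∈ V1, f v * ∑ w ∈ W1.filter (fun w => (v, w) ∈ G), g v w := by
  have h1 : G = (V1 ×ˢ W1).filter (fun z => z ∈ G) := by
    ext z
    simp only [Finset.mem_filter]
    exact ⟨fun h => ⟨hG h, h⟩, fun h => h.2⟩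
  conv_lhs => rw [h1]
  rw [Finset.sum_filter, Finset.sum_product]
  refine Finset.sum_congr rfl fun v _ => ?_
  rw [Finset.mul_sum, Finset.sum_filter]

open Classical in
private theorem fin_sum_right (V1 W1 : Finset ℕ) (G : Finset (ℕ × ℕ)) (hG : G ⊆ V1 ×ˢ W1)
    (f : ℕ → ℝ) (g : ℕ → ℕ → ℝ) :
    ∑ z ∈ G, f z.2 * g z.2 z.1 =
      ∑ w ∈ W1, f w * ∑ v ∈ V1.filter (fun v => (v, w) ∈ G), g w v := by
  have h1 : G = (V1 ×ˢ W1).filter (fun z => z ∈ G) := by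
    ext z
    simp only [Finset.mem_filter]
    exact ⟨fun h => ⟨hG h, h⟩, fun h => h.2⟩
  conv_lhs => rw [h1]
  rw [Finset.sum_filter, Finset.sum_product_right]
  refine Finset.sum_congr rfl fun w _ => ?_
  rw [Finset.mul_sum, Finset.sum_filter]

open Classical in
theorem fin_count (N : ℕ) (hN : 0 < N) (V1 W1 : Finset ℕ) (G : Finset (ℕ × ℕ))
    (hG : G ⊆ V1 ×ˢ W1) (δ : ℕ → ℝ) (hδV : ∀ v ∈ V1, 0 < δ v) (hδW : ∀ w ∈ W1, 0 < δ w)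
    (hV : ∀ v ∈ V1, 0 < v) (hW : ∀ w ∈ W1, 0 < w) (t G1 G2 : ℝ) (ht : 0 < t) (hG1 : 0 ≤ G1)
    (hG2 : 0 ≤ G2) (a b : ℕ) (ha : 0 < a) (hb : 0 < b)
    (h1 : ∀ v ∈ V1, ∑ w ∈ W1.filter (fun w => (v, w) ∈ G), (jv N v : ℝ) / (jv N w : ℝ) ≤
      G1 * (∑ k ∈ N.divisors, 1 / (k : ℝ)) * (2 * t / (δ v * ((b / Nat.gcd a b : ℕ) : ℝ))))
    (h2 : ∀ w ∈ W1, ∑ v ∈ V1.filter (fun v => (v, w) ∈ G), (jv N w : ℝ) / (jv N v : ℝ) ≤
      G2 * (∑ k ∈ N.divisors, 1 / (k : ℝ)) * (2 * t / (δ w * ((a / Nat.gcd a b : ℕ) : ℝ))))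
    (h3 : ∀ z ∈ G, (Nat.totient z.1 : ℝ) / z.1 * ∑ k ∈ N.divisors, 1 / (k : ℝ) ≤ 8)
    (h4 : ∀ z ∈ G, (Nat.totient z.2 : ℝ) / z.2 * ∑ k ∈ N.divisors, 1 / (k : ℝ) ≤ 8) :
    ∑ z ∈ G, wt δ z.1 * wt δ z.2 ≤ 16 * t * (G1 * G2) ^ (1 / 2 : ℝ) *
      (rab a b : ℝ) ^ (-(1 / 2) : ℝ) * (ms V1 (wt δ) * ms W1 (wt δ)) ^ (1 / 2 : ℝ) := by
  classical
  set σ : ℝ := ∑ k ∈ N.divisors, 1 / (k : ℝ) with hσ
  have hJ : ∀ v, 0 < (jv N v : ℝ) := fin_jv_pos hN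
  have ha' : 0 < ((a / Nat.gcd a b : ℕ) : ℝ) := by
    exact_mod_cast Nat.div_pos (Nat.le_of_dvd ha (Nat.gcd_dvd_left a b))
      (Nat.gcd_pos_of_pos_left b ha)
  have hb' : 0 < ((b / Nat.gcd a b : ℕ) : ℝ) := by
    exact_mod_cast Nat.div_pos (Nat.le_of_dvd hb (Nat.gcd_dvd_right a b))
      (Nat.gcd_pos_of_pos_left b ha)
  have hmV : 0 ≤ ms V1 (wt δ) := Finset.sum_nonneg fun v hv => fin_wt_nonneg (hδV v hv)
  have hmW : 0 ≤ ms W1 (wt δ) := Finset.sum_nonneg fun v hv => fin_wt_nonneg (hδW v hv)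
  -- the two one-sided sums
  have s1 : ∑ z ∈ G, wt δ z.1 ^ 2 * ((jv N z.1 : ℝ) / (jv N z.2 : ℝ)) ≤
      16 * t * G1 / ((b / Nat.gcd a b : ℕ) : ℝ) * ms V1 (wt δ) := by
    rw [fin_sum_left V1 W1 G hG (fun v => wt δ v ^ 2) (fun v w => (jv N v : ℝ) / (jv N w : ℝ))]
    refine fin_side V1 δ hδV σ t G1 ht hG1 _ hb' _ h1 ?_
    intro v hv h0
    obtain ⟨w, hw, -⟩ := Finset.exists_ne_zero_of_sum_ne_zero h0
    exact h3 (v, w) (Finset.mem_filter.mp hw).2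
  have s2 : ∑ z ∈ G, wt δ z.2 ^ 2 * ((jv N z.2 : ℝ) / (jv N z.1 : ℝ)) ≤
      16 * t * G2 / ((a / Nat.gcd a b : ℕ) : ℝ) * ms W1 (wt δ) := by
    rw [fin_sum_right V1 W1 G hG (fun v => wt δ v ^ 2) (fun w v => (jv N w : ℝ) / (jv N v : ℝ))]
    refine fin_side W1 δ hδW σ t G2 ht hG2 _ ha' _ h2 ?_
    intro w hw h0
    obtain ⟨v, hv, -⟩ := Finset.exists_ne_zero_of_sum_ne_zero h0
    exact h4 (v, w) (Finset.mem_filter.mp hv).2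
  -- Cauchy-Schwarz
  have cs : (∑ z ∈ G, wt δ z.1 * wt δ z.2) ^ 2 ≤
      (∑ z ∈ G, wt δ z.1 ^ 2 * ((jv N z.1 : ℝ) / (jv N z.2 : ℝ))) *
        ∑ z ∈ G, wt δ z.2 ^ 2 * ((jv N z.2 : ℝ) / (jv N z.1 : ℝ)) := by
    refine Finset.sum_sq_le_sum_mul_sum_of_sq_le_mul G (fun z _ => ?_) (fun z _ => ?_)
      (fun z _ => ?_)
    · have := hJ z.1; have := hJ z.2; positivity
    · have := hJ z.1; have := hJ z.2; positivity
    · have h1 := (hJ z.1).ne'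
      have h2 := (hJ z.2).ne'
      refine le_of_eq ?_
      field_simp
  have hS0 : 0 ≤ ∑ z ∈ G, wt δ z.1 * wt δ z.2 := by
    refine Finset.sum_nonneg fun z hz => ?_
    have := Finset.mem_product.mp (hG hz)
    exact mul_nonneg (fin_wt_nonneg (hδV _ this.1)) (fin_wt_nonneg (hδW _ this.2))
  have hr : 0 < (rab a b : ℝ) := by
    unfold rab
    push_cast
    positivity
  have e1 : (rab a b : ℝ) = ((a / Nat.gcd a b : ℕ) : ℝ) * ((b / Nat.gcd a b : ℕ) : ℝ) := by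
    unfold rab
    push_cast
    rfl
  have key : (∑ z ∈ G, wt δ z.1 * wt δ z.2) ^ 2 ≤
      (16 * t * (G1 * G2) ^ (1 / 2 : ℝ) * (rab a b : ℝ) ^ (-(1 / 2) : ℝ) *
        (ms V1 (wt δ) * ms W1 (wt δ)) ^ (1 / 2 : ℝ)) ^ 2 := by
    have hhalf : ∀ x : ℝ, 0 ≤ x → (x ^ (1 / 2 : ℝ)) ^ 2 = x := by
      intro x hx
      rw [← Real.sqrt_eq_rpow, Real.sq_sqrt hx]
    have hneg : ((rab a b : ℝ) ^ (-(1 / 2) : ℝ)) ^ 2 = (rab a b : ℝ)⁻¹ := by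
      rw [Real.rpow_neg hr.le, inv_pow, hhalf _ hr.le]
    rw [mul_pow, mul_pow, mul_pow, hhalf _ (mul_nonneg hG1 hG2), hneg,
      hhalf _ (mul_nonneg hmV hmW)]
    refine cs.trans ?_
    refine (mul_le_mul s1 s2 ?_ (by positivity)).trans (le_of_eq ?_)
    · refine Finset.sum_nonneg fun z _ => ?_
      have := hJ z.1; have := hJ z.2; positivity
    · rw [e1]
      field_simp
  exact le_of_sq_le_sq key (by positivity)

end Vale.Agent.P028E
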