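import Vale.Agent.Lib.P028.E.HfNull
import Vale.Agent.Results.P028.ErdosVaaler

/-!
H5: from the second moment to full measure.

Let `d q = min (ψ q) (q^(-ε))`.  For `q ≥ 1` write `φ(q)/q d q ≤ φ(q)/q min (ψ q) (1/q) + ∑_{i<3}
(if q ∈ R i then wt d q else 0)`, `R i = {q ≥ 1 : 1/q ≤ d q, cls q % 3 = i}` (if `d q < 1/q` then
`ψ q = d q < 1/q`, since `1/q ≤ q^(-ε)`).  So one of the four series diverges.  First series: the theorem
`Vale.Agent.P028` (`Vale/Agent/Results/P028/ErdosVaaler.lean`, inhomogeneous Erdos-Vaaler).  Otherwise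
`bad_null` for all `X`: almost every `x ∈ [0,1)` satisfies `|q x - a - γ| < δ q ≤ ψ q` for infinitely many
`q`; pass to all real `x` by periodicity (`Vale.Agent.P028.WW`, `Vale.Agent.P028.WW_add` in
the same file, as in the proof of its `result`).
-/

open Finset MeasureTheory

namespace Vale.Agent.P028E

/-- from the unit interval to the real line -/
private theorem fu_line (γ : ℝ) (ψ : ℕ → ℝ)
    (h0 : volume {x : ℝ | x ∈ Set.Ico (0 : ℝ) 1 ∧ ¬ (Vale.Agent.P028.WW γ ψ x).Infinite} = 0) :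
    ∀ᵐ x : ℝ, (Vale.Agent.P028.WW γ ψ x).Infinite := by
  rw [ae_iff]
  apply measure_mono_null (t := ⋃ n : ℤ, (fun x : ℝ => x + n) ⁻¹'
    {x : ℝ | x ∈ Set.Ico (0 : ℝ) 1 ∧ ¬ (Vale.Agent.P028.WW γ ψ x).Infinite})
  · intro x hx
    rw [Set.mem_ofPred_eq] at hx
    rw [Set.mem_iUnion]
    refine ⟨-⌊x⌋, ?_⟩
    rw [Set.mem_preimage, Set.mem_ofPred_eq]
    rw [Vale.Agent.P028.WW_add γ ψ x (-⌊x⌋)]
    refine ⟨?_, hx⟩
    push_cast
    constructor
    · have := Int.floor_le x
      linarith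
    · have := Int.lt_floor_add_one x
      linarith
  · apply measure_iUnion_null
    intro n
    rw [measure_preimage_add_right]
    exact h0

/-- H5: from the second moment to full measure -/
theorem full_of_secondMoment (ε : ℝ) (hε : 0 < ε) (hε1 : ε < 1) (h : SecondMoment ε) (γ : ℝ)
    (ψ : ℕ → ℝ) (hψ : ∀ q, 0 ≤ ψ q)
    (hdiv : ¬ Summable (fun q : ℕ => (Nat.totient q : ℝ) / q * min (ψ q) ((q : ℝ) ^ (-ε)))) :
    ∀ᵐ x : ℝ, {q : ℕ | 0 < q ∧ ∃ a : ℤ, |(q : ℝ) * x - a - γ| < ψ q}.Infinite := by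
  classical
  set d : ℕ → ℝ := fun q => min (ψ q) ((q : ℝ) ^ (-ε)) with hd
  have hd0 : ∀ q, 0 ≤ d q := fun q => le_min (hψ q) (by positivity)
  set R : ℕ → Set ℕ := fun i => {q : ℕ | 1 ≤ q ∧ cls q % 3 = i ∧ 1 / (q : ℝ) ≤ d q} with hR
  have hkey : ∀ q : ℕ, (Nat.totient q : ℝ) / q * d q ≤
      (Nat.totient q : ℝ) / q * min (ψ q) (1 / q) +
        ((if q ∈ R 0 then wt d q else 0) + (if q ∈ R 1 then wt d q else 0) +
          (if q ∈ R 2 then wt d q else 0)) := by
    intro q
    have hw : 0 ≤ wt d q := mul_nonneg (by positivity) (hd0 q)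
    have hi : ∀ i : ℕ, 0 ≤ (if q ∈ R i then wt d q else 0) := by
      intro i
      split_ifs
      · exact hw
      · exact le_rfl
    have hf : 0 ≤ (Nat.totient q : ℝ) / q * min (ψ q) (1 / q) :=
      mul_nonneg (by positivity) (le_min (hψ q) (by positivity))
    have h0 := hi 0
    have h1 := hi 1
    have h2 := hi 2
    rcases Nat.eq_zero_or_pos q with hq | hq
    · have e : (Nat.totient q : ℝ) / q * d q = 0 := by
        rw [hq]
        simp
      rw [e]
      positivity
    · have hq1 : (1 : ℝ) ≤ q := by exact_mod_cast hq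
      by_cases hc : 1 / (q : ℝ) ≤ d q
      · have hlt : cls q % 3 < 3 := Nat.mod_lt _ (by norm_num)
        have hmem : ∀ i : ℕ, cls q % 3 = i → (if q ∈ R i then wt d q else 0) = wt d q := by
          intro i hi
          rw [if_pos]
          exact ⟨hq, hi, hc⟩
        have e : (Nat.totient q : ℝ) / q * d q = wt d q := rfl
        rw [e]
        rcases (by omega : cls q % 3 = 0 ∨ cls q % 3 = 1 ∨ cls q % 3 = 2) with h3 | h3 | h3
        · rw [hmem 0 h3]
          linarith
        · rw [hmem 1 h3]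
          linarith
        · rw [hmem 2 h3]
          linarith
      · rw [not_le] at hc
        have h3 : 1 / (q : ℝ) ≤ (q : ℝ) ^ (-ε) := by
          rw [one_div, ← Real.rpow_neg_one]
          exact Real.rpow_le_rpow_of_exponent_le hq1 (by linarith)
        have h4 : d q = ψ q := by
          rcases min_choice (ψ q) ((q : ℝ) ^ (-ε)) with h5 | h5
          · exact h5
          · exfalso
            have h6 : d q = (q : ℝ) ^ (-ε) := h5
            linarith
        have h5 : min (ψ q) (1 / (q : ℝ)) = d q := by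
          rw [← h4]
          exact min_eq_left hc.le
        rw [h5]
        linarith
  by_cases hs1 : Summable (fun q : ℕ => (Nat.totient q : ℝ) / q * min (ψ q) (1 / q))
  · obtain ⟨i, hi⟩ : ∃ i : ℕ, ¬ Summable (fun q : ℕ => if q ∈ R i then wt d q else 0) := by
      by_contra hcon
      push Not at hcon
      apply hdiv
      refine Summable.of_nonneg_of_le (fun q => mul_nonneg (by positivity) (hd0 q)) hkey ?_
      exact hs1.add (((hcon 0).add (hcon 1)).add (hcon 2))
    have hnull := fun X : ℕ => bad_null ε hε h γ d i (R i) (fun q hq =>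
      ⟨hq.1, hq.2.1, hq.2.2, min_le_right _ _⟩) (by convert hi) X
    refine fu_line γ ψ ?_
    apply measure_mono_null (t := ⋃ X : ℕ, {x : ℝ | x ∈ Set.Ico (0 : ℝ) 1 ∧ ∀ q : ℕ, q ∈ R i →
      (X + 1) ≤ q → ¬ ∃ a : ℤ, |(q : ℝ) * x - a - γ| < d q}) _
      (measure_iUnion_null fun X => hnull (X + 1))
    rintro x ⟨hx01, hx⟩
    by_contra hcon
    apply hx
    rw [Set.mem_iUnion, not_exists] at hcon
    refine Set.infinite_of_forall_exists_gt fun X => ?_
    have h1 := hcon X
    rw [Set.mem_ofPred_eq, not_and] at h1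
    have h2 := h1 hx01
    push Not at h2
    obtain ⟨q, hq, hxq, a, ha⟩ := h2
    exact ⟨q, ⟨by omega, a, lt_of_lt_of_le ha (min_le_left _ _)⟩, by omega⟩
  · exact Vale.Agent.P028.full_measure γ ψ hψ hs1

end Vale.Agent.P028E
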