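import Vale.Agent.Lib.P028.E.Lines

/-!
# P028 E: the two gains

Notation `T = e/t`, `θ0 = |Bγ - A|`, `g = gcd (B, κ0)`, `N = min (X, 8tB/(κ0 θ0)) g/B`.

`gain1`: `Q = 2t/δ = κ0 X`.  By `lines_card` and `lines_card'` the number is at most
`(2L/(e g) + 1)(N + 1)`, `L = 4tB + Q θ0`.  Bounds:
`(8tB/(eg)) N ≤ 8X/T`, `(2Qθ0/(eg)) N ≤ 16X/T` (zero if `θ0 = 0`),
`2L/(eg) ≤ 8 B/T + 2 κ0 X θ0/e ≤ 8 Z^c3 + 2 X Z^(-c3/2) ≤ 8 X Z^(-c3) + 2 X Z^(-c3/2)`,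
`N ≤ X g/B ≤ T^(-1/8) X` in the first case of `hgood`; in the second case
`N ≤ 8 t g/(κ0 θ0) ≤ 16 t g/(κ0 T^(1/8) B δ) ≤ 8 T^(-1/8) X`; and `1 ≤ X Z^(-2 c3)`.
As `1 ≤ T ≤ Z^c3` everything is `≤ T^(-1/8) X`: total `≤ 43 T^(-1/8) X`.

`gain2`: `D = κ0 x - s`, `|D| ≤ s` because `0 ≤ κ0 x ≤ s`.  Apply `lines` with `(s, D) → (-D)`:
`D = κ0 x - s` admissible with `n` iff `s - κ0 x` admissible with `-n` (`mm` changes sign).
`Q = s`, `L = 4tB + sθ0 ≤ 5 T^(1/8) t B`.  If `L < e` the set is empty.  Otherwise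
`B ≥ T^(7/8)/5`.  `gcd(B,h) gcd(B,κ0) ∣ B` gives `g ≤ B/gcd(B,h) < T^(1/8)`.  The number is
`≤ 2LX/(eB) + 2L/(eg) + Xg/B + 1 ≤ 10 T^(-7/8) X + 10 T^(-7/8) B + 5 T^(1/8-7/8) X + 1
 ≤ 30 T^(-1/8) X` using `B ≤ Z^c3 ≤ X Z^(-c3)`, `1 ≤ X Z^(-2c3)`.
-/

open Finset

namespace Vale.Agent.P028E

/-- `w = T^(1/8)`, `T^(-1/8) = 1/w`, `w^8 = T`, `1 ≤ w` -/
private theorem wfacts (T : ℝ) (hT : 1 ≤ T) :
    1 ≤ T ^ (1 / 8 : ℝ) ∧ (T ^ (1 / 8 : ℝ)) ^ 8 = T ∧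
      T ^ (-(1 / 8) : ℝ) = (T ^ (1 / 8 : ℝ))⁻¹ := by
  have hT0 : 0 ≤ T := by linarith
  refine ⟨Real.one_le_rpow hT (by norm_num), ?_, Real.rpow_neg hT0 _⟩
  rw [← Real.rpow_natCast, ← Real.rpow_mul hT0]
  norm_num

/-- `a = Z^(c3/2)` -/
private theorem afacts (Z c3 : ℝ) (hZ : 1 ≤ Z) (hc3 : 0 < c3) :
    1 ≤ Z ^ (c3 / 2) ∧ Z ^ c3 = (Z ^ (c3 / 2)) ^ 2 ∧ Z ^ (-c3) = ((Z ^ (c3 / 2)) ^ 2)⁻¹ ∧
      Z ^ (2 * c3) = (Z ^ (c3 / 2)) ^ 4 := by
  have hZ0 : 0 ≤ Z := by linarith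
  have h2 : Z ^ c3 = (Z ^ (c3 / 2)) ^ 2 := by
    rw [← Real.rpow_natCast, ← Real.rpow_mul hZ0]
    congr 1
    push_cast
    ring
  refine ⟨Real.one_le_rpow hZ (by positivity), h2, ?_, ?_⟩
  · rw [Real.rpow_neg hZ0, h2]
  · rw [← Real.rpow_natCast, ← Real.rpow_mul hZ0]
    congr 1
    push_cast
    ring

/-- `w ≤ a` if `w^8 ≤ a^2` -/
private theorem w_le_a (w a : ℝ) (hw : 1 ≤ w) (ha : 1 ≤ a) (h : w ^ 8 ≤ a ^ 2) : w ≤ a := by
  by_contra hcon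
  push Not at hcon
  have h1 : a ^ 2 < w ^ 2 := by nlinarith
  have h2 : w ^ 2 ≤ w ^ 8 := pow_le_pow_right₀ hw (by norm_num)
  linarith

theorem gain1 (c3 Z : ℝ) (hc3 : 0 < c3) (hZ : 1 ≤ Z) (γ : ℝ) (A : ℤ) (B e κ0 : ℕ) (t δ : ℝ)
    (s : ℤ) (hB : 0 < B) (hAB : IsCoprime A (B : ℤ)) (he : 0 < e) (heB : Nat.Coprime e B)
    (hκ : 0 < κ0) (ht : 0 < t) (hδ : 0 < δ) (hBZ : (B : ℝ) ≤ Z ^ c3)
    (hγ : |(B : ℝ) * γ - A| ≤ Z ^ (-c3)) (hT1 : 1 ≤ (e : ℝ) / t) (hT2 : (e : ℝ) / t ≤ Z ^ c3)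
    (hκZ : (κ0 : ℝ) ≤ Z ^ (c3 / 2)) (hX : Z ^ (2 * c3) ≤ 2 * t / (δ * κ0))
    (hgood : ((e : ℝ) / t) ^ (1 / 8 : ℝ) * (Nat.gcd B κ0 : ℝ) ≤ B ∨
      ((e : ℝ) / t) ^ (1 / 8 : ℝ) * B * δ / 2 ≤ |(B : ℝ) * γ - A|) :
    ((lineSet γ A B e κ0 t (2 * t / (δ * κ0)) (2 * t / δ) s).card : ℝ) ≤
      50 * ((e : ℝ) / t) ^ (-(1 / 8) : ℝ) * (2 * t / (δ * κ0)) := by
  obtain ⟨hw1, hw8, hwi⟩ := wfacts ((e : ℝ) / t) hT1
  obtain ⟨ha1, hZ1, hZ2, hZ3⟩ := afacts Z c3 hZ hc3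
  set w := ((e : ℝ) / t) ^ (1 / 8 : ℝ) with hw
  set a := Z ^ (c3 / 2) with ha
  rw [hwi]
  rw [hZ1] at hBZ hT2
  rw [hZ2] at hγ
  rw [hZ3] at hX
  rw [← hw8] at hT2
  have hwa : w ≤ a := w_le_a w a hw1 ha1 hT2
  have hB0 : (0 : ℝ) < B := by exact_mod_cast hB
  have he1 : (1 : ℝ) ≤ e := by exact_mod_cast he
  have he0 : (0 : ℝ) < e := by linarith
  have hκ0 : (0 : ℝ) < κ0 := by exact_mod_cast hκ
  have hw0 : 0 < w := by linarith
  have ha0 : 0 < a := by linarith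
  have hew : (e : ℝ) = w ^ 8 * t := by
    rw [hw8]
    field_simp
  set X := 2 * t / (δ * κ0) with hXdef
  have hX0 : 0 < X := by positivity
  have hQ : 2 * t / δ = κ0 * X := by
    rw [hXdef]
    field_simp
  set G : ℝ := (Nat.gcd B κ0 : ℝ) with hG
  have hG1 : (1 : ℝ) ≤ G := by
    have : 0 < Nat.gcd B κ0 := Nat.gcd_pos_of_pos_left _ hB
    rw [hG]
    exact_mod_cast this
  have hG0 : 0 < G := by linarith
  have hGB : G ≤ B := by
    rw [hG]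
    exact_mod_cast Nat.le_of_dvd hB (Nat.gcd_dvd_left _ _)
  set θ := |(B : ℝ) * γ - A| with hθ
  have hθ0 : 0 ≤ θ := abs_nonneg _
  -- `1 ≤ X / w`, `B ≤ X / w`, `X / a ≤ X / w`, `X / w ^ 8 ≤ X / w`
  set Y := X * w⁻¹ with hY
  have hY0 : 0 < Y := by positivity
  have hXY : X = Y * w := by
    rw [hY]
    field_simp
  have h1 : (a : ℝ) ^ 3 ≤ Y := by
    have h2 : a ^ 3 * w ≤ X := by
      refine le_trans ?_ hX
      have h3 : a ^ 3 * w ≤ a ^ 3 * a := mul_le_mul_of_nonneg_left hwa (by positivity)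
      linarith [pow_succ a 3]
    rw [hXY] at h2
    exact le_of_mul_le_mul_right h2 hw0
  have h1Y : 1 ≤ Y := le_trans (one_le_pow₀ ha1) h1
  have hBY : (B : ℝ) ≤ Y := by
    refine hBZ.trans (le_trans ?_ h1)
    exact pow_le_pow_right₀ ha1 (by norm_num)
  have hXa : X / a ≤ Y := by
    rw [hY, div_eq_mul_inv]
    exact mul_le_mul_of_nonneg_left (inv_anti₀ hw0 hwa) hX0.le
  have hX8 : X / w ^ 8 ≤ Y := by
    rw [hY, div_eq_mul_inv]
    refine mul_le_mul_of_nonneg_left ?_ hX0.le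
    refine inv_anti₀ hw0 ?_
    calc w = w ^ 1 := (pow_one w).symm
      _ ≤ w ^ 8 := pow_le_pow_right₀ hw1 (by norm_num)
  -- the two parts of `p`
  set p1 := 8 * t * B / ((e : ℝ) * G) with hp1
  set p2 := 2 * (κ0 * X) * θ / ((e : ℝ) * G) with hp2
  have hp1n : 0 ≤ p1 := by positivity
  have hp2n : 0 ≤ p2 := by positivity
  have hp : 2 * (4 * t * B + 2 * t / δ * θ) / ((e : ℝ) * G) = p1 + p2 := by
    rw [hQ, hp1, hp2]
    ring
  have hp1Y : p1 ≤ 8 * Y := by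
    have h2 : p1 ≤ 8 * B := by
      rw [hp1, hew, div_le_iff₀ (by positivity)]
      have h3 : (1 : ℝ) ≤ w ^ 8 * G := one_le_mul_of_one_le_of_one_le (one_le_pow₀ hw1) hG1
      have h4 : 8 * t * B * 1 ≤ 8 * t * B * (w ^ 8 * G) :=
        mul_le_mul_of_nonneg_left h3 (by positivity)
      linarith
    linarith
  have hp2Y : p2 ≤ 2 * Y := by
    have h2 : p2 ≤ 2 * (κ0 * X) * θ := by
      rw [hp2]
      refine div_le_self (by positivity) ?_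
      exact one_le_mul_of_one_le_of_one_le he1 hG1
    have h3 : (κ0 : ℝ) * θ ≤ a * (a ^ 2)⁻¹ := mul_le_mul hκZ hγ hθ0 ha0.le
    have h4 : a * (a ^ 2)⁻¹ = 1 / a := by field_simp
    rw [h4] at h3
    have h5 : 2 * (κ0 * X) * θ = 2 * X * (κ0 * θ) := by ring
    have h6 : 2 * X * (κ0 * θ) ≤ 2 * X * (1 / a) := mul_le_mul_of_nonneg_left h3 (by positivity)
    have h7 : 2 * X * (1 / a) = 2 * (X / a) := by ring
    linarith
  -- `p1 * N1`
  set N1 := X * G / B with hN1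
  have hN1n : 0 ≤ N1 := by positivity
  have hpN1 : p1 * N1 ≤ 8 * Y := by
    have h2 : p1 * N1 = 8 * (X / w ^ 8) := by
      rw [hp1, hN1, hew]
      field_simp
    rw [h2]
    linarith
  have hc1 := lines_card γ A B e κ0 t X (2 * t / δ) s hB hAB he heB hκ ht hX0.le (by positivity)
  rw [← hθ, ← hG, hp, ← hN1] at hc1
  have hgoal : 50 * w⁻¹ * X = 50 * Y := by
    rw [hY]
    ring
  rw [hgoal]
  rcases hθ0.eq_or_lt with hθz | hθp
  · -- `θ = 0`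
    have hp2z : p2 = 0 := by
      rw [hp2, ← hθz]
      simp
    have hN : N1 ≤ Y := by
      rcases hgood with h | h
      · rw [hN1, div_le_iff₀ hB0, hXY]
        have h2 : Y * (w * G) ≤ Y * B := mul_le_mul_of_nonneg_left h hY0.le
        linarith
      · exfalso
        rw [← hθz] at h
        have : 0 < w * B * δ / 2 := by positivity
        linarith
    rw [hp2z, add_zero] at hc1
    have h2 : (p1 + 1) * (N1 + 1) = p1 * N1 + p1 + N1 + 1 := by ring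
    rw [h2] at hc1
    linarith
  · have hc2 := lines_card' γ A B e κ0 t X (2 * t / δ) s hB hAB he heB hκ ht hX0.le
      (by positivity) hθp
    rw [← hθ, ← hG, hp] at hc2
    set N2 := 8 * t * B / ((κ0 : ℝ) * θ) * G / B with hN2
    have hN2n : 0 ≤ N2 := by positivity
    have hpN2 : p2 * N2 ≤ 16 * Y := by
      have h2 : p2 * N2 = 16 * (X / w ^ 8) := by
        rw [hp2, hN2, hew]
        field_simp
        ring
      rw [h2]
      linarith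
    have hN : min N1 N2 ≤ 8 * Y := by
      rcases hgood with h | h
      · refine (min_le_left _ _).trans ?_
        have h3 : N1 ≤ Y := by
          rw [hN1, div_le_iff₀ hB0, hXY]
          have h2 : Y * (w * G) ≤ Y * B := mul_le_mul_of_nonneg_left h hY0.le
          linarith
        linarith
      · refine (min_le_right _ _).trans ?_
        have h3 : N2 ≤ 8 * t * B / ((κ0 : ℝ) * θ) := by
          rw [hN2, div_le_iff₀ hB0]
          exact mul_le_mul_of_nonneg_left hGB (by positivity)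
        refine h3.trans ?_
        rw [div_le_iff₀ (by positivity)]
        have h4 : 8 * Y * (κ0 * (w * B * δ / 2)) ≤ 8 * Y * (κ0 * θ) := by
          refine mul_le_mul_of_nonneg_left ?_ (by positivity)
          exact mul_le_mul_of_nonneg_left h hκ0.le
        refine le_trans (le_of_eq ?_) h4
        rw [hY, hXdef]
        field_simp
    have hc : ((lineSet γ A B e κ0 t X (2 * t / δ) s).card : ℝ) ≤
        (p1 + p2 + 1) * (min N1 N2 + 1) := by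
      rcases min_choice N1 N2 with h | h
      · rw [h]
        exact hc1
      · rw [h]
        exact hc2
    have hm0 : 0 ≤ min N1 N2 := le_min hN1n hN2n
    have h2 : (p1 + p2 + 1) * (min N1 N2 + 1) =
        p1 * min N1 N2 + p2 * min N1 N2 + p1 + p2 + min N1 N2 + 1 := by ring
    have h3 : p1 * min N1 N2 ≤ p1 * N1 := mul_le_mul_of_nonneg_left (min_le_left _ _) hp1n
    have h4 : p2 * min N1 N2 ≤ p2 * N2 := mul_le_mul_of_nonneg_left (min_le_right _ _) hp2n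
    rw [h2] at hc
    linarith

open Classical in
theorem gain2 (c3 Z : ℝ) (hc3 : 0 < c3) (hZ : 1 ≤ Z) (γ : ℝ) (A : ℤ) (B e κ0 h : ℕ) (t X : ℝ)
    (s : ℕ) (hB : 0 < B) (hAB : IsCoprime A (B : ℤ)) (he : 0 < e) (heB : Nat.Coprime e B)
    (hκ : 0 < κ0) (ht : 0 < t) (hBZ : (B : ℝ) ≤ Z ^ c3)
    (hT1 : 1 ≤ (e : ℝ) / t) (hT2 : (e : ℝ) / t ≤ Z ^ c3) (hX : Z ^ (2 * c3) ≤ X)
    (hh : Nat.Coprime h κ0)
    (hbad : (B : ℝ) < ((e : ℝ) / t) ^ (1 / 8 : ℝ) * (Nat.gcd B h : ℝ))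
    (hs : (s : ℝ) * |(B : ℝ) * γ - A| ≤ ((e : ℝ) / t) ^ (1 / 8 : ℝ) * B * t) :
    (((Finset.Icc 1 ⌊X⌋₊).filter (fun x : ℕ => κ0 * x ≤ s ∧
      ∃ n : ℤ, |(n : ℝ) - (((κ0 : ℤ) * (x : ℤ) - (s : ℤ) : ℤ) : ℝ) * γ| < 4 * t ∧
        mm A B ((κ0 : ℤ) * (x : ℤ) - (s : ℤ)) n ≠ 0 ∧
        (e : ℤ) ∣ mm A B ((κ0 : ℤ) * (x : ℤ) - (s : ℤ)) n)).card : ℝ) ≤
      30 * ((e : ℝ) / t) ^ (-(1 / 8) : ℝ) * X := by
  obtain ⟨hw1, hw8, hwi⟩ := wfacts ((e : ℝ) / t) hT1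
  obtain ⟨ha1, hZ1, hZ2, hZ3⟩ := afacts Z c3 hZ hc3
  set w := ((e : ℝ) / t) ^ (1 / 8 : ℝ) with hw
  set a := Z ^ (c3 / 2) with ha
  rw [hwi]
  rw [hZ1] at hBZ hT2
  rw [hZ3] at hX
  rw [← hw8] at hT2
  have hwa : w ≤ a := w_le_a w a hw1 ha1 hT2
  have hB0 : (0 : ℝ) < B := by exact_mod_cast hB
  have he0 : (0 : ℝ) < e := by exact_mod_cast he
  have hw0 : 0 < w := by linarith
  have ha0 : 0 < a := by linarith
  have hX0 : 0 < X := lt_of_lt_of_le (by positivity) hX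
  have hew : (e : ℝ) = w ^ 8 * t := by
    rw [hw8]
    field_simp
  set Y := X * w⁻¹ with hY
  have hY0 : 0 < Y := by positivity
  have hXY : X = Y * w := by
    rw [hY]
    field_simp
  have h1 : (a : ℝ) ^ 3 ≤ Y := by
    have h2 : a ^ 3 * w ≤ X := by
      refine le_trans ?_ hX
      have h3 : a ^ 3 * w ≤ a ^ 3 * a := mul_le_mul_of_nonneg_left hwa (by positivity)
      linarith [pow_succ a 3]
    rw [hXY] at h2
    exact le_of_mul_le_mul_right h2 hw0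
  have h1Y : 1 ≤ Y := le_trans (one_le_pow₀ ha1) h1
  have hBY : (B : ℝ) ≤ Y := by
    refine hBZ.trans (le_trans ?_ h1)
    exact pow_le_pow_right₀ ha1 (by norm_num)
  have hgoal : 30 * w⁻¹ * X = 30 * Y := by
    rw [hY]
    ring
  rw [hgoal]
  -- inclusion in the line set
  have hsub : ((Finset.Icc 1 ⌊X⌋₊).filter (fun x : ℕ => κ0 * x ≤ s ∧
      ∃ n : ℤ, |(n : ℝ) - (((κ0 : ℤ) * (x : ℤ) - (s : ℤ) : ℤ) : ℝ) * γ| < 4 * t ∧
        mm A B ((κ0 : ℤ) * (x : ℤ) - (s : ℤ)) n ≠ 0 ∧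
        (e : ℤ) ∣ mm A B ((κ0 : ℤ) * (x : ℤ) - (s : ℤ)) n)) ⊆
      lineSet γ A B e κ0 t X (s : ℝ) (s : ℤ) := by
    intro x hx
    rw [Finset.mem_filter] at hx
    obtain ⟨hx1, hx2, n, hn1, hn2, hn3⟩ := hx
    unfold lineSet
    rw [Finset.mem_filter]
    have hmm : mm A B ((s : ℤ) - (κ0 : ℤ) * (x : ℤ)) (-n) =
        - mm A B ((κ0 : ℤ) * (x : ℤ) - (s : ℤ)) n := by
      unfold mm
      ring
    have hx2' : (κ0 : ℝ) * x ≤ s := by exact_mod_cast hx2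
    refine ⟨hx1, ?_, -n, ?_, ?_, ?_⟩
    · push_cast
      rw [abs_of_nonneg (by linarith)]
      have : (0 : ℝ) ≤ κ0 * x := by positivity
      linarith
    · have e1 : ((-n : ℤ) : ℝ) - (((s : ℤ) - (κ0 : ℤ) * (x : ℤ) : ℤ) : ℝ) * γ =
          -((n : ℝ) - (((κ0 : ℤ) * (x : ℤ) - (s : ℤ) : ℤ) : ℝ) * γ) := by
        push_cast
        ring
      rw [e1, abs_neg]
      exact hn1
    · rw [hmm]
      exact neg_ne_zero.2 hn2
    · rw [hmm]
      exact (dvd_neg).2 hn3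
  have hcard : (((Finset.Icc 1 ⌊X⌋₊).filter (fun x : ℕ => κ0 * x ≤ s ∧
      ∃ n : ℤ, |(n : ℝ) - (((κ0 : ℤ) * (x : ℤ) - (s : ℤ) : ℤ) : ℝ) * γ| < 4 * t ∧
        mm A B ((κ0 : ℤ) * (x : ℤ) - (s : ℤ)) n ≠ 0 ∧
        (e : ℤ) ∣ mm A B ((κ0 : ℤ) * (x : ℤ) - (s : ℤ)) n)).card : ℝ) ≤
      ((lineSet γ A B e κ0 t X (s : ℝ) (s : ℤ)).card : ℝ) := by
    exact_mod_cast Finset.card_le_card hsub
  refine hcard.trans ?_
  set θ := |(B : ℝ) * γ - A| with hθ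
  have hθ0 : 0 ≤ θ := abs_nonneg _
  by_cases hL : 4 * t * B + (s : ℝ) * θ < e
  · rw [lines_empty γ A B e κ0 t X (s : ℝ) (s : ℤ) hB ht (by positivity) hL]
    simp only [Finset.card_empty, Nat.cast_zero]
    positivity
  push Not at hL
  -- `L ≤ 5 w t B`
  have hL5 : 4 * t * B + (s : ℝ) * θ ≤ 5 * (w * t * B) := by
    have h2 : t * B * 1 ≤ t * B * w := mul_le_mul_of_nonneg_left hw1 (by positivity)
    have h3 : w * B * t = w * t * B := by ring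
    rw [h3] at hs
    linarith
  set G : ℝ := (Nat.gcd B κ0 : ℝ) with hG
  have hG1 : (1 : ℝ) ≤ G := by
    have : 0 < Nat.gcd B κ0 := Nat.gcd_pos_of_pos_left _ hB
    rw [hG]
    exact_mod_cast this
  have hG0 : 0 < G := by linarith
  -- `G < w`
  have hGw : G < w := by
    have h2 : (Nat.gcd B κ0) * (Nat.gcd B h) ≤ B := by
      apply Nat.le_of_dvd hB
      refine Nat.Coprime.mul_dvd_of_dvd_of_dvd ?_ (Nat.gcd_dvd_left _ _) (Nat.gcd_dvd_left _ _)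
      exact Nat.Coprime.coprime_dvd_left (Nat.gcd_dvd_right _ _)
        (Nat.Coprime.coprime_dvd_right (Nat.gcd_dvd_right _ _) hh.symm)
    have h3 : G * (Nat.gcd B h : ℝ) ≤ B := by
      rw [hG]
      exact_mod_cast h2
    have h4 : (0 : ℝ) < (Nat.gcd B h : ℝ) := by
      have : 0 < Nat.gcd B h := Nat.gcd_pos_of_pos_left _ hB
      exact_mod_cast this
    exact lt_of_mul_lt_mul_right (h3.trans_lt hbad) h4.le
  -- `w ^ 7 ≤ 5 B`
  have hB5 : w ^ 7 ≤ 5 * B := by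
    have h2 : w ^ 8 * t ≤ 5 * (w * t * B) := by
      rw [← hew]
      linarith
    have h3 : w ^ 7 * (w * t) ≤ 5 * B * (w * t) := by
      have e1 : w ^ 7 * (w * t) = w ^ 8 * t := by ring
      have e2 : 5 * B * (w * t) = 5 * (w * t * B) := by ring
      rw [e1, e2]
      exact h2
    exact le_of_mul_le_mul_right h3 (by positivity)
  have hc1 := lines_card γ A B e κ0 t X (s : ℝ) (s : ℤ) hB hAB he heB hκ ht hX0.le
    (by positivity)
  rw [← hθ, ← hG] at hc1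
  set L := 4 * t * B + (s : ℝ) * θ with hLdef
  have hL0 : 0 ≤ L := by positivity
  have h2 : (2 * L / ((e : ℝ) * G) + 1) * (X * G / B + 1) =
      2 * L * X / (e * B) + 2 * L / (e * G) + X * G / B + 1 := by
    field_simp
    ring
  rw [h2] at hc1
  have hw7 : (1 : ℝ) ≤ w ^ 6 := one_le_pow₀ hw1
  -- first term
  have t1 : 2 * L * X / (e * B) ≤ 10 * Y := by
    rw [div_le_iff₀ (by positivity), hew, hXY]
    have h3 : 2 * L * (Y * w) ≤ 2 * (5 * (w * t * B)) * (Y * w) := by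
      refine mul_le_mul_of_nonneg_right ?_ (by positivity)
      linarith
    have h4 : 10 * Y * (t * B * w ^ 2) * 1 ≤ 10 * Y * (t * B * w ^ 2) * w ^ 6 :=
      mul_le_mul_of_nonneg_left hw7 (by positivity)
    have e1 : 2 * (5 * (w * t * B)) * (Y * w) = 10 * Y * (t * B * w ^ 2) * 1 := by ring
    have e2 : 10 * Y * (t * B * w ^ 2) * w ^ 6 = 10 * Y * (w ^ 8 * t * B) := by ring
    linarith
  have t2 : 2 * L / (e * G) ≤ 10 * Y := by
    have h3 : 2 * L / (e * G) ≤ 10 * B := by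
      rw [div_le_iff₀ (by positivity), hew]
      have h4 : (1 : ℝ) ≤ w ^ 7 * G :=
        one_le_mul_of_one_le_of_one_le (one_le_pow₀ hw1) hG1
      have h5 : 10 * B * (w * t) * 1 ≤ 10 * B * (w * t) * (w ^ 7 * G) :=
        mul_le_mul_of_nonneg_left h4 (by positivity)
      have e1 : 10 * B * (w * t) * (w ^ 7 * G) = 10 * B * (w ^ 8 * t * G) := by ring
      have e2 : 2 * (5 * (w * t * B)) = 10 * B * (w * t) * 1 := by ring
      linarith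
    linarith
  have t3 : X * G / B ≤ 5 * Y := by
    rw [div_le_iff₀ hB0, hXY]
    have h3 : Y * w * G ≤ Y * w * w := mul_le_mul_of_nonneg_left hGw.le (by positivity)
    have h4 : Y * w * w ≤ Y * w ^ 7 := by
      have h5 : w ^ 2 ≤ w ^ 7 := pow_le_pow_right₀ hw1 (by norm_num)
      have h6 := mul_le_mul_of_nonneg_left h5 hY0.le
      have e1 : Y * w * w = Y * w ^ 2 := by ring
      rw [e1]
      exact h6
    have h5 : Y * w ^ 7 ≤ Y * (5 * B) := mul_le_mul_of_nonneg_left hB5 hY0.le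
    linarith
  linarith

end Vale.Agent.P028E
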