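import Vale.Agent.Lib.P028.E.Defs

/-!
H5b: approximation of a measurable set by grid intervals.

Inner regularity: compact `K' ⊆ K` with `vol (K \ K') ≤ η/2` (`MeasurableSet.exists_isCompact_lt_add` or
similar).  Outer regularity: open `O ⊇ K` with `vol (O \ K) ≤ η`.  `IsCompact.exists_thickening_subset_open`
gives `ρ > 0` with `thickening ρ K' ⊆ O`.  Take `N > 1/ρ` and let `T` be the set of the `k < N` for which
`Ico (k/N) ((k+1)/N)` meets `K'`.  The union `U` of these intervals satisfies `K' ⊆ U ⊆ O`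
(`K' ⊆ K ⊆ [0,1)`), and `vol U = #T / N`.
-/

open Finset MeasureTheory

namespace Vale.Agent.P028E

/-- grid interval -/
def gI (N k : ℕ) : Set ℝ := Set.Ico ((k : ℝ) / N) (((k : ℝ) + 1) / N)

theorem grid_approx (K : Set ℝ) (hK : MeasurableSet K) (hK1 : K ⊆ Set.Ico (0 : ℝ) 1) (η : ℝ)
    (hη : 0 < η) : ∃ (N : ℕ) (T : Finset ℕ), 0 < N ∧ (∀ k ∈ T, k < N) ∧
      volume.real ((⋃ k ∈ T, gI N k) \ K) ≤ η ∧ volume.real K - η ≤ (T.card : ℝ) / N := by
  classical
  have hfin : volume K ≠ ⊤ := by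
    refine ne_top_of_le_ne_top ?_ (measure_mono hK1)
    rw [Real.volume_Ico]
    exact ENNReal.ofReal_ne_top
  have hη' : ENNReal.ofReal η ≠ 0 := by
    rw [Ne, ENNReal.ofReal_eq_zero, not_le]
    exact hη
  obtain ⟨K', hK'K, hK'c, hK'm⟩ := hK.exists_isCompact_lt_add hfin hη'
  obtain ⟨O, hKO, hOo, hOm⟩ := K.exists_isOpen_lt_add hfin hη'
  obtain ⟨ρ, hρ, hρO⟩ := hK'c.exists_thickening_subset_open hOo (hK'K.trans hKO)
  obtain ⟨N, hN⟩ := exists_nat_gt (1 / ρ)
  have hNpos : (0 : ℝ) < N := lt_trans (by positivity) hN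
  have hN0 : 0 < N := by exact_mod_cast hNpos
  have hNρ : (1 : ℝ) / N < ρ := by
    rw [div_lt_iff₀ hNpos]
    rw [div_lt_iff₀ hρ] at hN
    linarith
  set T : Finset ℕ := (Finset.range N).filter (fun k => (gI N k ∩ K').Nonempty) with hT
  have hU1 : K' ⊆ ⋃ k ∈ T, gI N k := by
    intro x hx
    obtain ⟨hx0, hx1⟩ := hK1 (hK'K hx)
    have hxN : 0 ≤ x * N := by positivity
    have hmem : x ∈ gI N ⌊x * N⌋₊ := by
      refine ⟨?_, ?_⟩
      · rw [div_le_iff₀ hNpos]
        exact Nat.floor_le hxN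
      · rw [lt_div_iff₀ hNpos]
        exact Nat.lt_floor_add_one _
    have hlt : ⌊x * N⌋₊ < N := by
      rw [Nat.floor_lt hxN]
      have := mul_lt_mul_of_pos_right hx1 hNpos
      linarith
    simp only [Set.mem_iUnion]
    exact ⟨⌊x * N⌋₊, Finset.mem_filter.2 ⟨Finset.mem_range.2 hlt, ⟨x, hmem, hx⟩⟩, hmem⟩
  have hU2 : (⋃ k ∈ T, gI N k) ⊆ O := by
    intro x hx
    simp only [Set.mem_iUnion] at hx
    obtain ⟨k, hk, hxk⟩ := hx
    obtain ⟨y, hy, hyK⟩ := (Finset.mem_filter.1 hk).2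
    refine hρO ?_
    rw [Metric.mem_thickening_iff]
    refine ⟨y, hyK, ?_⟩
    rw [Real.dist_eq, abs_lt]
    have h1 : ((k : ℝ) + 1) / N = (k : ℝ) / N + 1 / N := by ring
    have hx1 := hxk.1
    have hx2 := hxk.2
    have hy1 := hy.1
    have hy2 := hy.2
    rw [h1] at hx2 hy2
    constructor <;> linarith
  have hOfin : volume O ≠ ⊤ := ne_top_of_lt hOm
  have hOK : volume.real (O \ K) ≤ η := by
    have h1 : volume (O \ K) = volume O - volume K :=
      measure_sdiff hKO hK.nullMeasurableSet hfin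
    have h2 : volume (O \ K) ≤ ENNReal.ofReal η := by
      rw [h1]
      exact tsub_le_iff_left.2 hOm.le
    have h3 := ENNReal.toReal_mono ENNReal.ofReal_ne_top h2
    rwa [ENNReal.toReal_ofReal hη.le] at h3
  refine ⟨N, T, hN0, fun k hk => Finset.mem_range.1 (Finset.mem_filter.1 hk).1, ?_, ?_⟩
  · refine le_trans (measureReal_mono (Set.sdiff_subset_sdiff_left hU2) ?_) hOK
    exact ne_top_of_le_ne_top hOfin (measure_mono Set.sdiff_subset)
  · have hK'fin : volume K' ≠ ⊤ := hK'c.measure_ne_top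
    have h1 : volume.real K ≤ volume.real K' + η := by
      have h2 := ENNReal.toReal_mono (ENNReal.add_ne_top.2 ⟨hK'fin, ENNReal.ofReal_ne_top⟩) hK'm.le
      rwa [ENNReal.toReal_add hK'fin ENNReal.ofReal_ne_top, ENNReal.toReal_ofReal hη.le] at h2
    have hUfin : volume (⋃ k ∈ T, gI N k) ≠ ⊤ := ne_top_of_le_ne_top hOfin (measure_mono hU2)
    have h2 : volume.real K' ≤ volume.real (⋃ k ∈ T, gI N k) := measureReal_mono hU1 hUfin
    have h3 : volume.real (⋃ k ∈ T, gI N k) ≤ ∑ k ∈ T, volume.real (gI N k) :=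
      measureReal_biUnion_finset_le _ _
    have h4 : ∑ k ∈ T, volume.real (gI N k) = (T.card : ℝ) / N := by
      have h5 : ∀ k ∈ T, volume.real (gI N k) = 1 / N := by
        intro k _
        unfold gI
        rw [Real.volume_real_Ico_of_le]
        · ring
        · exact div_le_div_of_nonneg_right (by linarith) hNpos.le
      rw [Finset.sum_congr rfl h5, Finset.sum_const, nsmul_eq_mul]
      ring
    linarith

end Vale.Agent.P028E
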