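import Vale.Agent.Lib.P028.E.Defs

/-!
H5c: choice of a block of mass between 1 and 2, and a weighted Cauchy-Schwarz inequality.

`cs_weighted`: pointwise `F ≤ t/2 + F²/(2t)` for `F = ∑ l i 1_{E i}`, integrate (compare
`Vale.Agent.P028.cs_abstract` in `Vale/Agent/Lib/P028/FullMeasure.lean`).
-/

open Finset MeasureTheory

namespace Vale.Agent.P028E

theorem block_select (f : ℕ → ℝ) (hf0 : ∀ q, 0 ≤ f q) (hf1 : ∀ q, f q ≤ 1) (hdiv : ¬ Summable f)
    (X : ℕ) : ∃ Q : Finset ℕ, (∀ q ∈ Q, X ≤ q ∧ f q ≠ 0) ∧ 1 ≤ ∑ q ∈ Q, f q ∧ ∑ q ∈ Q, f q ≤ 2 := by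
  classical
  -- partial sums of the shifted sequence
  have hdiv' : ¬ Summable (fun q => f (q + X)) := fun h => hdiv ((summable_nat_add_iff X).1 h)
  have hex : ∃ N : ℕ, 1 ≤ ∑ q ∈ range N, f (q + X) := by
    by_contra hcon
    push Not at hcon
    exact hdiv' (summable_of_sum_range_le (fun n => hf0 _) (fun n => (hcon n).le))
  let N := Nat.find hex
  have hN : 1 ≤ ∑ q ∈ range N, f (q + X) := Nat.find_spec hex
  have hN0 : N ≠ 0 := by
    intro h0
    rw [h0, Finset.sum_range_zero] at hN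
    linarith
  obtain ⟨M, hM⟩ : ∃ M, N = M + 1 := Nat.exists_eq_succ_of_ne_zero hN0
  have hM1 : ∑ q ∈ range M, f (q + X) < 1 := by
    have h1 : ¬ 1 ≤ ∑ q ∈ range M, f (q + X) := Nat.find_min hex (by
      change M < N
      omega)
    exact not_le.1 h1
  have hN2 : ∑ q ∈ range N, f (q + X) ≤ 2 := by
    rw [hM, Finset.sum_range_succ]
    have := hf1 (M + X)
    linarith
  refine ⟨((range N).image (fun q => q + X)).filter (fun q => f q ≠ 0), ?_, ?_⟩
  · intro q hq
    obtain ⟨h1, h2⟩ := Finset.mem_filter.1 hq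
    obtain ⟨r, _, rfl⟩ := Finset.mem_image.1 h1
    exact ⟨Nat.le_add_left _ _, h2⟩
  · have h1 : ∑ q ∈ ((range N).image (fun q => q + X)).filter (fun q => f q ≠ 0), f q =
        ∑ q ∈ range N, f (q + X) := by
      rw [Finset.sum_filter_ne_zero, Finset.sum_image]
      intro a _ b _ hab
      exact Nat.add_right_cancel hab
    rw [h1]
    exact ⟨hN, hN2⟩

theorem cs_weighted {α : Type*} [MeasurableSpace α] (μ : Measure α) [IsFiniteMeasure μ]
    (Q : Finset ℕ) (E : ℕ → Set α) (hE : ∀ i ∈ Q, MeasurableSet (E i)) (l : ℕ → ℝ) (t : ℝ)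
    (ht : 0 < t) :
    ∑ i ∈ Q, l i * μ.real (E i) ≤
      (t / 2) * μ.real Set.univ +
        (1 / (2 * t)) * ∑ i ∈ Q, ∑ j ∈ Q, l i * l j * μ.real (E i ∩ E j) := by
  classical
  have hint : ∀ s : Set α, MeasurableSet s → Integrable (s.indicator (fun _ => (1 : ℝ))) μ :=
    fun s hs => (integrable_const (1 : ℝ)).indicator hs
  have h1 : ∀ s : Set α, MeasurableSet s →
      ∫ x, s.indicator (fun _ => (1 : ℝ)) x ∂μ = μ.real s := by
    intro s hs
    rw [integral_indicator_const _ hs, smul_eq_mul, mul_one]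
  have hF : ∑ i ∈ Q, l i * μ.real (E i) =
      ∫ x, ∑ i ∈ Q, l i * (E i).indicator (fun _ => (1 : ℝ)) x ∂μ := by
    rw [integral_finsetSum _ (fun i hi => (hint _ (hE i hi)).const_mul _)]
    refine Finset.sum_congr rfl fun i hi => ?_
    rw [integral_const_mul, h1 _ (hE i hi)]
  have hF2 : ∑ i ∈ Q, ∑ j ∈ Q, l i * l j * μ.real (E i ∩ E j) =
      ∫ x, ∑ i ∈ Q, ∑ j ∈ Q, l i * l j * (E i ∩ E j).indicator (fun _ => (1 : ℝ)) x ∂μ := by
    rw [integral_finsetSum _ (fun i hi => integrable_finsetSum _ (fun j hj =>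
      (hint _ ((hE i hi).inter (hE j hj))).const_mul _))]
    refine Finset.sum_congr rfl fun i hi => ?_
    rw [integral_finsetSum _ (fun j hj => (hint _ ((hE i hi).inter (hE j hj))).const_mul _)]
    refine Finset.sum_congr rfl fun j hj => ?_
    rw [integral_const_mul, h1 _ ((hE i hi).inter (hE j hj))]
  have hc : (t / 2) * μ.real Set.univ = ∫ _x, t / 2 ∂μ := by
    rw [integral_const, smul_eq_mul, mul_comm]
  rw [hF, hF2, hc, ← integral_const_mul, ← integral_add (integrable_const _)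
    ((integrable_finsetSum _ (fun i hi => integrable_finsetSum _ (fun j hj =>
      (hint _ ((hE i hi).inter (hE j hj))).const_mul _))).const_mul _)]
  refine integral_mono (integrable_finsetSum _ (fun i hi => (hint _ (hE i hi)).const_mul _))
    ((integrable_const _).add ((integrable_finsetSum _ (fun i hi =>
      integrable_finsetSum _ (fun j hj =>
      (hint _ ((hE i hi).inter (hE j hj))).const_mul _))).const_mul _)) ?_
  intro x
  have hsq : ∑ i ∈ Q, ∑ j ∈ Q, l i * l j * (E i ∩ E j).indicator (fun _ => (1 : ℝ)) x =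
      (∑ i ∈ Q, l i * (E i).indicator (fun _ => (1 : ℝ)) x) ^ 2 := by
    rw [sq, Finset.sum_mul_sum]
    refine Finset.sum_congr rfl fun i _ => Finset.sum_congr rfl fun j _ => ?_
    by_cases hi : x ∈ E i <;> by_cases hj : x ∈ E j <;> simp [hi, hj]
  change ∑ i ∈ Q, l i * (E i).indicator (fun _ => (1 : ℝ)) x ≤ t / 2 +
    1 / (2 * t) * ∑ i ∈ Q, ∑ j ∈ Q, l i * l j * (E i ∩ E j).indicator (fun _ => (1 : ℝ)) x
  rw [hsq]
  generalize ∑ i ∈ Q, l i * (E i).indicator (fun _ => (1 : ℝ)) x = F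
  have h2 : t / 2 + 1 / (2 * t) * F ^ 2 - F = (F - t) ^ 2 / (2 * t) := by
    field_simp
    ring
  have h3 : 0 ≤ (F - t) ^ 2 / (2 * t) := by positivity
  linarith

end Vale.Agent.P028E
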