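import Vale.Agent.Lib.P028.E.Block
import Vale.Agent.Lib.P028.E.CrCnt

/-!
H5a: lower bound for the measure of `Eq` in an interval.

For `q ≥ q₁`: `δ q ≤ q^(-ε) < 1/2`, so the intervals `{x : |q x - a - γ| < δ q}` for different `a` are
disjoint, of length `2 δ q / q`.  Those with `a ∈ Ico (⌈q u + δ - γ⌉) (⌊q v - δ - γ⌋)` are
contained in `Ico u v` (and in `[0,1)`).  The length of this integer interval is at least
`q (v - u) - 4 ≥ (99/100) q (v-u)`, so `count_lower` (with `κ = η/2`) gives at least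
`(99/200) q (v-u) dn B q` admissible `a`, total length `≥ (99/100) (v-u) dn B q δ q`; multiply by
`lam B q` and use `lam_dn`.
-/

open Finset MeasureTheory

namespace Vale.Agent.P028E

theorem local_lower (s : ℕ) (ε : ℝ) (hε : 0 < ε) (η : ℝ) (hη : 0 < η) : ∃ q₁ : ℕ, 1 ≤ q₁ ∧
    ∀ (γ : ℝ) (δ : ℕ → ℝ) (q : ℕ), q₁ ≤ q → 0 < δ q → δ q ≤ (q : ℝ) ^ (-ε) → ∀ u v : ℝ,
      0 ≤ u → v ≤ 1 → η ≤ v - u →
      (v - u) / 2 * wt δ q ≤ lam (Bq γ s q) q * volume.real (Eq γ s δ q ∩ Set.Ico u v) := by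
  classical
  obtain ⟨q₀, hq₀, hcnt⟩ := count_lower (η / 2) (by positivity)
  have ht : Filter.Tendsto (fun q : ℕ => (q : ℝ) ^ (-ε)) Filter.atTop (nhds 0) :=
    (tendsto_rpow_neg_atTop hε).comp tendsto_natCast_atTop_atTop
  obtain ⟨q₂, hq₂⟩ := Filter.eventually_atTop.mp
    (ht.eventually (gt_mem_nhds (show (0 : ℝ) < 1 / 2 by norm_num)))
  obtain ⟨q₃, hq₃⟩ := exists_nat_ge (8 / η)
  refine ⟨max q₀ (max q₂ q₃), le_trans hq₀ (le_max_left _ _), ?_⟩
  intro γ δ q hq hδ hδε u v hu hv huv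
  have hq0 : q₀ ≤ q := le_trans (le_max_left _ _) hq
  have hq2 : q₂ ≤ q := le_trans (le_trans (le_max_left _ _) (le_max_right _ _)) hq
  have hq3 : q₃ ≤ q := le_trans (le_trans (le_max_right _ _) (le_max_right _ _)) hq
  have hqpos : 0 < q := lt_of_lt_of_le (Nat.lt_of_lt_of_le Nat.zero_lt_one hq₀) hq0
  have hqR : (0 : ℝ) < q := by exact_mod_cast hqpos
  have hδ2 : δ q < 1 / 2 := lt_of_le_of_lt hδε (hq₂ q hq2)
  have h8 : 8 ≤ (q : ℝ) * (v - u) := by
    have h1 : 8 / η ≤ (q : ℝ) := hq₃.trans (by exact_mod_cast hq3)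
    rw [div_le_iff₀ hη] at h1
    have h2 : (q : ℝ) * η ≤ q * (v - u) := mul_le_mul_of_nonneg_left huv hqR.le
    linarith
  set B := Bq γ s q with hB
  set A := Aq γ s q with hA
  have hBpos : 0 < B := Vale.Agent.P028.cB_pos _ _
  have hAB : IsCoprime A (B : ℤ) := Vale.Agent.P028.cAB _ _
  set a0 : ℤ := ⌈(q : ℝ) * u + δ q - γ⌉ with ha0
  set a1 : ℤ := ⌊(q : ℝ) * v - δ q - γ⌋ with ha1
  have hl0 : (a0 : ℝ) < (q : ℝ) * u + δ q - γ + 1 := Int.ceil_lt_add_one _
  have hl1 : (q : ℝ) * v - δ q - γ < a1 + 1 := Int.lt_floor_add_one _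
  have hlen : (q : ℝ) * (v - u) / 2 ≤ (a1 : ℝ) - a0 := by nlinarith
  have hκ : η / 2 * q ≤ (a1 : ℝ) - a0 := by nlinarith
  have hc := hcnt A B hBpos hAB q hq0 a0 a1 hκ
  set T := (Finset.Ico a0 a1).filter (fun a => IsCoprime ((B : ℤ) * a + A) (q : ℤ)) with hT
  have hdn : 0 < dn B q := dn_pos B q
  have hlam := lam_pos B q
  -- the intervals
  let I : ℤ → Set ℝ := fun a => Set.Ioo (((a : ℝ) + γ - δ q) / q) (((a : ℝ) + γ + δ q) / q)
  have hI : ∀ a x, x ∈ I a ↔ |(q : ℝ) * x - a - γ| < δ q := by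
    intro a x
    simp only [I, Set.mem_Ioo, abs_lt]
    rw [div_lt_iff₀ hqR, lt_div_iff₀ hqR]
    constructor
    · rintro ⟨h1, h2⟩
      constructor <;> nlinarith
    · rintro ⟨h1, h2⟩
      constructor <;> nlinarith
  have hIm : ∀ a ∈ T, MeasurableSet (I a) := fun a _ => measurableSet_Ioo
  have hdisj : Set.PairwiseDisjoint (T : Set ℤ) I := by
    intro a _ b _ hab
    rw [Function.onFun, Set.disjoint_left]
    intro x hx hy
    rw [hI, abs_lt] at hx hy
    have h1 : |(a : ℝ) - b| < 1 := by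
      rw [abs_lt]
      constructor <;> linarith [hx.1, hx.2, hy.1, hy.2]
    have h2 : |a - b| < 1 := by
      have : ((|a - b| : ℤ) : ℝ) < 1 := by push_cast; exact h1
      exact_mod_cast this
    rw [Int.abs_lt_one_iff] at h2
    exact hab (by omega)
  have hIfin : ∀ a, volume (I a) ≠ ⊤ := by
    intro a
    simp only [I, Real.volume_Ioo]
    exact ENNReal.ofReal_ne_top
  have hvol : ∀ a ∈ T, volume.real (I a) = 2 * δ q / q := by
    intro a _
    simp only [I, Measure.real, Real.volume_Ioo]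
    rw [ENNReal.toReal_ofReal]
    · ring
    · rw [← sub_div]
      apply div_nonneg _ hqR.le
      linarith
  have hsub : (⋃ a ∈ T, I a) ⊆ Eq γ s δ q ∩ Set.Ico u v := by
    intro x hx
    simp only [Set.mem_iUnion] at hx
    obtain ⟨a, haT, hxa⟩ := hx
    rw [hI] at hxa
    rw [hT, Finset.mem_filter, Finset.mem_Ico] at haT
    obtain ⟨⟨h1, h2⟩, h3⟩ := haT
    have h1' : (q : ℝ) * u + δ q - γ ≤ a := (Int.le_ceil _).trans (by exact_mod_cast h1)
    have h2' : (a : ℝ) < (q : ℝ) * v - δ q - γ := by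
      have : (a : ℝ) < (a1 : ℝ) := by exact_mod_cast h2
      exact this.trans_le (Int.floor_le _)
    have hxa' := abs_lt.mp hxa
    have hxu : u ≤ x := by
      have : (q : ℝ) * u ≤ q * x := by linarith [hxa'.1]
      exact le_of_mul_le_mul_left this hqR
    have hxv : x < v := by
      have : (q : ℝ) * x < q * v := by linarith [hxa'.2]
      exact lt_of_mul_lt_mul_left this hqR.le
    refine ⟨⟨⟨hu.trans hxu, hxv.trans_le hv⟩, a, h3, hxa⟩, hxu, hxv⟩
  have hfin : volume (Eq γ s δ q ∩ Set.Ico u v) ≠ ⊤ := by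
    apply ne_top_of_le_ne_top _ (measure_mono Set.inter_subset_right)
    rw [Real.volume_Ico]
    exact ENNReal.ofReal_ne_top
  have hmeas : (T.card : ℝ) * (2 * δ q / q) ≤ volume.real (Eq γ s δ q ∩ Set.Ico u v) := by
    calc (T.card : ℝ) * (2 * δ q / q) = ∑ a ∈ T, volume.real (I a) := by
          rw [Finset.sum_congr rfl hvol, Finset.sum_const, nsmul_eq_mul]
      _ = volume.real (⋃ a ∈ T, I a) := by
          rw [measureReal_biUnion_finset hdisj hIm (fun a _ => hIfin a)]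
      _ ≤ _ := measureReal_mono hsub hfin
  have hw : wt δ q = lam B q * dn B q * δ q := by
    unfold wt
    rw [lam_dn B q hqpos]
  calc (v - u) / 2 * wt δ q = lam B q * (((q : ℝ) * (v - u) / 2) / 2 * dn B q * (2 * δ q / q)) := by
        rw [hw]
        field_simp
    _ ≤ lam B q * (((a1 : ℝ) - a0) / 2 * dn B q * (2 * δ q / q)) := by
        have : 0 ≤ 2 * δ q / q := by positivity
        have h5 := hlam.1.le
        gcongr
    _ ≤ lam B q * ((T.card : ℝ) * (2 * δ q / q)) := by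
        have : 0 ≤ 2 * δ q / q := by positivity
        have h5 := hlam.1.le
        gcongr
    _ ≤ _ := by
        have h5 := hlam.1.le
        gcongr

theorem Eq_meas (γ : ℝ) (s : ℕ) (δ : ℕ → ℝ) (q : ℕ) (hq : 0 < q) : MeasurableSet (Eq γ s δ q) := by
  have _ := hq
  have h : Eq γ s δ q = Set.Ico (0 : ℝ) 1 ∩ ⋃ a : ℤ, ⋃ _ : IsCoprime ((Bq γ s q : ℤ) * a + Aq γ s q)
      (q : ℤ), {x : ℝ | |(q : ℝ) * x - a - γ| < δ q} := by
    ext x
    simp only [Eq, AS, Set.mem_ofPred_eq, Set.mem_inter_iff, Set.mem_iUnion, exists_prop]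
  rw [h]
  refine measurableSet_Ico.inter (MeasurableSet.iUnion fun a => MeasurableSet.iUnion fun _ => ?_)
  exact (isOpen_lt (by fun_prop) continuous_const).measurableSet

end Vale.Agent.P028E
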