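import Vale.Agent.Lib.P028.E.HfLocal
import Vale.Agent.Lib.P028.E.HfApprox
import Vale.Agent.Lib.P028.E.HfBlock

/-!
H5d: the set of the bad points is null.

Let `s`, `C`, `X0` be as in `SecondMoment ε`.  `K = {x ∈ [0,1) : ∀ q ∈ R, X ≤ q → x ∉ Eq γ s δ q}` is
measurable (`Eq_meas`) and contains the bad set (`AS ⊆ {x : ∃ a, |q x - a - γ| < δ q}`).  Suppose
`v0 = vol K > 0`.  Put `t = 4 C / v0` and `η = min (v0/32) (v0 / (16 t))`; take `N`, `T` from `grid_approx`,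
`q₁` from `local_lower s ε (1/N)`, and (`block_select` for `f q = if q ∈ R then wt δ q else 0`,
`0 ≤ wt ≤ 1`) a block `Q ⊆ R` with elements `≥ max X X0 q₁ 1` and mass in `[1,2]`.  With
`U = ⋃ k ∈ T, gI N k` (disjoint union) and `l q = lam (Bq γ s q) q`:
`#T/(2N) ≤ ∑_q #T/(2N) wt_q ≤ ∑_q l q vol (Eq q ∩ U) = ∑_q l q vol (Eq q ∩ (U \ K))`
`≤ (t/2) vol (U \ K) + (1/(2t)) ∑∑ l q l r vol (Eq q ∩ Eq r) ≤ t η/2 + C/(2t)` (`cs_weighted` with
`μ = volume.restrict (U \ K)`), but `#T/N ≥ v0 - η ≥ 31 v0/32`, `tη/2 ≤ v0/32`, `C/(2t) = v0/8`: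
`31/64 ≤ 1/32 + 1/8`, a contradiction.
-/

open Finset MeasureTheory

namespace Vale.Agent.P028E

private lemma HN_gI_disj {N : ℕ} (hN : 0 < N) {k l : ℕ} (h : k ≠ l) : Disjoint (gI N k) (gI N l) := by
  have hNR : (0 : ℝ) < N := by exact_mod_cast hN
  rw [Set.disjoint_left]
  rintro x ⟨h1, h2⟩ ⟨h3, h4⟩
  rw [div_le_iff₀ hNR] at h1 h3
  rw [lt_div_iff₀ hNR] at h2 h4
  have h5 : (k : ℝ) < l + 1 := by linarith
  have h6 : (l : ℝ) < k + 1 := by linarith
  have h7 : k < l + 1 := by exact_mod_cast h5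
  have h8 : l < k + 1 := by exact_mod_cast h6
  omega

private lemma HN_lam_nonneg (B q : ℕ) : 0 ≤ lam B q := by
  refine Finset.prod_nonneg fun p hp => ?_
  have h1 : 1 ≤ (p : ℝ) := by
    exact_mod_cast (Nat.prime_of_mem_primeFactors hp).one_lt.le
  rw [sub_nonneg, div_le_one (by linarith)]
  exact h1

private lemma HN_wt {δ : ℕ → ℝ} {ε : ℝ} (hε : 0 < ε) {q : ℕ} (hq : 1 ≤ q) (h1 : 1 / (q : ℝ) ≤ δ q)
    (h2 : δ q ≤ (q : ℝ) ^ (-ε)) : 0 ≤ wt δ q ∧ wt δ q ≤ 1 := by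
  have hqR : (1 : ℝ) ≤ q := by exact_mod_cast hq
  have hδ0 : 0 ≤ δ q := le_trans (by positivity) h1
  have hδ1 : δ q ≤ 1 := h2.trans (Real.rpow_le_one_of_one_le_of_nonpos hqR (by linarith))
  have hφ : (Nat.totient q : ℝ) / q ≤ 1 := by
    rw [div_le_one (by linarith)]
    exact_mod_cast Nat.totient_le q
  have hφ0 : 0 ≤ (Nat.totient q : ℝ) / q := by positivity
  refine ⟨mul_nonneg hφ0 hδ0, ?_⟩
  unfold wt
  exact mul_le_one₀ hφ hδ0 hδ1

open Classical in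
theorem bad_null (ε : ℝ) (hε : 0 < ε) (h : SecondMoment ε) (γ : ℝ) (δ : ℕ → ℝ) (i0 : ℕ) (R : Set ℕ)
    (hR : ∀ q ∈ R, 1 ≤ q ∧ cls q % 3 = i0 ∧ 1 / (q : ℝ) ≤ δ q ∧ δ q ≤ (q : ℝ) ^ (-ε))
    (hdiv : ¬ Summable (fun q : ℕ => if q ∈ R then wt δ q else 0)) (X : ℕ) :
    volume {x : ℝ | x ∈ Set.Ico (0 : ℝ) 1 ∧ ∀ q : ℕ, q ∈ R → X ≤ q →
      ¬ ∃ a : ℤ, |(q : ℝ) * x - a - γ| < δ q} = 0 := by
  obtain ⟨s, C, X0, hC, hsm⟩ := h
  set K : Set ℝ := {x : ℝ | x ∈ Set.Ico (0 : ℝ) 1 ∧ ∀ q : ℕ, q ∈ R → X ≤ q → x ∉ Eq γ s δ q}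
    with hKdef
  have hKI : K ⊆ Set.Ico (0 : ℝ) 1 := fun x hx => hx.1
  have hKm : MeasurableSet K := by
    have h1 : K = Set.Ico (0 : ℝ) 1 ∩ ⋂ q ∈ {q : ℕ | q ∈ R ∧ X ≤ q}, (Eq γ s δ q)ᶜ := by
      ext x
      simp only [hKdef, Set.mem_ofPred_eq, Set.mem_inter_iff, Set.mem_iInter, Set.mem_compl_iff]
      constructor
      · rintro ⟨ha, hb⟩
        exact ⟨ha, fun q hq => hb q hq.1 hq.2⟩
      · rintro ⟨ha, hb⟩
        exact ⟨ha, fun q hq1 hq2 => hb q ⟨hq1, hq2⟩⟩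
    rw [h1]
    refine measurableSet_Ico.inter (MeasurableSet.biInter (Set.to_countable _) ?_)
    intro q hq
    exact (Eq_meas γ s δ q (hR q hq.1).1).compl
  have hsub : {x : ℝ | x ∈ Set.Ico (0 : ℝ) 1 ∧ ∀ q : ℕ, q ∈ R → X ≤ q →
      ¬ ∃ a : ℤ, |(q : ℝ) * x - a - γ| < δ q} ⊆ K := by
    rintro x ⟨hx, hx2⟩
    refine ⟨hx, fun q hq hXq hmem => hx2 q hq hXq ?_⟩
    obtain ⟨-, a, -, ha⟩ := hmem
    exact ⟨a, ha⟩
  have hKfin : volume K ≠ ⊤ := by
    refine ne_top_of_le_ne_top ?_ (measure_mono hKI)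
    rw [Real.volume_Ico]
    exact ENNReal.ofReal_ne_top
  suffices hK0 : volume K = 0 from measure_mono_null hsub hK0
  by_contra hne
  set v0 : ℝ := volume.real K with hv0
  have hv0pos : 0 < v0 := by
    rw [hv0, measureReal_def]
    exact ENNReal.toReal_pos hne hKfin
  set t : ℝ := 4 * C / v0 with ht
  have htpos : 0 < t := by positivity
  set η : ℝ := min (v0 / 32) (v0 / (16 * t)) with hη
  have hηpos : 0 < η := by
    rw [hη]
    exact lt_min (by positivity) (by positivity)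
  have hη1 : η ≤ v0 / 32 := min_le_left _ _
  have hη2 : η ≤ v0 / (16 * t) := min_le_right _ _
  obtain ⟨N, T, hN, hT, hU, hcard⟩ := grid_approx K hKm hKI η hηpos
  have hNR : (0 : ℝ) < N := by exact_mod_cast hN
  obtain ⟨q₁, hq₁, hloc⟩ := local_lower s ε hε (1 / (N : ℝ)) (by positivity)
  have hf0 : ∀ q, 0 ≤ (fun q : ℕ => if q ∈ R then wt δ q else 0) q := by
    intro q
    simp only
    split_ifs with hq
    · have h1 := hR q hq
      exact (HN_wt hε h1.1 h1.2.2.1 h1.2.2.2).1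
    · exact le_rfl
  have hf1 : ∀ q, (fun q : ℕ => if q ∈ R then wt δ q else 0) q ≤ 1 := by
    intro q
    simp only
    split_ifs with hq
    · have h1 := hR q hq
      exact (HN_wt hε h1.1 h1.2.2.1 h1.2.2.2).2
    · exact zero_le_one
  obtain ⟨Q, hQ, hQ1, hQ2⟩ := block_select _ hf0 hf1 hdiv (max (max X X0) (max q₁ 1))
  have hQR : ∀ q ∈ Q, q ∈ R := by
    intro q hq
    by_contra hqR
    exact (hQ q hq).2 (if_neg hqR)
  have hQX : ∀ q ∈ Q, X ≤ q ∧ X0 ≤ q ∧ q₁ ≤ q ∧ 1 ≤ q := by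
    intro q hq
    have h1 := (hQ q hq).1
    simp only [max_le_iff] at h1
    exact ⟨h1.1.1, h1.1.2, h1.2.1, h1.2.2⟩
  have hsumf : ∑ q ∈ Q, (if q ∈ R then wt δ q else 0) = ∑ q ∈ Q, wt δ q :=
    Finset.sum_congr rfl fun q hq => if_pos (hQR q hq)
  rw [hsumf] at hQ1 hQ2
  have hCC := hsm γ i0 Q δ (fun q hq => ⟨(hQX q hq).2.1, (hR q (hQR q hq)).2.1⟩)
    (fun q hq => ⟨(hR q (hQR q hq)).2.2.1, (hR q (hQR q hq)).2.2.2⟩) hQ2
  set U : Set ℝ := ⋃ k ∈ T, gI N k with hUdef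
  have hUm : MeasurableSet U :=
    MeasurableSet.biUnion (Set.to_countable _) fun k _ => measurableSet_Ico
  have hUsub : U ⊆ Set.Ico (0 : ℝ) 1 := by
    intro x hx
    obtain ⟨k, hk, hxk⟩ := Set.mem_iUnion₂.1 hx
    have hkN := hT k hk
    have h1 : (k : ℝ) + 1 ≤ N := by exact_mod_cast hkN
    refine ⟨le_trans (by positivity) hxk.1, lt_of_lt_of_le hxk.2 ?_⟩
    rw [div_le_one hNR]
    exact h1
  have hUKm : MeasurableSet (U \ K) := hUm.diff hKm
  have hUKfin : volume (U \ K) ≠ ⊤ := by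
    refine ne_top_of_le_ne_top ?_ (measure_mono (Set.sdiff_subset.trans hUsub))
    rw [Real.volume_Ico]
    exact ENNReal.ofReal_ne_top
  have hEqm : ∀ q ∈ Q, MeasurableSet (Eq γ s δ q) := fun q hq => Eq_meas γ s δ q (hQX q hq).2.2.2
  have hEqI : ∀ q, Eq γ s δ q ⊆ Set.Ico (0 : ℝ) 1 := fun q x hx => hx.1
  have hEqfin : ∀ q, volume (Eq γ s δ q) ≠ ⊤ := by
    intro q
    refine ne_top_of_le_ne_top ?_ (measure_mono (hEqI q))
    rw [Real.volume_Ico]
    exact ENNReal.ofReal_ne_top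
  -- the local lower bound, summed over the grid
  have hlow : ∀ q ∈ Q, (T.card : ℝ) / (2 * N) * wt δ q ≤
      lam (Bq γ s q) q * volume.real (Eq γ s δ q ∩ (U \ K)) := by
    intro q hq
    obtain ⟨hq1, hq2, hq3, hq4⟩ := hQX q hq
    have hqR := hR q (hQR q hq)
    have hqpos : (0 : ℝ) < q := by exact_mod_cast hq4
    have hδ0 : 0 < δ q := lt_of_lt_of_le (by positivity) hqR.2.2.1
    have h1 : ∀ k ∈ T, 1 / (2 * (N : ℝ)) * wt δ q ≤
        lam (Bq γ s q) q * volume.real (Eq γ s δ q ∩ gI N k) := by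
      intro k hk
      have hkN : (k : ℝ) + 1 ≤ N := by exact_mod_cast hT k hk
      have h2 := hloc γ δ q hq3 hδ0 hqR.2.2.2 ((k : ℝ) / N) (((k : ℝ) + 1) / N) (by positivity)
        (by rw [div_le_one hNR]; exact hkN) (by rw [← sub_div, add_sub_cancel_left])
      refine le_trans (le_of_eq ?_) h2
      rw [← sub_div, add_sub_cancel_left]
      field_simp
    have h3 : Eq γ s δ q ∩ (U \ K) = ⋃ k ∈ T, (Eq γ s δ q ∩ gI N k) := by
      ext x
      simp only [hUdef, Set.mem_inter_iff, Set.mem_sdiff, Set.mem_iUnion, exists_prop]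
      constructor
      · rintro ⟨ha, ⟨k, hk, hxk⟩, -⟩
        exact ⟨k, hk, ha, hxk⟩
      · rintro ⟨k, hk, ha, hxk⟩
        exact ⟨ha, ⟨k, hk, hxk⟩, fun hxK => hxK.2 q (hQR q hq) hq1 ha⟩
    have h4 : volume.real (Eq γ s δ q ∩ (U \ K)) =
        ∑ k ∈ T, volume.real (Eq γ s δ q ∩ gI N k) := by
      rw [h3]
      refine measureReal_biUnion_finset ?_ ?_ ?_
      · intro k _ l _ hkl
        exact (HN_gI_disj hN hkl).mono Set.inter_subset_right Set.inter_subset_right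
      · intro k _
        exact (hEqm q hq).inter measurableSet_Ico
      · intro k _
        exact ne_top_of_le_ne_top (hEqfin q) (measure_mono Set.inter_subset_left)
    rw [h4, Finset.mul_sum]
    calc (T.card : ℝ) / (2 * N) * wt δ q = ∑ k ∈ T, 1 / (2 * (N : ℝ)) * wt δ q := by
          rw [Finset.sum_const, nsmul_eq_mul]
          ring
      _ ≤ _ := Finset.sum_le_sum h1
  have : IsFiniteMeasure (volume.restrict (U \ K)) := ⟨by
    rw [Measure.restrict_apply_univ]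
    exact lt_top_iff_ne_top.2 hUKfin⟩
  have hcs := cs_weighted (volume.restrict (U \ K)) Q (fun q => Eq γ s δ q) hEqm
    (fun q => lam (Bq γ s q) q) t htpos
  have hA : ∑ q ∈ Q, lam (Bq γ s q) q * (volume.restrict (U \ K)).real (Eq γ s δ q) =
      ∑ q ∈ Q, lam (Bq γ s q) q * volume.real (Eq γ s δ q ∩ (U \ K)) := by
    refine Finset.sum_congr rfl fun q hq => ?_
    rw [measureReal_restrict_apply (hEqm q hq)]
  have hB : (volume.restrict (U \ K)).real Set.univ ≤ η := by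
    rw [measureReal_restrict_apply MeasurableSet.univ, Set.univ_inter]
    exact hU
  have hD : ∑ i ∈ Q, ∑ j ∈ Q, lam (Bq γ s i) i * lam (Bq γ s j) j *
      (volume.restrict (U \ K)).real (Eq γ s δ i ∩ Eq γ s δ j) ≤ C := by
    refine le_trans (Finset.sum_le_sum fun i hi => Finset.sum_le_sum fun j hj => ?_) hCC
    refine mul_le_mul_of_nonneg_left ?_ (mul_nonneg (HN_lam_nonneg _ _) (HN_lam_nonneg _ _))
    rw [measureReal_restrict_apply ((hEqm i hi).inter (hEqm j hj))]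
    refine measureReal_mono Set.inter_subset_left ?_
    exact ne_top_of_le_ne_top (hEqfin i) (measure_mono Set.inter_subset_left)
  rw [hA] at hcs
  have hE : (T.card : ℝ) / (2 * N) ≤
      ∑ q ∈ Q, lam (Bq γ s q) q * volume.real (Eq γ s δ q ∩ (U \ K)) := by
    calc (T.card : ℝ) / (2 * N) = (T.card : ℝ) / (2 * N) * 1 := by ring
      _ ≤ (T.card : ℝ) / (2 * N) * ∑ q ∈ Q, wt δ q := by gcongr
      _ = ∑ q ∈ Q, (T.card : ℝ) / (2 * N) * wt δ q := by rw [Finset.mul_sum]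
      _ ≤ _ := Finset.sum_le_sum hlow
  have hF : (t / 2) * (volume.restrict (U \ K)).real Set.univ ≤ v0 / 32 := by
    calc (t / 2) * (volume.restrict (U \ K)).real Set.univ ≤ (t / 2) * (v0 / (16 * t)) := by
          gcongr
          exact hB.trans hη2
      _ = v0 / 32 := by
          field_simp
          norm_num
  have hG : (1 / (2 * t)) * ∑ i ∈ Q, ∑ j ∈ Q, lam (Bq γ s i) i * lam (Bq γ s j) j *
      (volume.restrict (U \ K)).real (Eq γ s δ i ∩ Eq γ s δ j) ≤ v0 / 8 := by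
    calc (1 / (2 * t)) * ∑ i ∈ Q, ∑ j ∈ Q, lam (Bq γ s i) i * lam (Bq γ s j) j *
          (volume.restrict (U \ K)).real (Eq γ s δ i ∩ Eq γ s δ j) ≤ (1 / (2 * t)) * C := by
          gcongr
      _ = v0 / 8 := by
          rw [ht]
          field_simp
          norm_num
  have hH : (T.card : ℝ) / (2 * N) = (T.card : ℝ) / N / 2 := by
    field_simp
  rw [hH] at hE
  linarith

end Vale.Agent.P028E
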