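import Vale.Agent.Lib.P028.E.Defs

/-!
# P028, part E: definitions for the leaf machine

`V`, `W` finite sets of positive integers with weights `μ`, `ν`; `ω v w` is an edge weight.
-/

open Finset

namespace Vale.Agent.P028E

/-- weight of the edges between `V` and `W` -/
noncomputable def eW (V W : Finset ℕ) (μ ν : ℕ → ℝ) (ω : ℕ → ℕ → ℝ) : ℝ :=
  ∑ v ∈ V, ∑ w ∈ W, μ v * ν w * ω v w

/-- total weight -/
noncomputable def ms (V : Finset ℕ) (μ : ℕ → ℝ) : ℝ := ∑ v ∈ V, μ v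

/-- the part of `n` composed of the primes in `P` -/
def partP (P : Finset ℕ) (n : ℕ) : ℕ := ∏ p ∈ P, p ^ (n.factorization p)

/-- distance of two natural numbers -/
def ds (i j : ℕ) : ℕ := (i - j) + (j - i)

/-- the kernel `p^(-39/80 |i-j|)` -/
noncomputable def Kp (p i j : ℕ) : ℝ := ((p : ℝ) ^ (-(39 / 80) : ℝ)) ^ (ds i j)

/-- `a' b' = a b / gcd(a,b)^2` -/
def rab (a b : ℕ) : ℕ := (a / Nat.gcd a b) * (b / Nat.gcd a b)

/-- elements of `V` with `p`-adic valuation `i` -/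
def vfil (V : Finset ℕ) (p i : ℕ) : Finset ℕ := V.filter (fun v => v.factorization p = i)

/-- elements of `V` with `p`-adic valuation different from `i` -/
def vne (V : Finset ℕ) (p i : ℕ) : Finset ℕ := V.filter (fun v => v.factorization p ≠ i)

/-- the missing part `N / gcd(v, N)` -/
def jv (N v : ℕ) : ℕ := N / Nat.gcd v N

/-- the extra part `v0 / gcd(v, N)`, `v0 = v / partP P v` -/
def xv (P : Finset ℕ) (N v : ℕ) : ℕ := (v / partP P v) / Nat.gcd v N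

/-- no prime outside `P` at which both `v` and `w` deviate from `N` -/
def NoCom (P : Finset ℕ) (N v w : ℕ) : Prop :=
  ∀ p : ℕ, p.Prime → p ∉ P → (v.factorization p = N.factorization p ∨
    w.factorization p = N.factorization p)

open Classical in
/-- `∑ g(p)` over the primes `p ∣ v' w'` outside `P` -/
noncomputable def gsum (P : Finset ℕ) (g : ℕ → ℝ) (v w : ℕ) : ℝ :=
  ∑ p ∈ (qp v w * qp w v).primeFactors.filter (fun p => p ∉ P), g p

/-- a typical edge -/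
def Good (P : Finset ℕ) (N : ℕ) (g : ℕ → ℝ) (v w : ℕ) : Prop :=
  NoCom P N v w ∧ gsum P g v w ≤ 1

/-- a leaf: the output of the greedy procedure. -/
structure Leaf (p1 : ℕ) (V W : Finset ℕ) (μ ν : ℕ → ℝ) (ω : ℕ → ℕ → ℝ)
    (V1 W1 P : Finset ℕ) (a b N : ℕ) : Prop where
  subV : V1 ⊆ V
  subW : W1 ⊆ W
  prime : ∀ p ∈ P, p.Prime
  small : ∀ p : ℕ, p.Prime → p < p1 → p ∈ P
  apos : 0 < a
  bpos : 0 < b
  Npos : 0 < N
  Ncop : ∀ p ∈ P, ¬ p ∣ N
  partV : ∀ v ∈ V1, partP P v = a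
  partW : ∀ w ∈ W1, partP P w = b
  epos : 0 < eW V1 W1 μ ν ω
  qual : eW V W μ ν ω * (ms V1 μ * ms W1 ν) ^ (51 / 100 : ℝ) ≤
    7 ^ p1 * eW V1 W1 μ ν ω * (rab a b : ℝ) ^ (39 / 80 : ℝ) * (ms V μ * ms W ν) ^ (51 / 100 : ℝ)
  concV : ∀ p : ℕ, p.Prime → p ∉ P →
    ms (vne V1 p (N.factorization p)) μ ≤ (p : ℝ) ^ (-(397 / 400) : ℝ) * ms V1 μ
  concW : ∀ p : ℕ, p.Prime → p ∉ P →
    ms (vne W1 p (N.factorization p)) ν ≤ (p : ℝ) ^ (-(397 / 400) : ℝ) * ms W1 ν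
  edge : ∀ p : ℕ, p.Prime → p ∉ P → ∀ i j : ℕ,
    eW (vfil V1 p i) (vfil W1 p j) μ ν ω ≤ eW V1 W1 μ ν ω * Kp p i j *
      ((ms (vfil V1 p i) μ / ms V1 μ) * (ms (vfil W1 p j) ν / ms W1 ν)) ^ (51 / 100 : ℝ)

end Vale.Agent.P028E
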