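import Vale.Agent.Lib.P028.E.Defs

/-!
# P028 E: counting lattice points on lines `m = n B - A D`

`D = s - κ0 x`, `θ0 = |B γ - A|`, `g = gcd (B, κ0)`, `L = 4 t B + Q θ0`.

Since `m = B (n - D γ) + D (B γ - A)`, every `x` of the set has an admissible `m` with `|m| < L`,
`m ≠ 0`, `e ∣ m`; so `L < e` gives the empty set.  Moreover `m ≡ - A s (mod g)` and `gcd (e, g) = 1`
(because `gcd (e, B) = 1`), so `m` lies in one residue class mod `e g`: at most `2L/(e g) + 1` values.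
For a given `m`: `A κ0 x ≡ m + A s (mod B)` with `A` invertible mod `B`, so `x` lies in at most one
residue class mod `B/g`; and `x ∈ [1, X]`, giving at most `X g/B + 1` values.  If `θ0 > 0`, then
`|D (B γ - A) - m| < 4 t B` puts `D` in an open interval of length `8 t B/θ0` and `x` in an open
interval of length `8 t B/(κ0 θ0)`: at most `8 t B/(κ0 θ0) * g/B + 1` values.
(Number of integers of a residue class mod `M` in an open interval of length `ℓ`: `≤ ℓ/M + 1`.)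
-/

open Finset

namespace Vale.Agent.P028E

open Classical in
/-- the counted set, `D = s - κ0 x` -/
noncomputable def lineSet (γ : ℝ) (A : ℤ) (B e κ0 : ℕ) (t X Q : ℝ) (s : ℤ) : Finset ℕ :=
  (Finset.Icc 1 ⌊X⌋₊).filter (fun x : ℕ => |((s - (κ0 : ℤ) * (x : ℤ) : ℤ) : ℝ)| ≤ Q ∧
    ∃ n : ℤ, |(n : ℝ) - ((s - (κ0 : ℤ) * (x : ℤ) : ℤ) : ℝ) * γ| < 4 * t ∧
      mm A B (s - (κ0 : ℤ) * (x : ℤ)) n ≠ 0 ∧ (e : ℤ) ∣ mm A B (s - (κ0 : ℤ) * (x : ℤ)) n)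

private theorem ln_count (T : Finset ℤ) (M : ℕ) (hM : 0 < M) (l : ℝ) (hl : 0 ≤ l)
    (h1 : ∀ a ∈ T, ∀ b ∈ T, ((b - a : ℤ) : ℝ) ≤ l) (h2 : ∀ a ∈ T, ∀ b ∈ T, (M : ℤ) ∣ b - a) :
    (T.card : ℝ) ≤ l / M + 1 := by
  have hM0 : (0 : ℝ) < M := by exact_mod_cast hM
  have hMz : (M : ℤ) ≠ 0 := by exact_mod_cast hM.ne'
  rcases T.eq_empty_or_nonempty with rfl | hT
  · rw [Finset.card_empty, Nat.cast_zero]
    positivity
  · have ha : T.min' hT ∈ T := T.min'_mem hT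
    have hinj : T.card ≤ (Finset.range (⌊l / M⌋₊ + 1)).card := by
      refine Finset.card_le_card_of_injOn (fun b => ((b - T.min' hT) / (M : ℤ)).toNat) ?_ ?_
      · intro b hb
        obtain ⟨q, hq⟩ := h2 _ ha b hb
        have h3 := h1 _ ha b hb
        have h4 : T.min' hT ≤ b := T.min'_le b hb
        simp only [Finset.coe_range, Set.mem_Iio]
        rw [hq, Int.mul_ediv_cancel_left _ hMz]
        have hq0 : 0 ≤ q := by
          by_contra hcon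
          push Not at hcon
          have : (M : ℤ) * q < 0 := mul_neg_of_pos_of_neg (by exact_mod_cast hM) hcon
          omega
        rw [hq] at h3
        push_cast at h3
        have h5 : (q.toNat : ℝ) ≤ l / M := by
          rw [le_div_iff₀ hM0]
          have h6 : ((q.toNat : ℕ) : ℝ) = (q : ℝ) := by
            have h7 : ((q.toNat : ℕ) : ℤ) = q := Int.toNat_of_nonneg hq0
            exact_mod_cast h7
          rw [h6]
          linarith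
        exact Nat.lt_succ_of_le (Nat.le_floor h5)
      · intro b hb b' hb' hbb
        obtain ⟨q, hq⟩ := h2 _ ha b hb
        obtain ⟨q', hq'⟩ := h2 _ ha b' hb'
        have h4 : T.min' hT ≤ b := T.min'_le b hb
        have h4' : T.min' hT ≤ b' := T.min'_le b' hb'
        simp only at hbb
        rw [hq, hq', Int.mul_ediv_cancel_left _ hMz, Int.mul_ediv_cancel_left _ hMz] at hbb
        have hpos : ∀ r : ℤ, 0 ≤ (M : ℤ) * r → 0 ≤ r := by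
          intro r hr
          by_contra hcon
          push Not at hcon
          have : (M : ℤ) * r < 0 := mul_neg_of_pos_of_neg (by exact_mod_cast hM) hcon
          omega
        have h5 := hpos q (by omega)
        have h6 := hpos q' (by omega)
        have h7 : q = q' := by omega
        rw [h7] at hq
        omega
    rw [Finset.card_range] at hinj
    have h8 : (⌊l / M⌋₊ : ℝ) ≤ l / M := Nat.floor_le (by positivity)
    have h9 : (T.card : ℝ) ≤ ((⌊l / M⌋₊ + 1 : ℕ) : ℝ) := by exact_mod_cast hinj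
    push_cast at h9
    linarith

private theorem ln_bound (γ : ℝ) (A : ℤ) (B : ℕ) (t Q : ℝ) (D n : ℤ) (hB : 0 < B)
    (hD : |((D : ℤ) : ℝ)| ≤ Q) (hn : |(n : ℝ) - (D : ℝ) * γ| < 4 * t) :
    |((mm A B D n : ℤ) : ℝ)| < 4 * t * B + Q * |(B : ℝ) * γ - A| := by
  have hB0 : (0 : ℝ) < B := by exact_mod_cast hB
  have e : ((mm A B D n : ℤ) : ℝ) = B * ((n : ℝ) - D * γ) + D * ((B : ℝ) * γ - A) := by
    unfold mm
    push_cast
    ring
  rw [e]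
  refine lt_of_le_of_lt (abs_add_le _ _) ?_
  rw [abs_mul, abs_mul, abs_of_pos hB0]
  have h1 := mul_lt_mul_of_pos_left hn hB0
  have h2 := mul_le_mul_of_nonneg_right hD (abs_nonneg ((B : ℝ) * γ - A))
  linarith

theorem lines_empty (γ : ℝ) (A : ℤ) (B e κ0 : ℕ) (t X Q : ℝ) (s : ℤ) (hB : 0 < B)
    (ht : 0 < t) (hQ : 0 ≤ Q)
    (hL : 4 * t * B + Q * |(B : ℝ) * γ - A| < e) : lineSet γ A B e κ0 t X Q s = ∅ := by
  classical
  refine Finset.eq_empty_of_forall_notMem fun x hx => ?_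
  unfold lineSet at hx
  rw [Finset.mem_filter] at hx
  obtain ⟨-, hD, n, hn, hne, hdvd⟩ := hx
  have h1 := ln_bound γ A B t Q _ n hB hD hn
  have h2 : (e : ℤ) ≤ |mm A B (s - (κ0 : ℤ) * (x : ℤ)) n| :=
    Int.le_of_dvd (abs_pos.mpr hne) ((dvd_abs _ _).mpr hdvd)
  have h3 : ((e : ℤ) : ℝ) ≤ ((|mm A B (s - (κ0 : ℤ) * (x : ℤ)) n| : ℤ) : ℝ) := by
    exact_mod_cast h2
  rw [Int.cast_abs] at h3
  push_cast at h3 h1
  linarith

private theorem ln_main (γ : ℝ) (A : ℤ) (B e κ0 : ℕ) (t X Q : ℝ) (s : ℤ) (hB : 0 < B)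
    (he : 0 < e) (heB : Nat.Coprime e B)
    (ht : 0 < t) (hQ : 0 ≤ Q) (R : ℝ) (hR : 0 ≤ R)
    (hfib : ∀ (m : ℤ) (T : Finset ℕ), (∀ x ∈ T, x ∈ Finset.Icc 1 ⌊X⌋₊ ∧
      ∃ n : ℤ, |(n : ℝ) - ((s - (κ0 : ℤ) * (x : ℤ) : ℤ) : ℝ) * γ| < 4 * t ∧
        mm A B (s - (κ0 : ℤ) * (x : ℤ)) n = m) → (T.card : ℝ) ≤ R) :
    ((lineSet γ A B e κ0 t X Q s).card : ℝ) ≤
      (2 * (4 * t * B + Q * |(B : ℝ) * γ - A|) / ((e : ℝ) * (Nat.gcd B κ0 : ℝ)) + 1) * R := by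
  classical
  have hg0 : 0 < Nat.gcd B κ0 := Nat.gcd_pos_of_pos_left _ hB
  set L : ℝ := 4 * t * B + Q * |(B : ℝ) * γ - A| with hL
  have hL0 : 0 ≤ L := by positivity
  have hmem : ∀ x ∈ lineSet γ A B e κ0 t X Q s, ∃ n : ℤ, x ∈ Finset.Icc 1 ⌊X⌋₊ ∧
      |((s - (κ0 : ℤ) * (x : ℤ) : ℤ) : ℝ)| ≤ Q ∧
      |(n : ℝ) - ((s - (κ0 : ℤ) * (x : ℤ) : ℤ) : ℝ) * γ| < 4 * t ∧
      (e : ℤ) ∣ mm A B (s - (κ0 : ℤ) * (x : ℤ)) n := by
    intro x hx
    unfold lineSet at hx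
    rw [Finset.mem_filter] at hx
    obtain ⟨h1, hD, n, hn, -, hdvd⟩ := hx
    exact ⟨n, h1, hD, hn, hdvd⟩
  choose! ν hν using hmem
  set μ : ℕ → ℤ := fun x => mm A B (s - (κ0 : ℤ) * (x : ℤ)) (ν x) with hμ
  have himg : (((lineSet γ A B e κ0 t X Q s).image μ).card : ℝ) ≤
      2 * L / ((e : ℝ) * (Nat.gcd B κ0 : ℝ)) + 1 := by
    have h := ln_count ((lineSet γ A B e κ0 t X Q s).image μ) (e * Nat.gcd B κ0)
      (Nat.mul_pos he hg0) (2 * L) (by linarith) ?_ ?_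
    · push_cast at h
      exact h
    · intro a ha b hb
      obtain ⟨x, hx, rfl⟩ := Finset.mem_image.mp ha
      obtain ⟨y, hy, rfl⟩ := Finset.mem_image.mp hb
      obtain ⟨-, h2, h3, -⟩ := hν x hx
      obtain ⟨-, h2', h3', -⟩ := hν y hy
      have g1 := ln_bound γ A B t Q _ _ hB h2 h3
      have g2 := ln_bound γ A B t Q _ _ hB h2' h3'
      rw [← hL] at g1 g2
      have g3 := (abs_lt.mp g1).1
      have g4 := (abs_lt.mp g2).2
      push_cast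
      linarith
    · intro a ha b hb
      obtain ⟨x, hx, rfl⟩ := Finset.mem_image.mp ha
      obtain ⟨y, hy, rfl⟩ := Finset.mem_image.mp hb
      have h4 := (hν x hx).2.2.2
      have h4' := (hν y hy).2.2.2
      have hcop : IsCoprime (e : ℤ) ((Nat.gcd B κ0 : ℕ) : ℤ) :=
        Nat.isCoprime_iff_coprime.mpr (Nat.Coprime.coprime_dvd_right (Nat.gcd_dvd_left B κ0) heB)
      push_cast
      refine hcop.mul_dvd (dvd_sub h4' h4) ?_
      have d1 : ((Nat.gcd B κ0 : ℕ) : ℤ) ∣ (B : ℤ) := by exact_mod_cast Nat.gcd_dvd_left B κ0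
      have d2 : ((Nat.gcd B κ0 : ℕ) : ℤ) ∣ (κ0 : ℤ) := by exact_mod_cast Nat.gcd_dvd_right B κ0
      have e1 : μ y - μ x = (ν y - ν x) * (B : ℤ) + (A * ((y : ℤ) - x)) * (κ0 : ℤ) := by
        simp only [hμ, mm]
        ring
      rw [e1]
      exact dvd_add (Dvd.dvd.mul_left d1 _) (Dvd.dvd.mul_left d2 _)
  have hcard := Finset.card_le_mul_card_image (f := μ) (lineSet γ A B e κ0 t X Q s) ⌊R⌋₊ (by
    intro m _
    refine Nat.le_floor (hfib m _ fun x hx => ?_)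
    rw [Finset.mem_filter] at hx
    obtain ⟨h1, -, h3, -⟩ := hν x hx.1
    exact ⟨h1, ν x, h3, hx.2⟩)
  have h5 : ((lineSet γ A B e κ0 t X Q s).card : ℝ) ≤
      (⌊R⌋₊ : ℝ) * (((lineSet γ A B e κ0 t X Q s).image μ).card : ℝ) := by exact_mod_cast hcard
  have h6 : (⌊R⌋₊ : ℝ) ≤ R := Nat.floor_le hR
  have h7 : (0 : ℝ) ≤ (((lineSet γ A B e κ0 t X Q s).image μ).card : ℝ) := Nat.cast_nonneg _
  calc ((lineSet γ A B e κ0 t X Q s).card : ℝ)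
      ≤ (⌊R⌋₊ : ℝ) * (((lineSet γ A B e κ0 t X Q s).image μ).card : ℝ) := h5
    _ ≤ R * (((lineSet γ A B e κ0 t X Q s).image μ).card : ℝ) :=
        mul_le_mul_of_nonneg_right h6 h7
    _ ≤ R * (2 * L / ((e : ℝ) * (Nat.gcd B κ0 : ℝ)) + 1) := mul_le_mul_of_nonneg_left himg hR
    _ = _ := by ring

private theorem ln_fib (γ : ℝ) (A : ℤ) (B κ0 : ℕ) (t X : ℝ) (s : ℤ) (hB : 0 < B)
    (hAB : IsCoprime A (B : ℤ)) (l : ℝ) (hl : 0 ≤ l) (m : ℤ) (T : Finset ℕ)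
    (hT : ∀ x ∈ T, x ∈ Finset.Icc 1 ⌊X⌋₊ ∧
      ∃ n : ℤ, |(n : ℝ) - ((s - (κ0 : ℤ) * (x : ℤ) : ℤ) : ℝ) * γ| < 4 * t ∧
        mm A B (s - (κ0 : ℤ) * (x : ℤ)) n = m)
    (hlen : ∀ x ∈ T, ∀ y ∈ T, ((y : ℝ) - x) ≤ l) :
    (T.card : ℝ) ≤ l * (Nat.gcd B κ0 : ℝ) / B + 1 := by
  have hg0 : 0 < Nat.gcd B κ0 := Nat.gcd_pos_of_pos_left _ hB
  have hB0 : (0 : ℝ) < B := by exact_mod_cast hB
  have hg0' : (0 : ℝ) < (Nat.gcd B κ0 : ℝ) := by exact_mod_cast hg0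
  have hM : 0 < B / Nat.gcd B κ0 := Nat.div_pos (Nat.le_of_dvd hB (Nat.gcd_dvd_left _ _)) hg0
  have h := ln_count (T.map Nat.castEmbedding) (B / Nat.gcd B κ0) hM l hl ?_ ?_
  · rw [Finset.card_map, Nat.cast_div (Nat.gcd_dvd_left _ _) hg0'.ne', div_div_eq_mul_div] at h
    exact h
  · intro a ha b hb
    obtain ⟨x, hx, rfl⟩ := Finset.mem_map.mp ha
    obtain ⟨y, hy, rfl⟩ := Finset.mem_map.mp hb
    have := hlen x hx y hy
    simpa using this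
  · intro a ha b hb
    obtain ⟨x, hx, rfl⟩ := Finset.mem_map.mp ha
    obtain ⟨y, hy, rfl⟩ := Finset.mem_map.mp hb
    obtain ⟨-, n, -, h1⟩ := hT x hx
    obtain ⟨-, n', -, h2⟩ := hT y hy
    simp only [Nat.castEmbedding_apply]
    have e1 : A * ((κ0 : ℤ) * ((y : ℤ) - x)) = (B : ℤ) * (n - n') := by
      have h3 : mm A B (s - (κ0 : ℤ) * (x : ℤ)) n = mm A B (s - (κ0 : ℤ) * (y : ℤ)) n' := by
        rw [h1, h2]
      unfold mm at h3
      linarith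
    have d1 : (B : ℤ) ∣ (κ0 : ℤ) * ((y : ℤ) - x) :=
      (hAB.symm).dvd_of_dvd_mul_left ⟨_, e1⟩
    -- divide by the gcd
    obtain ⟨B', hB'⟩ := Nat.gcd_dvd_left B κ0
    obtain ⟨k', hk'⟩ := Nat.gcd_dvd_right B κ0
    have hBdiv : B / Nat.gcd B κ0 = B' := by
      rw [Nat.div_eq_iff_eq_mul_right hg0 (Nat.gcd_dvd_left _ _)]
      exact hB'
    have hkdiv : κ0 / Nat.gcd B κ0 = k' := by
      rw [Nat.div_eq_iff_eq_mul_right hg0 (Nat.gcd_dvd_right _ _)]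
      exact hk'
    have hcop : IsCoprime (B' : ℤ) (k' : ℤ) := by
      rw [Nat.isCoprime_iff_coprime, ← hBdiv, ← hkdiv]
      exact Nat.coprime_div_gcd_div_gcd hg0
    rw [hBdiv]
    refine hcop.dvd_of_dvd_mul_left ?_
    have hgz : ((Nat.gcd B κ0 : ℕ) : ℤ) ≠ 0 := by exact_mod_cast hg0.ne'
    have hBz : (B : ℤ) = ((Nat.gcd B κ0 : ℕ) : ℤ) * (B' : ℤ) := by exact_mod_cast hB'
    have hkz : (κ0 : ℤ) = ((Nat.gcd B κ0 : ℕ) : ℤ) * (k' : ℤ) := by exact_mod_cast hk'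
    have d2 : ((Nat.gcd B κ0 : ℕ) : ℤ) * (B' : ℤ) ∣
        ((Nat.gcd B κ0 : ℕ) : ℤ) * ((k' : ℤ) * ((y : ℤ) - x)) := by
      rw [← mul_assoc, ← hkz, ← hBz]
      exact d1
    exact (mul_dvd_mul_iff_left hgz).mp d2

theorem lines_card (γ : ℝ) (A : ℤ) (B e κ0 : ℕ) (t X Q : ℝ) (s : ℤ) (hB : 0 < B)
    (hAB : IsCoprime A (B : ℤ)) (he : 0 < e) (heB : Nat.Coprime e B) (hκ : 0 < κ0)
    (ht : 0 < t) (hX : 0 ≤ X) (hQ : 0 ≤ Q) :
    ((lineSet γ A B e κ0 t X Q s).card : ℝ) ≤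
      (2 * (4 * t * B + Q * |(B : ℝ) * γ - A|) / ((e : ℝ) * (Nat.gcd B κ0 : ℝ)) + 1) *
        (X * (Nat.gcd B κ0 : ℝ) / B + 1) := by
  refine ln_main γ A B e κ0 t X Q s hB he heB ht hQ _ (by positivity) fun m T hT => ?_
  refine ln_fib γ A B κ0 t X s hB hAB X hX m T hT fun x hx y hy => ?_
  have h1 := (Finset.mem_Icc.mp (hT y hy).1).2
  have h2 : (y : ℝ) ≤ X := (Nat.le_floor_iff hX).mp h1
  have h3 : (0 : ℝ) ≤ x := Nat.cast_nonneg x
  linarith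

theorem lines_card' (γ : ℝ) (A : ℤ) (B e κ0 : ℕ) (t X Q : ℝ) (s : ℤ) (hB : 0 < B)
    (hAB : IsCoprime A (B : ℤ)) (he : 0 < e) (heB : Nat.Coprime e B) (hκ : 0 < κ0)
    (ht : 0 < t) (hX : 0 ≤ X) (hQ : 0 ≤ Q) (hθ : 0 < |(B : ℝ) * γ - A|) :
    ((lineSet γ A B e κ0 t X Q s).card : ℝ) ≤
      (2 * (4 * t * B + Q * |(B : ℝ) * γ - A|) / ((e : ℝ) * (Nat.gcd B κ0 : ℝ)) + 1) *
        (8 * t * B / ((κ0 : ℝ) * |(B : ℝ) * γ - A|) * (Nat.gcd B κ0 : ℝ) / B + 1) := by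
  have hB0 : (0 : ℝ) < B := by exact_mod_cast hB
  have hk0 : (0 : ℝ) < κ0 := by exact_mod_cast hκ
  refine ln_main γ A B e κ0 t X Q s hB he heB ht hQ _ (by positivity) fun m T hT => ?_
  refine ln_fib γ A B κ0 t X s hB hAB _ (by positivity) m T hT fun x hx y hy => ?_
  obtain ⟨-, n, h1, h2⟩ := hT x hx
  obtain ⟨-, n', h1', h2'⟩ := hT y hy
  have key : ∀ (D k : ℤ), |(k : ℝ) - (D : ℝ) * γ| < 4 * t → mm A B D k = m →
      |(D : ℝ) * ((B : ℝ) * γ - A) - m| < 4 * t * B := by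
    intro D k hk hm
    have e1 : (D : ℝ) * ((B : ℝ) * γ - A) - m = -(B * ((k : ℝ) - D * γ)) := by
      rw [← hm]
      unfold mm
      push_cast
      ring
    rw [e1, abs_neg, abs_mul, abs_of_pos hB0]
    have := mul_lt_mul_of_pos_left hk hB0
    linarith
  have g1 := key _ _ h1 h2
  have g2 := key _ _ h1' h2'
  rw [le_div_iff₀ (by positivity)]
  have g3 : |(((s - (κ0 : ℤ) * (x : ℤ) : ℤ) : ℝ) * ((B : ℝ) * γ - A) - m) -
      (((s - (κ0 : ℤ) * (y : ℤ) : ℤ) : ℝ) * ((B : ℝ) * γ - A) - m)| < 8 * t * B := by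
    refine lt_of_le_of_lt (abs_sub _ _) ?_
    linarith
  have e2 : (((s - (κ0 : ℤ) * (x : ℤ) : ℤ) : ℝ) * ((B : ℝ) * γ - A) - m) -
      (((s - (κ0 : ℤ) * (y : ℤ) : ℤ) : ℝ) * ((B : ℝ) * γ - A) - m) =
      ((y : ℝ) - x) * ((κ0 : ℝ) * ((B : ℝ) * γ - A)) := by
    push_cast
    ring
  rw [e2, abs_mul, abs_mul, abs_of_pos hk0] at g3
  have h4 : ((y : ℝ) - x) * ((κ0 : ℝ) * |(B : ℝ) * γ - A|) ≤
      |(y : ℝ) - x| * ((κ0 : ℝ) * |(B : ℝ) * γ - A|) :=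
    mul_le_mul_of_nonneg_right (le_abs_self _) (by positivity)
  linarith

end Vale.Agent.P028E
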