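import Vale.Agent.Lib.P028.E.Defs
import Vale.Agent.Lib.P028.PairSieve

/-!
P1a: counting in a full period with local conditions (Chinese remainder theorem).

Proof: induction over `S` (insert `p0`).  For periodic functions `F` (period `M`, the product of the
primes of the rest) and `G` (period `p0`), coprime periods, `M * p0 ∣ N`:
`∑_{t < N} F t * G t = N/(M p0) * (∑_{a<M} F a) * (∑_{b<p0} G b)` by `ZMod.chineseRemainder`.
Helpers: `sum_period`, `sum_period_mul`, `period_val`, `sum_Ico_eq_sum_zmod` in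
`Vale.Agent.Lib.P028.PairSieve` (namespace `Vale.Agent.P028`) may be imported.
-/

open Finset MeasureTheory

namespace Vale.Agent.P028E

theorem ovcnt_two (M p : ℕ) (hM : 0 < M) (hp : 0 < p) (hc : Nat.Coprime M p) (F G : ℤ → ℝ)
    (hF : ∀ x, F (x + M) = F x) (hG : ∀ x, G (x + p) = G x) :
    ∑ t ∈ Ico (0 : ℤ) ((M * p : ℕ) : ℤ), F t * G t =
      (∑ a ∈ Ico (0 : ℤ) M, F a) * (∑ b ∈ Ico (0 : ℤ) p, G b) := by
  have : NeZero M := ⟨hM.ne'⟩
  have : NeZero p := ⟨hp.ne'⟩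
  have : NeZero (M * p) := ⟨(Nat.mul_pos hM hp).ne'⟩
  rw [Vale.Agent.P028.sum_Ico_eq_sum_zmod (M * p) (fun t => F t * G t),
    Vale.Agent.P028.sum_Ico_eq_sum_zmod M F, Vale.Agent.P028.sum_Ico_eq_sum_zmod p G,
    Finset.sum_mul_sum, ← Finset.sum_product']
  refine Fintype.sum_equiv (ZMod.chineseRemainder hc).toEquiv _ _ ?_
  intro z
  have h1 : ((ZMod.chineseRemainder hc) z).1 = (((z.val : ℕ) : ℤ) : ZMod M) := by
    conv_lhs => rw [← ZMod.natCast_zmod_val z]
    rw [map_natCast]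
    simp
  have h2 : ((ZMod.chineseRemainder hc) z).2 = (((z.val : ℕ) : ℤ) : ZMod p) := by
    conv_lhs => rw [← ZMod.natCast_zmod_val z]
    rw [map_natCast]
    simp
  show F ((z.val : ℕ) : ℤ) * G ((z.val : ℕ) : ℤ) =
    F ((((ZMod.chineseRemainder hc) z).1.val : ℕ) : ℤ) *
      G ((((ZMod.chineseRemainder hc) z).2.val : ℕ) : ℤ)
  rw [h1, h2, ← Vale.Agent.P028.period_val M F hF, ← Vale.Agent.P028.period_val p G hG]

theorem ovcnt_prod (S : Finset ℕ) (hS : ∀ p ∈ S, p.Prime) (f : ℕ → ℤ → ℝ)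
    (hf : ∀ p ∈ S, ∀ t : ℤ, f p (t + p) = f p t) :
    (∀ x : ℤ, (∏ p ∈ S, f p (x + ((∏ p ∈ S, p : ℕ) : ℤ))) = ∏ p ∈ S, f p x) ∧
    ∑ t ∈ Ico (0 : ℤ) ((∏ p ∈ S, p : ℕ) : ℤ), ∏ p ∈ S, f p t =
      ∏ p ∈ S, ∑ t ∈ Ico (0 : ℤ) p, f p t := by
  classical
  have hmul : ∀ p ∈ S, ∀ (k : ℕ) (y : ℤ), f p (y + (p : ℤ) * k) = f p y := by
    intro p hp k
    induction k with
    | zero => intro y; simp
    | succ k ih =>
      intro y
      have : y + (p : ℤ) * ((k + 1 : ℕ) : ℤ) = (y + (p : ℤ) * k) + p := by push_cast; ring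
      rw [this, hf p hp, ih]
  have hper : ∀ p ∈ S, ∀ (m : ℕ), p ∣ m → ∀ y : ℤ, f p (y + m) = f p y := by
    rintro p hp m ⟨k, rfl⟩ y
    have := hmul p hp k y
    push_cast
    exact this
  constructor
  · intro x
    apply Finset.prod_congr rfl
    intro p hp
    exact hper p hp _ (Finset.dvd_prod_of_mem (fun p => p) hp) x
  · induction S using Finset.induction_on with
    | empty => simp
    | insert q S hq ih =>
      have hqp : q.Prime := hS q (mem_insert_self _ _)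
      have hS' : ∀ p ∈ S, p.Prime := fun p hp => hS p (mem_insert_of_mem hp)
      have ih' := ih hS' (fun p hp => hf p (mem_insert_of_mem hp))
        (fun p hp => hmul p (mem_insert_of_mem hp)) (fun p hp => hper p (mem_insert_of_mem hp))
      rw [Finset.prod_insert hq, Finset.prod_insert hq, ← ih', mul_comm q, mul_comm (∑ t ∈ Ico (0 : ℤ) (q : ℤ), f q t)]
      have hMpos : 0 < ∏ p ∈ S, p := Finset.prod_pos (fun p hp => (hS' p hp).pos)
      have hcop : Nat.Coprime (∏ p ∈ S, p) q := by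
        apply Nat.Coprime.prod_left
        intro p hp
        exact (Nat.coprime_primes (hS' p hp) hqp).2 (fun h => hq (h ▸ hp))
      rw [← ovcnt_two _ q hMpos hqp.pos hcop (fun t => ∏ p ∈ S, f p t) (f q) ?_ (hf q (mem_insert_self _ _))]
      · apply Finset.sum_congr rfl
        intro t _
        rw [Finset.prod_insert hq, mul_comm]
      · intro x
        apply Finset.prod_congr rfl
        intro p hp
        exact hper p (mem_insert_of_mem hp) _ (Finset.dvd_prod_of_mem (fun p => p) hp) x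

open Classical in
theorem crt_count (S : Finset ℕ) (hS : ∀ p ∈ S, p.Prime) (R : ℕ → ℤ → Prop)
    (hR : ∀ p ∈ S, ∀ t : ℤ, R p (t + p) ↔ R p t) (N : ℕ) (hN : 0 < N) (hSN : ∀ p ∈ S, p ∣ N) :
    (((Ico (0 : ℤ) N).filter (fun t => ∀ p ∈ S, R p t)).card : ℝ) =
      N * ∏ p ∈ S, ((((Ico (0 : ℤ) p).filter (fun t => R p t)).card : ℝ) / p) := by
  set f : ℕ → ℤ → ℝ := fun p t => if R p t then 1 else 0 with hfdef
  have hf : ∀ p ∈ S, ∀ t : ℤ, f p (t + p) = f p t := by
    intro p hp t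
    simp only [hfdef, hR p hp t]
  obtain ⟨hper, hsum⟩ := ovcnt_prod S hS f hf
  have hdvd : (∏ p ∈ S, p) ∣ N := by
    apply Finset.prod_primes_dvd
    · intro p hp; exact (hS p hp).prime
    · exact hSN
  obtain ⟨k, hk⟩ := hdvd
  have hk' : N = k * ∏ p ∈ S, p := by rw [hk, mul_comm]
  have h1 : (((Ico (0 : ℤ) N).filter (fun t => ∀ p ∈ S, R p t)).card : ℝ) =
      ∑ t ∈ Ico (0 : ℤ) N, ∏ p ∈ S, f p t := by
    rw [Finset.card_filter]
    push_cast
    apply Finset.sum_congr rfl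
    intro t _
    simp only [hfdef]
    rw [Finset.prod_ite_zero]
    simp
  have h2 : ∀ p : ℕ, (((Ico (0 : ℤ) p).filter (fun t => R p t)).card : ℝ) =
      ∑ t ∈ Ico (0 : ℤ) p, f p t := by
    intro p
    rw [Finset.card_filter]
    push_cast
    rfl
  have h3 := Vale.Agent.P028.sum_period_mul (fun t => ∏ p ∈ S, f p t) (∏ p ∈ S, p) hper 0 k
  rw [zero_add, ← hk', hsum] at h3
  have h4 : ∏ p ∈ S, (((Ico (0 : ℤ) p).filter (fun t => R p t)).card : ℝ) =
      ∏ p ∈ S, ∑ t ∈ Ico (0 : ℤ) p, f p t := Finset.prod_congr rfl (fun p _ => h2 p)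
  rw [h1, h3, Finset.prod_div_distrib, h4]
  have hMpos : (0 : ℝ) < ∏ p ∈ S, (p : ℝ) :=
    Finset.prod_pos (fun p hp => by exact_mod_cast (hS p hp).pos)
  have hNr : (N : ℝ) = k * ∏ p ∈ S, (p : ℝ) := by
    rw [hk']; push_cast; rfl
  rw [hNr]
  field_simp

end Vale.Agent.P028E
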