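import Vale.Agent.Lib.P028.E.Defs

/-!
P1b: local counts for two linear forms modulo a prime.
-/

open Finset MeasureTheory

namespace Vale.Agent.P028E

/-- a nonconstant linear form has a zero modulo `p` -/
private theorem OvLoc_zero (p : ℕ) (hp : p.Prime) (a b : ℤ) (h : ¬ (p : ℤ) ∣ b) :
    ∃ t ∈ Ico (0 : ℤ) p, (p : ℤ) ∣ a + b * t := by
  have hp0 : (0 : ℤ) < p := by exact_mod_cast hp.pos
  have hcop : IsCoprime b (p : ℤ) := by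
    rw [isCoprime_comm]
    exact ((Nat.prime_iff_prime_int.1 hp).coprime_iff_not_dvd).2 h
  obtain ⟨u, v, huv⟩ := hcop
  refine ⟨(-(a * u)) % p, ?_, ?_⟩
  · rw [Finset.mem_Ico]
    exact ⟨Int.emod_nonneg _ hp0.ne', Int.emod_lt_of_pos _ hp0⟩
  · have h1 := Int.emod_add_mul_ediv (-(a * u)) (p : ℤ)
    have h2 : (-(a * u)) % (p : ℤ) = -(a * u) - p * ((-(a * u)) / p) := by linarith
    rw [h2]
    refine ⟨a * v - b * ((-(a * u)) / p), ?_⟩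
    linear_combination (-a) * huv

open Classical in
/-- at least one of the two forms is nonconstant modulo `p` -/
theorem local_one (p : ℕ) (hp : p.Prime) (a₁ b₁ a₂ b₂ : ℤ)
    (h : ¬ (p : ℤ) ∣ b₁ ∨ ¬ (p : ℤ) ∣ b₂) :
    (((Ico (0 : ℤ) p).filter (fun t => ¬ (p : ℤ) ∣ a₁ + b₁ * t ∧ ¬ (p : ℤ) ∣ a₂ + b₂ * t)).card : ℝ) ≤
      (p : ℝ) - 1 := by
  have hp1 : 1 ≤ p := hp.one_lt.le
  obtain ⟨t, ht, hd⟩ : ∃ t ∈ Ico (0 : ℤ) p,
      (p : ℤ) ∣ a₁ + b₁ * t ∨ (p : ℤ) ∣ a₂ + b₂ * t := by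
    rcases h with h | h
    · obtain ⟨t, ht, hd⟩ := OvLoc_zero p hp a₁ b₁ h
      exact ⟨t, ht, Or.inl hd⟩
    · obtain ⟨t, ht, hd⟩ := OvLoc_zero p hp a₂ b₂ h
      exact ⟨t, ht, Or.inr hd⟩
  have hsub : (Ico (0 : ℤ) p).filter
      (fun t => ¬ (p : ℤ) ∣ a₁ + b₁ * t ∧ ¬ (p : ℤ) ∣ a₂ + b₂ * t) ⊆ (Ico (0 : ℤ) p).erase t := by
    intro s hs
    rw [Finset.mem_filter] at hs
    refine Finset.mem_erase.2 ⟨?_, hs.1⟩
    rintro rfl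
    rcases hd with hd | hd
    · exact hs.2.1 hd
    · exact hs.2.2 hd
  have hcard := Finset.card_le_card hsub
  rw [Finset.card_erase_of_mem ht, Int.card_Ico, sub_zero, Int.toNat_natCast] at hcard
  have h2 : ((p - 1 : ℕ) : ℝ) = (p : ℝ) - 1 := by
    rw [Nat.cast_sub hp1, Nat.cast_one]
  rw [← h2]
  exact_mod_cast hcard

open Classical in
/-- both forms are nonconstant modulo `p` with different zeros -/
theorem local_two (p : ℕ) (hp : p.Prime) (a₁ b₁ a₂ b₂ : ℤ) (h₁ : ¬ (p : ℤ) ∣ b₁)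
    (h₂ : ¬ (p : ℤ) ∣ b₂) (h : ¬ (p : ℤ) ∣ a₁ * b₂ - a₂ * b₁) :
    (((Ico (0 : ℤ) p).filter (fun t => ¬ (p : ℤ) ∣ a₁ + b₁ * t ∧ ¬ (p : ℤ) ∣ a₂ + b₂ * t)).card : ℝ) ≤
      (p : ℝ) - 2 := by
  have hp2 : 2 ≤ p := hp.two_le
  obtain ⟨t, ht, hd⟩ := OvLoc_zero p hp a₁ b₁ h₁
  obtain ⟨s, hs, hd'⟩ := OvLoc_zero p hp a₂ b₂ h₂
  have hst : s ≠ t := by
    rintro rfl
    apply h
    have h3 : a₁ * b₂ - a₂ * b₁ = (a₁ + b₁ * s) * b₂ - (a₂ + b₂ * s) * b₁ := by ring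
    rw [h3]
    exact dvd_sub (Dvd.dvd.mul_right hd _) (Dvd.dvd.mul_right hd' _)
  have hsub : (Ico (0 : ℤ) p).filter
      (fun t => ¬ (p : ℤ) ∣ a₁ + b₁ * t ∧ ¬ (p : ℤ) ∣ a₂ + b₂ * t) ⊆
        ((Ico (0 : ℤ) p).erase t).erase s := by
    intro x hx
    rw [Finset.mem_filter] at hx
    refine Finset.mem_erase.2 ⟨?_, Finset.mem_erase.2 ⟨?_, hx.1⟩⟩
    · rintro rfl
      exact hx.2.2 hd'
    · rintro rfl
      exact hx.2.1 hd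
  have hcard := Finset.card_le_card hsub
  rw [Finset.card_erase_of_mem (Finset.mem_erase.2 ⟨hst, hs⟩), Finset.card_erase_of_mem ht,
    Int.card_Ico, sub_zero, Int.toNat_natCast] at hcard
  have h2 : ((p - 1 - 1 : ℕ) : ℝ) = (p : ℝ) - 2 := by
    rw [show p - 1 - 1 = p - 2 by omega, Nat.cast_sub hp2]
    norm_num
  rw [← h2]
  exact_mod_cast hcard

end Vale.Agent.P028E
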