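import Vale.Agent.Lib.P028.E.Defs

/-!
P1d: the measure theoretic part of the overlap estimate.

`meas_part`: let `x` lie in the intersection, with integers `a`, `b`.  Put `n = q' b - r' a`
(`q' = qp q r`, `r' = qp r q`); then `|n - D γ| < q' δ' + r' δ ≤ 2 max`, and
`mm A B D n = q' (B b + A) - r' (B a + A)` is coprime to `q' r'`.  As `q' v - r' u = 1` the solutions of
`q' b - r' a = n` are `a = n u + q' t`, `b = n v + r' t`, `t : ℤ`.  Write `t = t' + g k`, `0 ≤ t' < g`,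
`g = gcd q r` (`g q' = q`, `g r' = r`): then `a = a' + q k`, `b = b' + r k`, the coprimality conditions
depend only on `t'`, and `x - k` lies in the interval
`J = {y | |q y - a' - γ| < δ ∧ |r y - b' - γ| < δ'}` of length at most `min (2δ/q) (2δ'/r)`.
Now use `vol_periodic` and a union bound over `n` and `t'`.
-/

open Finset MeasureTheory

namespace Vale.Agent.P028E

theorem vol_periodic (J : Set ℝ) (hJ : MeasurableSet J) (hfin : volume J ≠ ⊤) :
    volume.real (Set.Ico (0 : ℝ) 1 ∩ ⋃ k : ℤ, {x : ℝ | x - k ∈ J}) ≤ volume.real J := by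
  have h1 : volume (Set.Ico (0 : ℝ) 1 ∩ ⋃ k : ℤ, {x : ℝ | x - k ∈ J}) ≤ volume J := by
    rw [Set.inter_iUnion]
    refine (measure_iUnion_le _).trans ?_
    have h2 : ∀ k : ℤ, volume (Set.Ico (0 : ℝ) 1 ∩ {x : ℝ | x - k ∈ J}) =
        volume (J ∩ Set.Ico (((-k : ℤ) : ℝ)) (((-k : ℤ) : ℝ) + 1)) := by
      intro k
      have h3 : Set.Ico (0 : ℝ) 1 ∩ {x : ℝ | x - k ∈ J} =
          (fun x : ℝ => x + -(k : ℝ)) ⁻¹' (J ∩ Set.Ico (((-k : ℤ) : ℝ)) (((-k : ℤ) : ℝ) + 1)) := by
        ext x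
        simp only [Set.mem_inter_iff, Set.mem_Ico, Set.mem_ofPred_eq, Set.mem_preimage]
        push_cast
        rw [← sub_eq_add_neg]
        constructor
        · rintro ⟨⟨h4, h5⟩, h6⟩
          exact ⟨h6, by linarith, by linarith⟩
        · rintro ⟨h6, h4, h5⟩
          exact ⟨⟨by linarith, by linarith⟩, h6⟩
      rw [h3, measure_preimage_add_right]
    simp_rw [h2]
    have h4 : ∑' k : ℤ, volume (J ∩ Set.Ico (((-k : ℤ) : ℝ)) (((-k : ℤ) : ℝ) + 1)) =
        volume (⋃ k : ℤ, J ∩ Set.Ico (((-k : ℤ) : ℝ)) (((-k : ℤ) : ℝ) + 1)) := by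
      refine (measure_iUnion ?_ fun k => hJ.inter measurableSet_Ico).symm
      intro i j hij
      refine Disjoint.mono Set.inter_subset_right Set.inter_subset_right ?_
      rw [Set.disjoint_left]
      rintro x ⟨h5, h6⟩ ⟨h7, h8⟩
      apply hij
      have e1 : ((-i : ℤ) : ℝ) < ((-j : ℤ) : ℝ) + 1 := lt_of_le_of_lt h5 h8
      have e2 : ((-j : ℤ) : ℝ) < ((-i : ℤ) : ℝ) + 1 := lt_of_le_of_lt h7 h6
      have e3 : -i < -j + 1 := by exact_mod_cast e1
      have e4 : -j < -i + 1 := by exact_mod_cast e2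
      omega
    rw [h4]
    exact measure_mono (Set.iUnion_subset fun k => Set.inter_subset_left)
  exact ENNReal.toReal_mono hfin h1

private theorem ovMeas_J (γ : ℝ) (q r : ℕ) (hq : 0 < q) (hr : 0 < r) (δ δ' : ℝ)
    (hδ : 0 < δ) (hδ' : 0 < δ') (a b : ℤ) :
    MeasurableSet {y : ℝ | |(q : ℝ) * y - a - γ| < δ ∧ |(r : ℝ) * y - b - γ| < δ'} ∧
    volume {y : ℝ | |(q : ℝ) * y - a - γ| < δ ∧ |(r : ℝ) * y - b - γ| < δ'} ≠ ⊤ ∧
    volume.real {y : ℝ | |(q : ℝ) * y - a - γ| < δ ∧ |(r : ℝ) * y - b - γ| < δ'} ≤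
      min (2 * δ / q) (2 * δ' / r) := by
  have hq' : (0 : ℝ) < q := by exact_mod_cast hq
  have hr' : (0 : ℝ) < r := by exact_mod_cast hr
  have key : ∀ (s d c : ℝ), 0 < s → 0 < d → {y : ℝ | |s * y - c - γ| < d} =
      Set.Ioo ((c + γ - d) / s) ((c + γ + d) / s) := by
    intro s d c hs hd
    ext y
    simp only [Set.mem_ofPred_eq, Set.mem_Ioo, abs_lt]
    rw [div_lt_iff₀ hs, lt_div_iff₀ hs]
    constructor
    · rintro ⟨h1, h2⟩
      constructor <;> linarith
    · rintro ⟨h1, h2⟩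
      constructor <;> linarith
  have hset : {y : ℝ | |(q : ℝ) * y - a - γ| < δ ∧ |(r : ℝ) * y - b - γ| < δ'} =
      {y : ℝ | |(q : ℝ) * y - a - γ| < δ} ∩ {y : ℝ | |(r : ℝ) * y - b - γ| < δ'} := rfl
  rw [hset, key q δ a hq' hδ, key r δ' b hr' hδ']
  have hl : ∀ (s d c : ℝ), 0 < s → 0 < d →
      volume.real (Set.Ioo ((c + γ - d) / s) ((c + γ + d) / s)) = 2 * d / s := by
    intro s d c hs hd
    rw [Measure.real, Real.volume_Ioo, ENNReal.toReal_ofReal]
    · ring
    · have : (c + γ + d) / s - (c + γ - d) / s = 2 * d / s := by ring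
      rw [this]
      positivity
  have hfin1 : volume (Set.Ioo (((a : ℝ) + γ - δ) / q) (((a : ℝ) + γ + δ) / q)) ≠ ⊤ := by
    rw [Real.volume_Ioo]; exact ENNReal.ofReal_ne_top
  have hfin2 : volume (Set.Ioo (((b : ℝ) + γ - δ') / r) (((b : ℝ) + γ + δ') / r)) ≠ ⊤ := by
    rw [Real.volume_Ioo]; exact ENNReal.ofReal_ne_top
  refine ⟨measurableSet_Ioo.inter measurableSet_Ioo,
    ne_top_of_le_ne_top hfin1 (measure_mono Set.inter_subset_left), ?_⟩
  refine le_min ?_ ?_
  · rw [← hl q δ a hq' hδ]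
    exact measureReal_mono Set.inter_subset_left hfin1
  · rw [← hl r δ' b hr' hδ']
    exact measureReal_mono Set.inter_subset_right hfin2

open Classical in
theorem meas_part (γ : ℝ) (A : ℤ) (B : ℕ) (q r : ℕ) (hq : 0 < q) (hr : 0 < r) (δ δ' : ℝ)
    (hδ : 0 < δ) (hδ' : 0 < δ') (u v : ℤ) (huv : (qp q r : ℤ) * v - (qp r q : ℤ) * u = 1) :
    volume.real (AS γ A B δ q ∩ AS γ A B δ' r) ≤
      ∑ n ∈ nC A B (DD q r) (qp q r * qp r q) ((DD q r : ℝ) * γ)
          (2 * max ((qp r q : ℝ) * δ) ((qp q r : ℝ) * δ')),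
        (((Ico (0 : ℤ) (Nat.gcd q r)).filter (fun t =>
          IsCoprime ((B : ℤ) * (n * u + qp q r * t) + A) (q : ℤ) ∧
          IsCoprime ((B : ℤ) * (n * v + qp r q * t) + A) (r : ℤ))).card : ℝ) *
          min (2 * δ / q) (2 * δ' / r) := by
  set g := Nat.gcd q r with hg
  set q' := qp q r with hq'
  set r' := qp r q with hr'
  have hgpos : 0 < g := Nat.gcd_pos_of_pos_left r hq
  have hgq : q' * g = q := by
    rw [hq', qp, ← hg]
    exact Nat.div_mul_cancel (Nat.gcd_dvd_left q r)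
  have hgr : r' * g = r := by
    rw [hr', qp, Nat.gcd_comm r q, ← hg]
    exact Nat.div_mul_cancel (Nat.gcd_dvd_right q r)
  have hq'pos : 0 < q' := by
    rcases Nat.eq_zero_or_pos q' with h | h
    · rw [h, zero_mul] at hgq; omega
    · exact h
  have hr'pos : 0 < r' := by
    rcases Nat.eq_zero_or_pos r' with h | h
    · rw [h, zero_mul] at hgr; omega
    · exact h
  have hgqZ : (q' : ℤ) * g = q := by exact_mod_cast hgq
  have hgrZ : (r' : ℤ) * g = r := by exact_mod_cast hgr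
  have hgqR : (q' : ℝ) * g = q := by exact_mod_cast hgq
  have hgrR : (r' : ℝ) * g = r := by exact_mod_cast hgr
  set D := DD q r with hD
  have hDe : D = (r' : ℤ) - (q' : ℤ) := rfl
  set L := 2 * max ((r' : ℝ) * δ) ((q' : ℝ) * δ') with hL
  set J : ℤ → ℤ → Set ℝ := fun n t =>
    {y : ℝ | |(q : ℝ) * y - ((n * u + q' * t : ℤ) : ℝ) - γ| < δ ∧
      |(r : ℝ) * y - ((n * v + r' * t : ℤ) : ℝ) - γ| < δ'} with hJ
  set NN := nC A B D (q' * r') ((D : ℝ) * γ) L with hNN
  set T : ℤ → Finset ℤ := fun n => (Ico (0 : ℤ) g).filter (fun t =>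
          IsCoprime ((B : ℤ) * (n * u + q' * t) + A) (q : ℤ) ∧
          IsCoprime ((B : ℤ) * (n * v + r' * t) + A) (r : ℤ)) with hT
  set U : ℤ → ℤ → Set ℝ := fun n t =>
    Set.Ico (0 : ℝ) 1 ∩ ⋃ k : ℤ, {x : ℝ | x - k ∈ J n t} with hU
  have hUfin : ∀ n t, volume (U n t) ≠ ⊤ := by
    intro n t
    refine ne_top_of_le_ne_top ?_ (measure_mono Set.inter_subset_left)
    rw [Real.volume_Ico]; exact ENNReal.ofReal_ne_top
  have hUle : ∀ n t, volume.real (U n t) ≤ min (2 * δ / q) (2 * δ' / r) := by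
    intro n t
    obtain ⟨h1, h2, h3⟩ := ovMeas_J γ q r hq hr δ δ' hδ hδ' (n * u + q' * t) (n * v + r' * t)
    exact (vol_periodic (J n t) h1 h2).trans h3
  have hcov : AS γ A B δ q ∩ AS γ A B δ' r ⊆ ⋃ n ∈ NN, ⋃ t ∈ T n, U n t := by
    rintro x ⟨⟨hx, a, ha, hax⟩, ⟨-, b, hb, hbx⟩⟩
    set n : ℤ := q' * b - r' * a with hn
    set t0 : ℤ := v * a - u * b with ht0
    have hav : n * u + q' * t0 = a := by
      rw [hn, ht0]; linear_combination a * huv
    have hbv : n * v + r' * t0 = b := by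
      rw [hn, ht0]; linear_combination b * huv
    set t : ℤ := t0 % g with ht
    set k : ℤ := t0 / g with hk
    have htk : t + g * k = t0 := Int.emod_add_mul_ediv t0 g
    have hak : n * u + q' * t + q * k = a := by
      rw [← hav, ← htk, ← hgqZ]; ring
    have hbk : n * v + r' * t + r * k = b := by
      rw [← hbv, ← htk, ← hgrZ]; ring
    have hgZ : (0 : ℤ) < g := by exact_mod_cast hgpos
    -- membership of n
    have hcop : IsCoprime (q' : ℤ) (r' : ℤ) := ⟨v, -u, by linear_combination huv⟩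
    have haq : IsCoprime ((B : ℤ) * a + A) (q' : ℤ) := by
      refine IsCoprime.of_isCoprime_of_dvd_right ha ?_
      exact ⟨g, hgqZ.symm⟩
    have hbr : IsCoprime ((B : ℤ) * b + A) (r' : ℤ) := by
      refine IsCoprime.of_isCoprime_of_dvd_right hb ?_
      exact ⟨g, hgrZ.symm⟩
    have hmm : mm A B D n = q' * ((B : ℤ) * b + A) - r' * ((B : ℤ) * a + A) := by
      unfold mm
      rw [hDe, hn]; ring
    have hc1 : IsCoprime (mm A B D n) (q' : ℤ) := by
      rw [hmm]
      have h1 : IsCoprime (-((r' : ℤ) * ((B : ℤ) * a + A))) (q' : ℤ) :=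
        (hcop.symm.mul_left haq).neg_left
      have h2 := h1.add_mul_right_left (((B : ℤ) * b + A))
      have e : -((r' : ℤ) * ((B : ℤ) * a + A)) + ((B : ℤ) * b + A) * q' =
        q' * ((B : ℤ) * b + A) - r' * ((B : ℤ) * a + A) := by ring
      rw [e] at h2
      exact h2
    have hc2 : IsCoprime (mm A B D n) (r' : ℤ) := by
      rw [hmm]
      have h1 : IsCoprime ((q' : ℤ) * ((B : ℤ) * b + A)) (r' : ℤ) := hcop.mul_left hbr
      have h2 := h1.add_mul_right_left (-((B : ℤ) * a + A))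
      have e : (q' : ℤ) * ((B : ℤ) * b + A) + -((B : ℤ) * a + A) * r' =
        q' * ((B : ℤ) * b + A) - r' * ((B : ℤ) * a + A) := by ring
      rw [e] at h2
      exact h2
    have hnabs : |(n : ℝ) - (D : ℝ) * γ| < L := by
      have hqr : (q' : ℝ) * r = r' * q := by
        rw [← hgqR, ← hgrR]; ring
      have h1 : (n : ℝ) - (D : ℝ) * γ =
          r' * ((q : ℝ) * x - a - γ) - q' * ((r : ℝ) * x - b - γ) := by
        rw [hn, hDe]
        push_cast
        linear_combination (-x) * hqr * (-1)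
      rw [h1]
      have hq'R : (0 : ℝ) < q' := by exact_mod_cast hq'pos
      have hr'R : (0 : ℝ) < r' := by exact_mod_cast hr'pos
      have h2 : |(r' : ℝ) * ((q : ℝ) * x - a - γ)| < r' * δ := by
        rw [abs_mul, abs_of_pos hr'R]
        exact mul_lt_mul_of_pos_left hax hr'R
      have h3 : |(q' : ℝ) * ((r : ℝ) * x - b - γ)| < q' * δ' := by
        rw [abs_mul, abs_of_pos hq'R]
        exact mul_lt_mul_of_pos_left hbx hq'R
      have h4 := abs_sub (r' * ((q : ℝ) * x - a - γ)) (q' * ((r : ℝ) * x - b - γ))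
      have h5 := le_max_left ((r' : ℝ) * δ) ((q' : ℝ) * δ')
      have h6 := le_max_right ((r' : ℝ) * δ) ((q' : ℝ) * δ')
      rw [hL]
      linarith
    have hnN : n ∈ NN := by
      rw [hNN, nC, mem_filter, nS, mem_filter, mem_Icc]
      have h1 := abs_lt.1 hnabs
      refine ⟨⟨⟨?_, ?_⟩, hnabs⟩, ?_⟩
      · have : ((⌊(D : ℝ) * γ - L⌋ : ℤ) : ℝ) ≤ (n : ℝ) := by
          have := Int.floor_le ((D : ℝ) * γ - L)
          linarith
        exact_mod_cast this
      · have : (n : ℝ) ≤ ((⌈(D : ℝ) * γ + L⌉ : ℤ) : ℝ) := by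
          have := Int.le_ceil ((D : ℝ) * γ + L)
          linarith
        exact_mod_cast this
      · push_cast
        exact hc1.mul_right hc2
    have htT : t ∈ T n := by
      rw [hT, mem_filter, mem_Ico]
      refine ⟨⟨Int.emod_nonneg _ hgZ.ne', Int.emod_lt_of_pos _ hgZ⟩, ?_, ?_⟩
      · have h1 := ha.add_mul_right_left (-((B : ℤ) * k))
        have e : (B : ℤ) * a + A + -((B : ℤ) * k) * q = B * (n * u + q' * t) + A := by
          rw [← hak]; ring
        rw [e] at h1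
        exact h1
      · have h1 := hb.add_mul_right_left (-((B : ℤ) * k))
        have e : (B : ℤ) * b + A + -((B : ℤ) * k) * r = B * (n * v + r' * t) + A := by
          rw [← hbk]; ring
        rw [e] at h1
        exact h1
    refine Set.mem_biUnion hnN (Set.mem_biUnion htT ⟨hx, Set.mem_iUnion.2 ⟨k, ?_⟩⟩)
    show |(q : ℝ) * (x - k) - ((n * u + q' * t : ℤ) : ℝ) - γ| < δ ∧
      |(r : ℝ) * (x - k) - ((n * v + r' * t : ℤ) : ℝ) - γ| < δ'
    have e1 : (a : ℝ) = ((n * u + q' * t : ℤ) : ℝ) + q * k := by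
      rw [← hak]; push_cast; ring
    have e2 : (b : ℝ) = ((n * v + r' * t : ℤ) : ℝ) + r * k := by
      rw [← hbk]; push_cast; ring
    rw [e1] at hax
    rw [e2] at hbx
    refine ⟨lt_of_eq_of_lt (congrArg abs ?_) hax, lt_of_eq_of_lt (congrArg abs ?_) hbx⟩
    · ring
    · ring
  have hfinB : volume (⋃ n ∈ NN, ⋃ t ∈ T n, U n t) ≠ ⊤ := by
    refine ne_top_of_le_ne_top (b := volume (Set.Ico (0 : ℝ) 1)) ?_ (measure_mono ?_)
    · rw [Real.volume_Ico]; exact ENNReal.ofReal_ne_top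
    · refine Set.iUnion₂_subset fun n _ => Set.iUnion₂_subset fun t _ => Set.inter_subset_left
  refine (measureReal_mono hcov hfinB).trans ?_
  refine (measureReal_biUnion_finset_le NN _).trans (sum_le_sum fun n _ => ?_)
  refine (measureReal_biUnion_finset_le (T n) _).trans ?_
  refine (sum_le_sum fun t _ => hUle n t).trans ?_
  rw [sum_const, nsmul_eq_mul]

end Vale.Agent.P028E
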