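import Vale.Agent.Lib.P028.E.OvCnt
import Vale.Agent.Lib.P028.E.OvLoc

/-!
P1c: number of admissible `t` modulo `gcd (q, r)`.

Write `q' = qp q r`, `r' = qp r q`, `g = gcd q r`, `m = mm A B (DD q r) n`.  One has
`q' (B b₀ + A) - r' (B a₀ + A) = m`.  Let `S` be the set of primes `p ∣ g`, `p ∤ B`.  The two coprimality
conditions imply `p ∤ (B a₀ + A) + (B q') t` and `p ∤ (B b₀ + A) + (B r') t` for `p ∈ S`.
By `crt_count` the number is at most `g ∏_{p ∈ S} c_p / p` with
* `c_p ≤ p - 1` always (`q', r'` coprime, so `p` divides at most one of them: `local_one`);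
* `c_p ≤ p - 2` if `p ∤ q' r' m` (`local_two`; the determinant is `- B m`).
Compare with the right hand side prime by prime.  `φ(q)/q = ∏_{p ∣ q} (1-1/p) = lam B q *
∏_{p ∣ q, p ∤ B} (1-1/p)` (`Nat.totient_eq_mul_prod_factors`), `lam` cancels, and it remains
`∏_{p∈S} c_p/p ≤ ∏_{p∣q,p∤B}(1-1/p) ∏_{p∣r,p∤B}(1-1/p) FB B (q' r') FB B |m|`:
primes in `S` dividing `q'r'`: `1-1/p ≤ (1-1/p)^2 (1-1/p)^(-1)`; in `S`, dividing `m`: the same;
in `S`, not dividing `q'r'm`: `1-2/p ≤ (1-1/p)^2`; primes `p ∤ g` dividing `q` (then `p ∣ q'`) or `r`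
(`p ∣ r'`): factor `(1-1/p)(1-1/p)^(-1) = 1`; all other factors of `FB B |m|` are `≥ 1`.
`m ≠ 0`: otherwise `q' r' = 1` and `q = r`.  No prime divides both `m` and `q' r'`.
-/

open Finset MeasureTheory

namespace Vale.Agent.P028E

/-- `φ(q)/q` splits -/
theorem phi_split (B q : ℕ) (hq : 0 < q) :
    (Nat.totient q : ℝ) / q =
      lam B q * ∏ p ∈ q.primeFactors.filter (fun p => ¬ p ∣ B), (1 - 1 / (p : ℝ)) := by
  have hq0 : (q : ℝ) ≠ 0 := by exact_mod_cast hq.ne'
  have h1 : (Nat.totient q : ℝ) = q * ∏ p ∈ q.primeFactors, (1 - 1 / (p : ℝ)) := by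
    have h2 := congrArg (fun x : ℚ => (x : ℝ)) (Nat.totient_eq_mul_prod_factors q)
    push_cast at h2
    simp only [one_div]
    exact h2
  rw [h1, mul_div_cancel_left₀ _ hq0]
  rw [← Finset.prod_filter_mul_prod_filter_not q.primeFactors (fun p => p ∣ B)]
  congr 1
  unfold lam
  apply Finset.prod_congr _ fun _ _ => rfl
  ext p
  rw [Finset.mem_filter, Nat.mem_primeFactors, Nat.mem_primeFactors, Nat.dvd_gcd_iff]
  constructor
  · rintro ⟨⟨a1, a2, a3⟩, a4⟩
    exact ⟨a1, ⟨a2, a4⟩, (Nat.gcd_pos_of_pos_left _ hq).ne'⟩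
  · rintro ⟨a1, ⟨a2, a4⟩, a3⟩
    exact ⟨⟨a1, a2, hq.ne'⟩, a4⟩

private theorem prod_sub_ext (U T : Finset ℕ) (f : ℕ → ℝ) (h : T ⊆ U) :
    ∏ p ∈ T, f p = ∏ p ∈ U, if p ∈ T then f p else 1 := by
  rw [Finset.prod_ite_mem, Finset.inter_eq_right.2 h]

/-- one prime of the comparison -/
private theorem one_prime (x L : ℝ) (g q r s m : Prop) [Decidable g] [Decidable q] [Decidable r]
    [Decidable s] [Decidable m] (hx0 : 0 < x) (hx1 : x ≤ 1)
    (hgq : g → q) (hgr : g → r) (hqrg : q → r → g) (hq : q → ¬ g → s) (hr : r → ¬ g → s)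
    (hsm : s → ¬ m) (hs : s → q ∨ r) (h1 : g → L ≤ x) (h2 : g → ¬ s → ¬ m → L ≤ x ^ 2) :
    (if g then L else 1) ≤ (if q then x else 1) * (if r then x else 1) *
      (if s then x⁻¹ else 1) * (if m then x⁻¹ else 1) := by
  have hxi : 1 ≤ x⁻¹ := (one_le_inv₀ hx0).2 hx1
  by_cases hg : g
  · have h1' := h1 hg
    rw [if_pos hg, if_pos (hgq hg), if_pos (hgr hg)]
    by_cases hs' : s
    · rw [if_pos hs', if_neg (hsm hs')]
      have e : x * x * x⁻¹ * 1 = x := by field_simp
      rw [e]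
      exact h1'
    · rw [if_neg hs']
      by_cases hm' : m
      · rw [if_pos hm']
        have e : x * x * 1 * x⁻¹ = x := by field_simp
        rw [e]
        exact h1'
      · rw [if_neg hm']
        have e : x * x * 1 * 1 = x ^ 2 := by ring
        rw [e]
        exact h2 hg hs' hm'
  · rw [if_neg hg]
    by_cases hq' : q
    · have hr' : ¬ r := fun h => hg (hqrg hq' h)
      have hs' := hq hq' hg
      rw [if_pos hq', if_neg hr', if_pos hs', if_neg (hsm hs')]
      have e : x * 1 * x⁻¹ * 1 = 1 := by field_simp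
      rw [e]
    · by_cases hr' : r
      · have hs' := hr hr' hg
        rw [if_neg hq', if_pos hr', if_pos hs', if_neg (hsm hs')]
        have e : 1 * x * x⁻¹ * 1 = 1 := by field_simp
        rw [e]
      · have hs' : ¬ s := fun h => (hs h).elim hq' hr'
        rw [if_neg hq', if_neg hr', if_neg hs']
        by_cases hm' : m
        · rw [if_pos hm']
          linarith
        · rw [if_neg hm']
          norm_num

open Classical in
theorem pair_local (A : ℤ) (B : ℕ) (hB : 0 < B) (hAB : IsCoprime A (B : ℤ)) (q r : ℕ) (hq : 0 < q)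
    (hr : 0 < r) (hqr : q ≠ r) (a₀ b₀ n : ℤ)
    (hn : (qp q r : ℤ) * b₀ - (qp r q : ℤ) * a₀ = n)
    (hc : IsCoprime (mm A B (DD q r) n) ((qp q r * qp r q : ℕ) : ℤ)) :
    lam B q * lam B r * (((Ico (0 : ℤ) (Nat.gcd q r)).filter (fun t =>
        IsCoprime ((B : ℤ) * (a₀ + qp q r * t) + A) (q : ℤ) ∧
        IsCoprime ((B : ℤ) * (b₀ + qp r q * t) + A) (r : ℤ))).card : ℝ) ≤
      (Nat.gcd q r : ℝ) * ((Nat.totient q : ℝ) / q) * ((Nat.totient r : ℝ) / r) *
        FB B (qp q r * qp r q) * FB B (mm A B (DD q r) n).natAbs := by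
  have hg0 : 0 < Nat.gcd q r := Nat.gcd_pos_of_pos_left _ hq
  set g := Nat.gcd q r with hg
  set q' := qp q r with hq'
  set r' := qp r q with hr'
  set m := mm A B (DD q r) n with hm
  have eq1 : q = g * q' := by
    rw [hq']
    unfold qp
    exact (Nat.mul_div_cancel' (Nat.gcd_dvd_left _ _)).symm
  have er1 : r = g * r' := by
    rw [hr']
    unfold qp
    rw [Nat.gcd_comm r q]
    exact (Nat.mul_div_cancel' (Nat.gcd_dvd_right _ _)).symm
  have hq'0 : 0 < q' := Nat.pos_of_ne_zero fun h => by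
    rw [h, mul_zero] at eq1
    omega
  have hr'0 : 0 < r' := Nat.pos_of_ne_zero fun h => by
    rw [h, mul_zero] at er1
    omega
  have hcop : Nat.Coprime q' r' := by
    rw [hq', hr']
    unfold qp
    rw [Nat.gcd_comm r q]
    exact Nat.coprime_div_gcd_div_gcd hg0
  have hmeq : (q' : ℤ) * (B * b₀ + A) - r' * (B * a₀ + A) = m := by
    rw [hm]
    unfold mm DD
    rw [← hn]
    ring
  have hm0 : m ≠ 0 := by
    intro h0
    rw [h0, isCoprime_zero_left, Int.isUnit_iff] at hc
    have h1 : q' * r' = 1 := by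
      rcases hc with h | h
      · exact_mod_cast h
      · have : (0 : ℤ) ≤ ((q' * r' : ℕ) : ℤ) := Int.natCast_nonneg _
        omega
    have h2 := Nat.eq_one_of_mul_eq_one_right h1
    have h3 := Nat.eq_one_of_mul_eq_one_left h1
    apply hqr
    rw [eq1, er1, h2, h3]
  -- the local conditions
  set R : ℕ → ℤ → Prop := fun p t =>
    ¬ (p : ℤ) ∣ (B * a₀ + A) + (B * q') * t ∧ ¬ (p : ℤ) ∣ (B * b₀ + A) + (B * r') * t with hR
  set S : Finset ℕ := g.primeFactors.filter (fun p => ¬ p ∣ B) with hS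
  have hSp : ∀ p ∈ S, p.Prime := fun p hp =>
    Nat.prime_of_mem_primeFactors (Finset.mem_filter.1 hp).1
  have hSg : ∀ p ∈ S, p ∣ g := fun p hp =>
    Nat.dvd_of_mem_primeFactors (Finset.mem_filter.1 hp).1
  have hcrt := crt_count S hSp R (fun p _ t => by
    have e1 : (B * a₀ + A) + (B * q') * (t + p) = ((B * a₀ + A) + (B * q') * t : ℤ) +
        p * (B * q') := by ring
    have e2 : (B * b₀ + A) + (B * r') * (t + p) = ((B * b₀ + A) + (B * r') * t : ℤ) +
        p * (B * r') := by ring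
    simp only [hR]
    rw [e1, e2, (Int.dvd_add_left (Dvd.intro _ rfl)), (Int.dvd_add_left (Dvd.intro _ rfl))])
    g hg0 hSg
  have hcard : (((Ico (0 : ℤ) g).filter (fun t =>
        IsCoprime ((B : ℤ) * (a₀ + q' * t) + A) (q : ℤ) ∧
        IsCoprime ((B : ℤ) * (b₀ + r' * t) + A) (r : ℤ))).card : ℝ) ≤
      (((Ico (0 : ℤ) g).filter (fun t => ∀ p ∈ S, R p t)).card : ℝ) := by
    refine Nat.cast_le.2 (Finset.card_le_card ?_)
    intro t ht
    rw [Finset.mem_filter] at ht ⊢
    refine ⟨ht.1, fun p hp => ?_⟩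
    have hpp := hSp p hp
    have hpg := hSg p hp
    have hpq : (p : ℤ) ∣ q := by
      rw [eq1]
      exact_mod_cast hpg.mul_right q'
    have hpr : (p : ℤ) ∣ r := by
      rw [er1]
      exact_mod_cast hpg.mul_right r'
    have hnu : ¬ IsUnit (p : ℤ) := (Nat.prime_iff_prime_int.1 hpp).not_isUnit
    constructor
    · intro hd
      refine hnu (ht.2.1.isUnit_of_dvd' ?_ hpq)
      have e : (B : ℤ) * (a₀ + q' * t) + A = (B * a₀ + A) + (B * q') * t := by ring
      rw [e]
      exact hd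
    · intro hd
      refine hnu (ht.2.2.isUnit_of_dvd' ?_ hpr)
      have e : (B : ℤ) * (b₀ + r' * t) + A = (B * b₀ + A) + (B * r') * t := by ring
      rw [e]
      exact hd
  -- the products over a common set
  set Tq := q.primeFactors.filter (fun p => ¬ p ∣ B) with hTq
  set Tr := r.primeFactors.filter (fun p => ¬ p ∣ B) with hTr
  set Tf := (q' * r').primeFactors.filter (fun p => ¬ p ∣ B) with hTf
  set Tm := m.natAbs.primeFactors.filter (fun p => ¬ p ∣ B) with hTm
  set U := Tq ∪ Tr ∪ Tm with hU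
  have hq0 : q ≠ 0 := hq.ne'
  have hr0 : r ≠ 0 := hr.ne'
  have hUp : ∀ p ∈ U, p.Prime ∧ ¬ p ∣ B := by
    intro p hp
    rw [hU, Finset.mem_union, Finset.mem_union] at hp
    rcases hp with (hp | hp) | hp <;>
      exact ⟨Nat.prime_of_mem_primeFactors (Finset.mem_filter.1 hp).1,
        (Finset.mem_filter.1 hp).2⟩
  have mTq : ∀ p, p.Prime → ¬ p ∣ B → (p ∈ Tq ↔ p ∣ q) := by
    intro p h1 h2
    rw [hTq, Finset.mem_filter, Nat.mem_primeFactors]
    tauto
  have mTr : ∀ p, p.Prime → ¬ p ∣ B → (p ∈ Tr ↔ p ∣ r) := by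
    intro p h1 h2
    rw [hTr, Finset.mem_filter, Nat.mem_primeFactors]
    tauto
  have mTf : ∀ p, p.Prime → ¬ p ∣ B → (p ∈ Tf ↔ p ∣ q' * r') := by
    intro p h1 h2
    have h3 : q' * r' ≠ 0 := (Nat.mul_pos hq'0 hr'0).ne'
    rw [hTf, Finset.mem_filter, Nat.mem_primeFactors]
    tauto
  have mTm : ∀ p, p.Prime → ¬ p ∣ B → (p ∈ Tm ↔ (p : ℤ) ∣ m) := by
    intro p h1 h2
    have h3 : m.natAbs ≠ 0 := Int.natAbs_ne_zero.2 hm0
    rw [hTm, Finset.mem_filter, Nat.mem_primeFactors, Int.natCast_dvd]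
    tauto
  have mS : ∀ p, p.Prime → ¬ p ∣ B → (p ∈ S ↔ p ∣ g) := by
    intro p h1 h2
    have h3 : g ≠ 0 := hg0.ne'
    rw [hS, Finset.mem_filter, Nat.mem_primeFactors]
    tauto
  have sTq : Tq ⊆ U := by
    rw [hU]
    exact Finset.subset_union_left.trans Finset.subset_union_left
  have sTr : Tr ⊆ U := by
    rw [hU]
    exact Finset.subset_union_right.trans Finset.subset_union_left
  have sTm : Tm ⊆ U := by
    rw [hU]
    exact Finset.subset_union_right
  have sS : S ⊆ U := by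
    intro p hp
    apply sTq
    have h1 := hSp p hp
    have h2 : ¬ p ∣ B := (Finset.mem_filter.1 hp).2
    rw [mTq p h1 h2, eq1]
    exact (hSg p hp).mul_right _
  have sTf : Tf ⊆ U := by
    intro p hp
    have h1 : p.Prime := Nat.prime_of_mem_primeFactors (Finset.mem_filter.1 hp).1
    have h2 : ¬ p ∣ B := (Finset.mem_filter.1 hp).2
    rcases (Nat.Prime.dvd_mul h1).1 ((mTf p h1 h2).1 hp) with h | h
    · apply sTq
      rw [mTq p h1 h2, eq1]
      exact h.mul_left _
    · apply sTr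
      rw [mTr p h1 h2, er1]
      exact h.mul_left _
  -- the comparison
  have hprod : ∏ p ∈ S, ((((Ico (0 : ℤ) p).filter (fun t => R p t)).card : ℝ) / p) ≤
      (∏ p ∈ Tq, (1 - 1 / (p : ℝ))) * (∏ p ∈ Tr, (1 - 1 / (p : ℝ))) *
        FB B (q' * r') * FB B m.natAbs := by
    have e3 : FB B (q' * r') = ∏ p ∈ Tf, (1 - 1 / (p : ℝ))⁻¹ := rfl
    have e4 : FB B m.natAbs = ∏ p ∈ Tm, (1 - 1 / (p : ℝ))⁻¹ := rfl
    rw [e3, e4, prod_sub_ext U S _ sS, prod_sub_ext U Tq _ sTq, prod_sub_ext U Tr _ sTr,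
      prod_sub_ext U Tf _ sTf, prod_sub_ext U Tm _ sTm, ← Finset.prod_mul_distrib,
      ← Finset.prod_mul_distrib, ← Finset.prod_mul_distrib]
    refine Finset.prod_le_prod (fun p _ => ?_) fun p hp => ?_
    · split_ifs
      · exact div_nonneg (Nat.cast_nonneg _) (Nat.cast_nonneg _)
      · exact zero_le_one
    · obtain ⟨hpp, hpB⟩ := hUp p hp
      have hp2 : (2 : ℝ) ≤ p := by exact_mod_cast hpp.two_le
      have hp0 : (0 : ℝ) < p := by linarith
      have hBz : ¬ (p : ℤ) ∣ (B : ℤ) := fun h => hpB (by exact_mod_cast h)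
      have hpz : Prime (p : ℤ) := Nat.prime_iff_prime_int.1 hpp
      have hx1 : (1 : ℝ) / p ≤ 1 / 2 := by
        rw [div_le_div_iff₀ hp0 (by norm_num)]
        linarith
      have hxpos : 0 < (1 : ℝ) / p := by positivity
      refine one_prime (1 - 1 / (p : ℝ)) _ (p ∈ S) (p ∈ Tq) (p ∈ Tr) (p ∈ Tf) (p ∈ Tm)
        (by linarith) (by linarith) ?_ ?_ ?_ ?_ ?_ ?_ ?_ ?_ ?_
      · rw [mS p hpp hpB, mTq p hpp hpB]
        intro h
        rw [eq1]
        exact h.mul_right _
      · rw [mS p hpp hpB, mTr p hpp hpB]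
        intro h
        rw [er1]
        exact h.mul_right _
      · rw [mS p hpp hpB, mTr p hpp hpB, mTq p hpp hpB]
        exact Nat.dvd_gcd
      · rw [mS p hpp hpB, mTf p hpp hpB, mTq p hpp hpB]
        intro h1 h2
        rw [eq1] at h1
        exact (((Nat.Prime.dvd_mul hpp).1 h1).resolve_left h2).mul_right _
      · rw [mS p hpp hpB, mTf p hpp hpB, mTr p hpp hpB]
        intro h1 h2
        rw [er1] at h1
        exact (((Nat.Prime.dvd_mul hpp).1 h1).resolve_left h2).mul_left _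
      · rw [mTm p hpp hpB, mTf p hpp hpB]
        intro h1 h2
        refine hpz.not_isUnit (hc.isUnit_of_dvd' h2 ?_)
        exact_mod_cast h1
      · rw [mTq p hpp hpB, mTr p hpp hpB, mTf p hpp hpB]
        intro h
        rcases (Nat.Prime.dvd_mul hpp).1 h with h | h
        · left
          rw [eq1]
          exact h.mul_left _
        · right
          rw [er1]
          exact h.mul_left _
      · intro _
        rw [div_le_iff₀ hp0]
        have h3 : (1 - 1 / (p : ℝ)) * p = (p : ℝ) - 1 := by field_simp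
        rw [h3]
        refine local_one p hpp _ _ _ _ ?_
        by_contra hcon
        push Not at hcon
        have h4 : (p : ℤ) ∣ q' := (hpz.dvd_or_dvd hcon.1).resolve_left hBz
        have h5 : (p : ℤ) ∣ r' := (hpz.dvd_or_dvd hcon.2).resolve_left hBz
        have h6 : p ∣ Nat.gcd q' r' := Nat.dvd_gcd (by exact_mod_cast h4) (by exact_mod_cast h5)
        rw [hcop] at h6
        exact hpp.one_lt.ne' (Nat.dvd_one.1 h6)
      · rw [mS p hpp hpB, mTf p hpp hpB, mTm p hpp hpB]
        intro _ hs hmp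
        have h1 : ¬ (p : ℤ) ∣ B * q' := by
          intro h
          rcases hpz.dvd_or_dvd h with h | h
          · exact hBz h
          · have h' : p ∣ q' := by exact_mod_cast h
            exact hs (h'.mul_right _)
        have h2 : ¬ (p : ℤ) ∣ B * r' := by
          intro h
          rcases hpz.dvd_or_dvd h with h | h
          · exact hBz h
          · have h' : p ∣ r' := by exact_mod_cast h
            exact hs (h'.mul_left _)
        have h3 : ¬ (p : ℤ) ∣ (B * a₀ + A) * (B * r') - (B * b₀ + A) * (B * q') := by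
          have e : ((B : ℤ) * a₀ + A) * (B * r') - (B * b₀ + A) * (B * q') = -(B * m) := by
            rw [← hmeq]
            ring
          rw [e, dvd_neg]
          intro h
          rcases hpz.dvd_or_dvd h with h | h
          · exact hBz h
          · exact hmp h
        have h4 := local_two p hpp _ _ _ _ h1 h2 h3
        rw [div_le_iff₀ hp0]
        refine h4.trans ?_
        have h5 : (1 - 1 / (p : ℝ)) ^ 2 * p = p - 2 + 1 / p := by
          field_simp
          ring
        rw [h5]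
        linarith
  -- end
  have hlq : 0 ≤ lam B q := by
    unfold lam
    refine Finset.prod_nonneg fun p hp => ?_
    have h2 : (1 : ℝ) ≤ p := by
      exact_mod_cast (Nat.prime_of_mem_primeFactors hp).one_lt.le
    have h3 : 1 / (p : ℝ) ≤ 1 := by
      rw [div_le_one (by linarith)]
      exact h2
    linarith
  have hlr : 0 ≤ lam B r := by
    unfold lam
    refine Finset.prod_nonneg fun p hp => ?_
    have h2 : (1 : ℝ) ≤ p := by
      exact_mod_cast (Nat.prime_of_mem_primeFactors hp).one_lt.le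
    have h3 : 1 / (p : ℝ) ≤ 1 := by
      rw [div_le_one (by linarith)]
      exact h2
    linarith
  rw [phi_split B q hq, phi_split B r hr, ← hTq, ← hTr]
  have hfin : lam B q * lam B r * (((Ico (0 : ℤ) g).filter (fun t =>
        IsCoprime ((B : ℤ) * (a₀ + q' * t) + A) (q : ℤ) ∧
        IsCoprime ((B : ℤ) * (b₀ + r' * t) + A) (r : ℤ))).card : ℝ) ≤
      lam B q * lam B r * (g * ((∏ p ∈ Tq, (1 - 1 / (p : ℝ))) * (∏ p ∈ Tr, (1 - 1 / (p : ℝ))) *
        FB B (q' * r') * FB B m.natAbs)) := by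
    refine mul_le_mul_of_nonneg_left ?_ (mul_nonneg hlq hlr)
    refine hcard.trans ((le_of_eq ?_).trans
      (mul_le_mul_of_nonneg_left hprod (Nat.cast_nonneg _)))
    convert hcrt
  refine hfin.trans (le_of_eq ?_)
  ring

end Vale.Agent.P028E
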