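import Vale.Agent.Lib.P028.E.OvPair
import Vale.Agent.Lib.P028.E.OvMeas

/-!
P1: overlap of two approximation sets with the same fraction.

Choose `u`, `v` with `q' v - r' u = 1` (`q' = qp q r`, `r' = qp r q` coprime), apply `meas_part` and
`pair_local` (`a₀ = n u`, `b₀ = n v`; membership in `nC` gives the coprimality), and use
`g * min (2δ/q) (2δ'/r) = 2 δ δ' / max (r' δ) (q' δ')` (`q = g q'`, `r = g r'`).
-/

open Finset MeasureTheory

namespace Vale.Agent.P028E

theorem ov_bezout (q r : ℕ) (hq : 0 < q) :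
    ∃ u v : ℤ, (qp q r : ℤ) * v - (qp r q : ℤ) * u = 1 := by
  have hc : Nat.Coprime (qp q r) (qp r q) := by
    unfold qp
    rw [Nat.gcd_comm r q]
    exact Nat.coprime_div_gcd_div_gcd (Nat.gcd_pos_of_pos_left r hq)
  obtain ⟨a, b, hab⟩ := (Nat.isCoprime_iff_coprime.2 hc)
  exact ⟨-b, a, by rw [← hab]; ring⟩

theorem ov_min (q r : ℕ) (hq : 0 < q) (hr : 0 < r) (a b : ℝ) (ha : 0 < a) (hb : 0 < b) :
    (Nat.gcd q r : ℝ) * min (2 * a / q) (2 * b / r) ≤
      2 * a * b / max ((qp r q : ℝ) * a) ((qp q r : ℝ) * b) := by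
  have hg : 0 < Nat.gcd q r := Nat.gcd_pos_of_pos_left r hq
  have hg' : (0 : ℝ) < Nat.gcd q r := by exact_mod_cast hg
  have hq' : (q : ℝ) = (Nat.gcd q r : ℝ) * (qp q r : ℝ) := by
    unfold qp
    rw [← Nat.cast_mul, Nat.mul_div_cancel' (Nat.gcd_dvd_left q r)]
  have hr' : (r : ℝ) = (Nat.gcd q r : ℝ) * (qp r q : ℝ) := by
    unfold qp
    rw [← Nat.cast_mul, Nat.gcd_comm r q, Nat.mul_div_cancel' (Nat.gcd_dvd_right q r)]
  have hqR : (0 : ℝ) < q := by exact_mod_cast hq
  have hrR : (0 : ℝ) < r := by exact_mod_cast hr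
  have hqp : (0 : ℝ) < qp q r := by
    rw [hq'] at hqR
    exact (mul_pos_iff_of_pos_left hg').1 hqR
  have hrp : (0 : ℝ) < qp r q := by
    rw [hr'] at hrR
    exact (mul_pos_iff_of_pos_left hg').1 hrR
  have hmax : 0 < max ((qp r q : ℝ) * a) ((qp q r : ℝ) * b) := lt_max_of_lt_left (mul_pos hrp ha)
  rw [le_div_iff₀ hmax]
  rcases le_total ((qp r q : ℝ) * a) ((qp q r : ℝ) * b) with h | h
  · rw [max_eq_right h]
    calc (Nat.gcd q r : ℝ) * min (2 * a / q) (2 * b / r) * ((qp q r : ℝ) * b)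
        ≤ (Nat.gcd q r : ℝ) * (2 * a / q) * ((qp q r : ℝ) * b) := by
          refine mul_le_mul_of_nonneg_right ?_ (mul_pos hqp hb).le
          exact mul_le_mul_of_nonneg_left (min_le_left _ _) hg'.le
      _ = 2 * a * b := by
          rw [hq']
          field_simp
  · rw [max_eq_left h]
    calc (Nat.gcd q r : ℝ) * min (2 * a / q) (2 * b / r) * ((qp r q : ℝ) * a)
        ≤ (Nat.gcd q r : ℝ) * (2 * b / r) * ((qp r q : ℝ) * a) := by
          refine mul_le_mul_of_nonneg_right ?_ (mul_pos hrp ha).le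
          exact mul_le_mul_of_nonneg_left (min_le_right _ _) hg'.le
      _ = 2 * a * b := by
          rw [hr']
          field_simp

theorem ov_FB_nonneg (B n : ℕ) : 0 ≤ FB B n := by
  unfold FB
  refine Finset.prod_nonneg fun p hp => ?_
  rw [Finset.mem_filter] at hp
  have h2 : (1 : ℝ) < p := by exact_mod_cast (Nat.prime_of_mem_primeFactors hp.1).one_lt
  rw [inv_nonneg, sub_nonneg, div_le_one (by linarith)]
  exact h2.le

theorem ov_lam_nonneg (B n : ℕ) : 0 ≤ lam B n := by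
  unfold lam
  refine Finset.prod_nonneg fun p hp => ?_
  have h2 : (1 : ℝ) < p := by exact_mod_cast (Nat.prime_of_mem_primeFactors hp).one_lt
  rw [sub_nonneg, div_le_one (by linarith)]
  exact h2.le

/-- P1: overlap of two approximation sets with the same fraction. -/
theorem overlap (γ : ℝ) (A : ℤ) (B : ℕ) (hB : 0 < B) (hAB : IsCoprime A (B : ℤ))
    (q r : ℕ) (hq : 0 < q) (hr : 0 < r) (hqr : q ≠ r) (δ : ℕ → ℝ) (hδq : 0 < δ q) (hδr : 0 < δ r) :
    lam B q * lam B r * volume.real (AS γ A B (δ q) q ∩ AS γ A B (δ r) r) ≤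
      2 * wt δ q * wt δ r / MM δ q r * FB B (qp q r * qp r q) *
        ∑ n ∈ nC A B (DD q r) (qp q r * qp r q) ((DD q r : ℝ) * γ) (2 * MM δ q r),
          FB B (mm A B (DD q r) n).natAbs := by
  classical
  obtain ⟨u, v, huv⟩ := ov_bezout q r hq
  have h1 := meas_part γ A B q r hq hr (δ q) (δ r) hδq hδr u v huv
  have hl : 0 ≤ lam B q * lam B r := mul_nonneg (ov_lam_nonneg _ _) (ov_lam_nonneg _ _)
  refine (mul_le_mul_of_nonneg_left h1 hl).trans ?_
  rw [Finset.mul_sum, Finset.mul_sum]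
  refine Finset.sum_le_sum fun n hn => ?_
  have hc : IsCoprime (mm A B (DD q r) n) ((qp q r * qp r q : ℕ) : ℤ) := by
    unfold nC at hn
    exact (Finset.mem_filter.1 hn).2
  have h2 := pair_local A B hB hAB q r hq hr hqr (n * u) (n * v) n (by
    have : (qp q r : ℤ) * (n * v) - (qp r q : ℤ) * (n * u) =
        n * ((qp q r : ℤ) * v - (qp r q : ℤ) * u) := by ring
    rw [this, huv, mul_one]) hc
  have hmin0 : 0 ≤ min (2 * δ q / q) (2 * δ r / r) := by
    refine le_min ?_ ?_ <;> positivity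
  have h3 := ov_min q r hq hr (δ q) (δ r) hδq hδr
  have h4 : (0 : ℝ) ≤ ((Nat.totient q : ℝ) / q) * ((Nat.totient r : ℝ) / r) *
      FB B (qp q r * qp r q) * FB B (mm A B (DD q r) n).natAbs := by
    have := ov_FB_nonneg B (qp q r * qp r q)
    have := ov_FB_nonneg B (mm A B (DD q r) n).natAbs
    positivity
  rw [← mul_assoc]
  refine (mul_le_mul_of_nonneg_right h2 hmin0).trans ?_
  calc (Nat.gcd q r : ℝ) * ((Nat.totient q : ℝ) / q) * ((Nat.totient r : ℝ) / r) *
        FB B (qp q r * qp r q) * FB B (mm A B (DD q r) n).natAbs * min (2 * δ q / q) (2 * δ r / r)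
      = (((Nat.totient q : ℝ) / q) * ((Nat.totient r : ℝ) / r) *
        FB B (qp q r * qp r q) * FB B (mm A B (DD q r) n).natAbs) *
        ((Nat.gcd q r : ℝ) * min (2 * δ q / q) (2 * δ r / r)) := by ring
    _ ≤ (((Nat.totient q : ℝ) / q) * ((Nat.totient r : ℝ) / r) *
        FB B (qp q r * qp r q) * FB B (mm A B (DD q r) n).natAbs) *
        (2 * δ q * δ r / max ((qp r q : ℝ) * δ q) ((qp q r : ℝ) * δ r)) :=
        mul_le_mul_of_nonneg_left h3 h4
    _ = 2 * wt δ q * wt δ r / MM δ q r * FB B (qp q r * qp r q) *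
        FB B (mm A B (DD q r) n).natAbs := by
        unfold wt MM
        ring

end Vale.Agent.P028E
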