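import Vale.Agent.Lib.P028.E.Struct

/-!
# P028 E: `φ(v)/v * σ_{-1}(N) ≤ 8` for typical edges

`∑_{k∣N} 1/k ≤ ∏_{p∣N} (1-1/p)^(-1)` (geometric series in each prime), `φ(v)/v = ∏_{p∣v} (1-1/p)
≤ ∏_{p ∣ N, p ∣ v} (1-1/p)`.  So the product is `≤ ∏_{p∣N, p∤v} (1-1/p)^(-1) ≤ exp (2 ∑ 1/p)`
(`(1-x)^(-1) ≤ exp(2x)` for `0 ≤ x ≤ 1/2`) and by `missing` these `p` are among the primes of
`gsum`, so `∑ 1/p ≤ gsum ≤ 1`, and `exp 2 ≤ 8`.
-/

open Finset

namespace Vale.Agent.P028E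

private theorem ps_sub_le {s t : Finset ℕ} (hst : s ⊆ t) (f : ℕ → ℝ) (h0 : ∀ p ∈ t, 0 ≤ f p)
    (h1 : ∀ p ∈ t, p ∉ s → f p ≤ 1) : ∏ p ∈ t, f p ≤ ∏ p ∈ s, f p := by
  classical
  rw [← Finset.prod_sdiff hst]
  have h2 : ∏ p ∈ t \ s, f p ≤ 1 := Finset.prod_le_one
    (fun p hp => h0 p (Finset.mem_sdiff.1 hp).1)
    (fun p hp => h1 p (Finset.mem_sdiff.1 hp).1 (Finset.mem_sdiff.1 hp).2)
  have h3 : 0 ≤ ∏ p ∈ s, f p := Finset.prod_nonneg fun p hp => h0 p (hst hp)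
  nlinarith

private theorem ps_sub_ge {s t : Finset ℕ} (hst : s ⊆ t) (f : ℕ → ℝ) (h0 : ∀ p ∈ s, 0 ≤ f p)
    (h1 : ∀ p ∈ t, p ∉ s → 1 ≤ f p) : ∏ p ∈ s, f p ≤ ∏ p ∈ t, f p := by
  classical
  rw [← Finset.prod_sdiff hst]
  have h2 : 1 ≤ ∏ p ∈ t \ s, f p := by
    have h4 : ∏ _p ∈ t \ s, (1 : ℝ) ≤ ∏ p ∈ t \ s, f p := Finset.prod_le_prod
      (fun p _ => zero_le_one)
      (fun p hp => h1 p (Finset.mem_sdiff.1 hp).1 (Finset.mem_sdiff.1 hp).2)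
    rwa [Finset.prod_const_one] at h4
  have h3 : 0 ≤ ∏ p ∈ s, f p := Finset.prod_nonneg h0
  nlinarith

private theorem ps_x {p : ℕ} (hp : p.Prime) : 0 < 1 / (p : ℝ) ∧ 1 / (p : ℝ) ≤ 1 / 2 := by
  have h2 : (2 : ℝ) ≤ p := by exact_mod_cast hp.two_le
  exact ⟨by positivity, one_div_le_one_div_of_le (by norm_num) h2⟩

private theorem ps_fac_pos {p : ℕ} (hp : p.Prime) : 0 < 1 - 1 / (p : ℝ) := by
  have := ps_x hp
  linarith

private theorem ps_inv_one_le {p : ℕ} (hp : p.Prime) : 1 ≤ (1 - 1 / (p : ℝ))⁻¹ := by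
  have h := ps_x hp
  exact (one_le_inv₀ (ps_fac_pos hp)).2 (by linarith)

private theorem ps_inv_le_two {p : ℕ} (hp : p.Prime) : (1 - 1 / (p : ℝ))⁻¹ ≤ 2 := by
  have h := ps_x hp
  rw [inv_le_comm₀ (ps_fac_pos hp) (by norm_num)]
  linarith

private theorem ps_exp {p : ℕ} (hp : p.Prime) :
    (1 - 1 / (p : ℝ))⁻¹ ≤ Real.exp (2 * (1 / (p : ℝ))) := by
  have h := ps_x hp
  generalize 1 / (p : ℝ) = x at h ⊢
  have h1 : 0 < 1 - x := by linarith
  have h2 : 2 * x + 1 ≤ Real.exp (2 * x) := Real.add_one_le_exp _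
  rw [inv_le_iff_one_le_mul₀ h1]
  nlinarith [h.1, h.2]

private theorem ps_sigma {N : ℕ} (hN : 0 < N) : ∑ k ∈ N.divisors, 1 / (k : ℝ) ≤
    ∏ p ∈ N.primeFactors, (1 - 1 / (p : ℝ))⁻¹ := by
  let f : ℕ →* ℝ :=
    { toFun := fun k => 1 / (k : ℝ)
      map_one' := by simp
      map_mul' := fun a b => by push_cast; rw [one_div_mul_one_div] }
  have hf : ∀ {p : ℕ}, p.Prime → ‖f p‖ < 1 := by
    intro p hp
    have h := ps_x hp
    change ‖1 / (p : ℝ)‖ < 1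
    rw [Real.norm_of_nonneg h.1.le]
    linarith
  obtain ⟨-, hs⟩ :=
    EulerProduct.summable_and_hasSum_factoredNumbers_prod_filter_prime_geometric hf N.primeFactors
  have e1 : ∏ p ∈ N.primeFactors with p.Prime, (1 - f p)⁻¹ =
      ∏ p ∈ N.primeFactors, (1 - 1 / (p : ℝ))⁻¹ := by
    rw [Finset.filter_true_of_mem (fun p hp => Nat.prime_of_mem_primeFactors hp)]
    rfl
  rw [e1] at hs
  have hmem : ∀ k ∈ N.divisors, k ∈ Nat.factoredNumbers N.primeFactors := by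
    intro k hk
    have hk' := Nat.dvd_of_mem_divisors hk
    have hk0 : k ≠ 0 := fun h => by rw [h] at hk'; exact hN.ne' (Nat.eq_zero_of_zero_dvd hk')
    exact Nat.mem_factoredNumbers_of_primeFactors_subset hk0 (Nat.primeFactors_mono hk' hN.ne')
  have h2 := sum_le_hasSum (N.divisors.attach.map
    ⟨fun k => (⟨k.1, hmem k.1 k.2⟩ : Nat.factoredNumbers N.primeFactors), fun a b h => by
      have := congrArg Subtype.val h
      exact Subtype.ext this⟩) (fun m _ => by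
        change 0 ≤ 1 / ((m : ℕ) : ℝ)
        positivity) hs
  rw [Finset.sum_map] at h2
  refine le_trans (le_of_eq ?_) h2
  rw [← Finset.sum_attach]
  rfl

private theorem ps_phi {v : ℕ} (hv : 0 < v) : (Nat.totient v : ℝ) / v =
    ∏ p ∈ v.primeFactors, (1 - 1 / (p : ℝ)) := by
  have h := Nat.totient_eq_mul_prod_factors v
  have h' : ((Nat.totient v : ℚ) : ℝ) = ((v * ∏ p ∈ v.primeFactors, (1 - (p : ℚ)⁻¹) : ℚ) : ℝ) := by
    rw [h]
  push_cast at h'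
  rw [h']
  have hv' : (v : ℝ) ≠ 0 := by positivity
  rw [mul_div_cancel_left₀ _ hv']
  simp [one_div]

private theorem ps_prod_exp (s : Finset ℕ) (hs : ∀ p ∈ s, p.Prime) :
    ∏ p ∈ s, (1 - 1 / (p : ℝ))⁻¹ ≤ Real.exp (2 * ∑ p ∈ s, 1 / (p : ℝ)) := by
  rw [Finset.mul_sum, Real.exp_sum]
  exact Finset.prod_le_prod (fun p hp => (inv_pos.2 (ps_fac_pos (hs p hp))).le)
    (fun p hp => ps_exp (hs p hp))

private theorem ps_exp_two : Real.exp 2 ≤ 8 := by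
  have h := Real.exp_one_lt_d9
  have h0 := Real.exp_pos 1
  have e : Real.exp 2 = Real.exp 1 * Real.exp 1 := by rw [← Real.exp_add]; norm_num
  rw [e]
  nlinarith

/-- the primes of a finite set outside `P` dividing `v' w'` -/
private theorem ps_gsum {P : Finset ℕ} {N v w : ℕ} (hv : 0 < v) (hw : 0 < w) (g : ℕ → ℝ)
    (hg : ∀ p, 0 ≤ g p) (hg1 : ∀ p : ℕ, p.Prime → 1 / (p : ℝ) ≤ g p) (h : Good P N g v w)
    (s : Finset ℕ) (hs : ∀ p ∈ s, p.Prime ∧ p ∣ qp v w * qp w v ∧ p ∉ P) :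
    ∏ p ∈ s, (1 - 1 / (p : ℝ))⁻¹ ≤ 8 := by
  classical
  refine (ps_prod_exp s fun p hp => (hs p hp).1).trans (le_trans ?_ ps_exp_two)
  refine Real.exp_le_exp.2 ?_
  have h1 : ∑ p ∈ s, 1 / (p : ℝ) ≤ gsum P g v w := by
    unfold gsum
    refine (Finset.sum_le_sum fun p hp => hg1 p (hs p hp).1).trans ?_
    refine Finset.sum_le_sum_of_subset_of_nonneg ?_ fun p _ _ => hg p
    intro p hp
    obtain ⟨h1, h2, h3⟩ := hs p hp
    rw [Finset.mem_filter, Nat.mem_primeFactors]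
    exact ⟨⟨h1, h2, (Nat.mul_pos (qp_pos hv) (qp_pos hw)).ne'⟩, h3⟩
  have h2 := h.2
  linarith

theorem phi_sigma {P : Finset ℕ} (hP : ∀ p ∈ P, p.Prime) {N v w : ℕ} (hv : 0 < v) (hw : 0 < w)
    (hN : 0 < N) (hNP : ∀ p ∈ P, ¬ p ∣ N) (g : ℕ → ℝ) (hg : ∀ p, 0 ≤ g p)
    (hg1 : ∀ p : ℕ, p.Prime → 1 / (p : ℝ) ≤ g p) (h : Good P N g v w) :
    (Nat.totient v : ℝ) / v * ∑ k ∈ N.divisors, 1 / (k : ℝ) ≤ 8 := by
  classical
  have h1 : (Nat.totient v : ℝ) / v ≤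
      ∏ p ∈ N.primeFactors.filter (fun p => p ∣ v), (1 - 1 / (p : ℝ)) := by
    rw [ps_phi hv]
    refine ps_sub_le ?_ _ ?_ ?_
    · intro p hp
      rw [Finset.mem_filter] at hp
      rw [Nat.mem_primeFactors]
      exact ⟨Nat.prime_of_mem_primeFactors hp.1, hp.2, hv.ne'⟩
    · intro p hp
      exact (ps_fac_pos (Nat.prime_of_mem_primeFactors hp)).le
    · intro p hp _
      have := (ps_x (Nat.prime_of_mem_primeFactors hp)).1
      linarith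
  have h2 := ps_sigma hN
  have h3 : ∏ p ∈ N.primeFactors, (1 - 1 / (p : ℝ))⁻¹ =
      (∏ p ∈ N.primeFactors.filter (fun p => p ∣ v), (1 - 1 / (p : ℝ))⁻¹) *
        ∏ p ∈ N.primeFactors.filter (fun p => ¬ p ∣ v), (1 - 1 / (p : ℝ))⁻¹ :=
    (Finset.prod_filter_mul_prod_filter_not _ _ _).symm
  have h4 : 0 < ∏ p ∈ N.primeFactors.filter (fun p => p ∣ v), (1 - 1 / (p : ℝ)) :=
    Finset.prod_pos fun p hp =>
      ps_fac_pos (Nat.prime_of_mem_primeFactors (Finset.mem_filter.1 hp).1)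
  have h5 : ∏ p ∈ N.primeFactors.filter (fun p => ¬ p ∣ v), (1 - 1 / (p : ℝ))⁻¹ ≤ 8 := by
    refine ps_gsum hv hw g hg hg1 h _ fun p hp => ?_
    rw [Finset.mem_filter] at hp
    have hp' := Nat.prime_of_mem_primeFactors hp.1
    obtain ⟨h6, h7⟩ := missing hv hw hN hNP h.1 hp' (Nat.dvd_of_mem_primeFactors hp.1) hp.2
    exact ⟨hp', dvd_mul_of_dvd_right h6 _, h7⟩
  have h6 : (0 : ℝ) ≤ ∑ k ∈ N.divisors, 1 / (k : ℝ) := Finset.sum_nonneg fun k _ => by positivity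
  calc (Nat.totient v : ℝ) / v * ∑ k ∈ N.divisors, 1 / (k : ℝ)
      ≤ (∏ p ∈ N.primeFactors.filter (fun p => p ∣ v), (1 - 1 / (p : ℝ))) *
        ∏ p ∈ N.primeFactors, (1 - 1 / (p : ℝ))⁻¹ :=
        mul_le_mul h1 h2 h6 h4.le
    _ = ∏ p ∈ N.primeFactors.filter (fun p => ¬ p ∣ v), (1 - 1 / (p : ℝ))⁻¹ := by
        rw [h3, Finset.prod_inv_distrib, ← mul_assoc, mul_inv_cancel₀ h4.ne', one_mul]
    _ ≤ 8 := h5

/-- `n / φ(n) ≤ C n^κ` -/
private theorem ps_kappa (κ : ℝ) (hκ : 0 < κ) : ∃ C : ℝ, 1 ≤ C ∧ ∀ n : ℕ, 0 < n →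
    ∏ p ∈ n.primeFactors, (1 - 1 / (p : ℝ))⁻¹ ≤ C * (n : ℝ) ^ κ := by
  obtain ⟨p0, hp0⟩ := exists_nat_ge ((2 : ℝ) ^ (1 / κ))
  refine ⟨2 ^ p0, one_le_pow₀ (by norm_num), fun n hn => ?_⟩
  have hbig : ∀ p : ℕ, p0 ≤ p → (2 : ℝ) ≤ (p : ℝ) ^ κ := by
    intro p hp
    have h1 : (2 : ℝ) ^ (1 / κ) ≤ p := hp0.trans (by exact_mod_cast hp)
    calc (2 : ℝ) = ((2 : ℝ) ^ (1 / κ)) ^ κ := by
          rw [← Real.rpow_mul (by norm_num), one_div_mul_cancel hκ.ne', Real.rpow_one]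
      _ ≤ (p : ℝ) ^ κ := Real.rpow_le_rpow (by positivity) h1 hκ.le
  have h1 : ∀ p ∈ n.primeFactors, (1 - 1 / (p : ℝ))⁻¹ ≤
      (if p < p0 then 2 else 1) * (p : ℝ) ^ κ := by
    intro p hp
    have hp' := Nat.prime_of_mem_primeFactors hp
    have hp1 : (1 : ℝ) ≤ (p : ℝ) ^ κ :=
      Real.one_le_rpow (by exact_mod_cast hp'.one_lt.le) hκ.le
    have h2 := ps_inv_le_two hp'
    split_ifs with h
    · nlinarith
    · have := hbig p (not_lt.1 h)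
      linarith
  refine (Finset.prod_le_prod (fun p hp =>
    (inv_pos.2 (ps_fac_pos (Nat.prime_of_mem_primeFactors hp))).le) h1).trans ?_
  rw [Finset.prod_mul_distrib]
  refine mul_le_mul ?_ ?_ (Finset.prod_nonneg fun p _ => by positivity) (by positivity)
  · rw [Finset.prod_ite, Finset.prod_const, Finset.prod_const_one, mul_one]
    refine pow_le_pow_right₀ (by norm_num) ?_
    calc (n.primeFactors.filter (fun p => p < p0)).card ≤ (Finset.range p0).card := by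
          refine Finset.card_le_card fun p hp => ?_
          rw [Finset.mem_range]
          exact (Finset.mem_filter.1 hp).2
      _ = p0 := Finset.card_range p0
  · rw [Real.finsetProd_rpow _ _ (fun p _ => by positivity)]
    refine Real.rpow_le_rpow (Finset.prod_nonneg fun p _ => by positivity) ?_ hκ.le
    have h3 : ∏ p ∈ n.primeFactors, p ≤ n := Nat.le_of_dvd hn (Nat.prod_primeFactors_dvd n)
    have h4 : ((∏ p ∈ n.primeFactors, p : ℕ) : ℝ) ≤ n := Nat.cast_le.2 h3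
    rwa [Nat.cast_prod] at h4

/-- the multiplicative factor on a typical edge -/
theorem FB_good (κ : ℝ) (hκ : 0 < κ) : ∃ C : ℝ, 1 ≤ C ∧ ∀ (B : ℕ) (P : Finset ℕ), (∀ p ∈ P, p.Prime) →
    ∀ {N v w a b : ℕ}, 0 < v → 0 < w → 0 < N → (∀ p ∈ P, ¬ p ∣ N) → partP P v = a →
    partP P w = b → ∀ (g : ℕ → ℝ), (∀ p, 0 ≤ g p) → (∀ p : ℕ, p.Prime → 1 / (p : ℝ) ≤ g p) →
    Good P N g v w → FB B (qp v w * qp w v) ≤ C * (rab a b : ℝ) ^ κ := by
  obtain ⟨C, hC, hC'⟩ := ps_kappa κ hκ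
  refine ⟨8 * C, by linarith, ?_⟩
  intro B P hP N v w a b hv hw hN hNP ha hb g hg hg1 h
  classical
  have hpos : 0 < qp v w * qp w v := Nat.mul_pos (qp_pos hv) (qp_pos hw)
  have hap : 0 < a := by
    rw [← ha]
    exact Finset.prod_pos fun p hp => pow_pos (hP p hp).pos _
  have hbp : 0 < b := by
    rw [← hb]
    exact Finset.prod_pos fun p hp => pow_pos (hP p hp).pos _
  have hg0 : 0 < Nat.gcd a b := Nat.gcd_pos_of_pos_left _ hap
  have hr : 0 < rab a b := Nat.mul_pos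
    (Nat.div_pos (Nat.le_of_dvd hap (Nat.gcd_dvd_left a b)) hg0)
    (Nat.div_pos (Nat.le_of_dvd hbp (Nat.gcd_dvd_right a b)) hg0)
  set n := qp v w * qp w v with hn
  have h1 : FB B n ≤ ∏ p ∈ n.primeFactors, (1 - 1 / (p : ℝ))⁻¹ := by
    unfold FB
    refine ps_sub_ge (Finset.filter_subset _ _) _ ?_ ?_
    · intro p hp
      exact (inv_pos.2 (ps_fac_pos
        (Nat.prime_of_mem_primeFactors (Finset.mem_filter.1 hp).1))).le
    · intro p hp _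
      exact ps_inv_one_le (Nat.prime_of_mem_primeFactors hp)
  refine h1.trans ?_
  rw [← Finset.prod_filter_mul_prod_filter_not n.primeFactors (fun p => p ∈ P)]
  have h2 : ∏ p ∈ n.primeFactors.filter (fun p => p ∉ P), (1 - 1 / (p : ℝ))⁻¹ ≤ 8 := by
    refine ps_gsum hv hw g hg hg1 h _ fun p hp => ?_
    rw [Finset.mem_filter] at hp
    exact ⟨Nat.prime_of_mem_primeFactors hp.1, Nat.dvd_of_mem_primeFactors hp.1, hp.2⟩
  have h3 : ∏ p ∈ n.primeFactors.filter (fun p => p ∈ P), (1 - 1 / (p : ℝ))⁻¹ ≤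
      C * (rab a b : ℝ) ^ κ := by
    refine le_trans ?_ (hC' (rab a b) hr)
    refine ps_sub_ge ?_ _ ?_ ?_
    · intro p hp
      rw [Finset.mem_filter] at hp
      rw [Nat.mem_primeFactors]
      exact ⟨Nat.prime_of_mem_primeFactors hp.1, prime_in_P hP hv hw hN hNP ha hb h.1 hp.2
        (Nat.dvd_of_mem_primeFactors hp.1), hr.ne'⟩
    · intro p hp
      exact (inv_pos.2 (ps_fac_pos
        (Nat.prime_of_mem_primeFactors (Finset.mem_filter.1 hp).1))).le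
    · intro p hp _
      exact ps_inv_one_le (Nat.prime_of_mem_primeFactors hp)
  have h4 : 0 ≤ ∏ p ∈ n.primeFactors.filter (fun p => p ∉ P), (1 - 1 / (p : ℝ))⁻¹ :=
    Finset.prod_nonneg fun p hp => (inv_pos.2 (ps_fac_pos
      (Nat.prime_of_mem_primeFactors (Finset.mem_filter.1 hp).1))).le
  calc _ ≤ (C * (rab a b : ℝ) ^ κ) * 8 := mul_le_mul h3 h2 h4 (by positivity)
    _ = 8 * C * (rab a b : ℝ) ^ κ := by ring

end Vale.Agent.P028E
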