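import Vale.Agent.Lib.P028.E.LDefs

/-!
# P028 E: symmetry of the definitions (all immediate)
-/

open Finset

namespace Vale.Agent.P028E

theorem ds_comm (i j : ℕ) : ds i j = ds j i := by
  unfold ds
  exact Nat.add_comm _ _

theorem rab_comm (a b : ℕ) : rab a b = rab b a := by
  unfold rab
  rw [Nat.gcd_comm b a, Nat.mul_comm]

theorem MM_comm (δ : ℕ → ℝ) (q r : ℕ) : MM δ q r = MM δ r q := by
  unfold MM
  exact max_comm _ _

theorem DD_neg (q r : ℕ) : DD r q = - DD q r := by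
  unfold DD
  ring

private theorem Edge_mp (γ : ℝ) (A : ℤ) (B : ℕ) (δ : ℕ → ℝ) (t : ℝ) (e q r : ℕ)
    (h : Edge γ A B δ t e q r) : Edge γ A B δ t e r q := by
  obtain ⟨h1, h2, n, h3, h4, h5⟩ := h
  have hm : mm A B (DD r q) (-n) = - mm A B (DD q r) n := by
    rw [DD_neg q r]
    unfold mm
    ring
  refine ⟨by rwa [MM_comm], by rwa [MM_comm], -n, ?_, ?_, ?_⟩
  · rw [DD_neg q r]
    have h6 : (((-n : ℤ) : ℝ) - ((-DD q r : ℤ) : ℝ) * γ) = -((n : ℝ) - (DD q r : ℝ) * γ) := by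
      push_cast
      ring
    rw [h6, abs_neg]
    exact h3
  · rw [hm]
    exact neg_ne_zero.2 h4
  · rw [hm]
    exact (dvd_neg).2 h5

theorem Edge_comm (γ : ℝ) (A : ℤ) (B : ℕ) (δ : ℕ → ℝ) (t : ℝ) (e q r : ℕ) :
    Edge γ A B δ t e q r ↔ Edge γ A B δ t e r q :=
  ⟨Edge_mp γ A B δ t e q r, Edge_mp γ A B δ t e r q⟩

theorem NoCom.swap {P : Finset ℕ} {N v w : ℕ} (h : NoCom P N v w) : NoCom P N w v :=
  fun p hp hP => (h p hp hP).symm

theorem gsum_comm (P : Finset ℕ) (g : ℕ → ℝ) (v w : ℕ) : gsum P g v w = gsum P g w v := by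
  unfold gsum
  rw [Nat.mul_comm]

theorem Good.swap {P : Finset ℕ} {N v w : ℕ} {g : ℕ → ℝ} (h : Good P N g v w) :
    Good P N g w v := by
  refine ⟨h.1.swap, ?_⟩
  rw [gsum_comm]
  exact h.2

theorem eW_comm (V W : Finset ℕ) (μ ν : ℕ → ℝ) (ω : ℕ → ℕ → ℝ) :
    eW V W μ ν ω = eW W V ν μ (fun w v => ω v w) := by
  unfold eW
  rw [Finset.sum_comm]
  refine Finset.sum_congr rfl fun w _ => Finset.sum_congr rfl fun v _ => ?_
  ring

theorem Kp_comm (p i j : ℕ) : Kp p i j = Kp p j i := by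
  unfold Kp
  rw [ds_comm]

theorem Leaf.swap {p1 : ℕ} {V W : Finset ℕ} {μ ν : ℕ → ℝ} {ω : ℕ → ℕ → ℝ}
    {V1 W1 P : Finset ℕ} {a b N : ℕ} (h : Leaf p1 V W μ ν ω V1 W1 P a b N) :
    Leaf p1 W V ν μ (fun w v => ω v w) W1 V1 P b a N where
  subV := h.subW
  subW := h.subV
  prime := h.prime
  small := h.small
  apos := h.bpos
  bpos := h.apos
  Npos := h.Npos
  Ncop := h.Ncop
  partV := h.partW
  partW := h.partV
  epos := by
    rw [← eW_comm V1 W1 μ ν ω]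
    exact h.epos
  qual := by
    rw [← eW_comm V1 W1 μ ν ω, ← eW_comm V W μ ν ω, mul_comm (ms W1 ν), mul_comm (ms W ν),
      rab_comm]
    exact h.qual
  concV := h.concW
  concW := h.concV
  edge := by
    intro p hp hP i j
    rw [← eW_comm (vfil V1 p j) (vfil W1 p i) μ ν ω, ← eW_comm V1 W1 μ ν ω, Kp_comm,
      mul_comm (ms (vfil W1 p i) ν / ms W1 ν)]
    exact h.edge p hp hP j i

end Vale.Agent.P028E
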