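import Vale.Agent.Lib.P028.E.LDefs

/-!
# P028 E: the edge sum and the class hypotheses
-/

open Finset

namespace Vale.Agent.P028E

open Classical in
/-- weight of the edges `Edge γ A B δ t e q r` with `q' ≥ r'` -/
noncomputable def omE (γ : ℝ) (A : ℤ) (B : ℕ) (δ : ℕ → ℝ) (t : ℝ) (e q r : ℕ) : ℝ :=
  if Edge γ A B δ t e q r ∧ qp r q ≤ qp q r then FB B (qp q r * qp r q) else 0

/-- half edge sum -/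
noncomputable def WE (γ : ℝ) (A : ℤ) (B : ℕ) (δ : ℕ → ℝ) (S : Finset ℕ) (t : ℝ) (e : ℕ) : ℝ :=
  eW S S (wt δ) (wt δ) (omE γ A B δ t e)

/-- standing hypotheses for one class: `S ⊆ [Z, Z²]`, `1/q ≤ δ q ≤ q^(-ε0)`, total weight `≤ 2`,
`A/B` close to `γ` -/
structure Cls (ε0 c3 Z : ℝ) (γ : ℝ) (A : ℤ) (B : ℕ) (δ : ℕ → ℝ) (S : Finset ℕ) : Prop where
  Bpos : 0 < B
  cop : IsCoprime A (B : ℤ)
  BZ : (B : ℝ) ≤ Z ^ c3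
  gZ : |(B : ℝ) * γ - A| ≤ Z ^ (-c3)
  Spos : ∀ q ∈ S, 0 < q
  Slow : ∀ q ∈ S, Z ≤ (q : ℝ)
  Supp : ∀ q ∈ S, (q : ℝ) ≤ Z ^ 2
  dlow : ∀ q ∈ S, 1 / (q : ℝ) ≤ δ q
  dupp : ∀ q ∈ S, δ q ≤ (q : ℝ) ^ (-ε0)
  mass : ∑ q ∈ S, wt δ q ≤ 2

end Vale.Agent.P028E
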