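import Vale.Agent.Lib.P028.E.Lines
import Vale.Agent.Lib.P028.E.WDefs
import Vale.Agent.Lib.P028.E.Swap
import Vale.Agent.Lib.P028.Arith

/-!
# P028 E: regime I, `T = e/t ≥ Z^c` (power saving by the divisor bound)

`div_FB`: `τ(n) ≤ C_η n^η` and `FB B n ≤ ∏_{p∣n} (1-1/p)^(-1) ≤ 2^{ω(n)} ≤ τ(n)`.  (A divisor bound is
proved in `Vale.Agent.Lib.P028.Arith`, `divisor_bound`.)

`line_nb`: neighbours of `w` (`= r`): for fixed `w`, a divisor `r'` of `w` and `q'` with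
`r' ≤ q' < X := 2t/δ_w` (`q' δ_w ≤ MM < 2t`), `q' ∈ lineSet γ A B e 1 t X X (r')` (`κ0 = 1`, `g = 1`,
`D = r' - q'`, `|D| ≤ q' ≤ X`).  If `L = 4tB + Xθ0 < e` the set is empty (`lines_empty`).  Otherwise
`2L/e + 1 ≤ 3L/e` and by `lines_card`, `lines_card'` its size is at most
`(3/e)(4tB * X/B + Xθ0 * 8tB/(θ0 B)) + 3L/e = 36 X/T + 12 B/T + 3 X θ0/e`
`≤ 36 X/T + 12 Z^c3/T + 3 X Z^(-c3)`.
Now `X = 2t/δ_w ≥ 2 t Z^ε0`, so `Z^c3/T = Z^c3 t/e ≤ X Z^(c3-ε0)`; and `T ≤ 8 Z²`: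
an edge exists only if `e ≤ L ≤ 4 t Z^c3 + 2 t Z² Z^(-c3)` (`1/δ_w ≤ w ≤ Z²`), i.e. `T ≤ 6 Z²`.
Hence the size is `≤ C X T^(-c3/4)` (using `Z^(-c3) ≤ (T/6)^(-c3/2)`, `Z^(c3-ε0) ≤ Z^(-c3)`).

`regI`: Cauchy-Schwarz:
`WE ≤ (max FB) (∑_E wt_q²)^(1/2) (∑_E wt_r²)^(1/2)`, edges with `q' ≥ r'`.
The pair `(q, r)` is determined by `(r, r', q')` (`q = r q'/r'`), `r' ∣ r`, so
`∑_E wt_r² ≤ ∑_r wt_r² τ(r) C (2t/δ_r) T^(-c3/4) ≤ 2 C t τmax T^(-c3/4) ∑ wt_r` (`wt_r ≤ δ_r`).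
The pair is also determined by `(q, q', r')` with `q' ∣ q`, `r' < 2t/δ_q`, so
`∑_E wt_q² ≤ ∑_q wt_q² τ(q) 2t/δ_q ≤ 2 t τmax ∑ wt_q`.
Altogether `WE ≤ C τmax FBmax t T^(-c3/8) ∑ wt`, and `τmax * FBmax ≤ C_η Z^(6η) ≤ C_η T^(6η/c) ≤
C T^(c3/16)` for `η = c c3/96`.  (`q' r' ≤ q r ≤ Z⁴`.)
-/

open Finset

namespace Vale.Agent.P028E

private theorem FB_le (B n : ℕ) (hn : 0 < n) : FB B n ≤ (n.divisors.card : ℝ) := by
  unfold FB
  have h1 : ∀ p ∈ n.primeFactors, (1 - 1 / (p : ℝ))⁻¹ ≤ ((n.factorization p + 1 : ℕ) : ℝ) := by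
    intro p hp
    have hp2 : p.Prime := Nat.prime_of_mem_primeFactors hp
    have hp3 : (2 : ℝ) ≤ p := by exact_mod_cast hp2.two_le
    have hf : 1 ≤ n.factorization p :=
      hp2.factorization_pos_of_dvd hn.ne' (Nat.dvd_of_mem_primeFactors hp)
    have h2 : (1 : ℝ) / 2 ≤ 1 - 1 / (p : ℝ) := by
      have : 1 / (p : ℝ) ≤ 1 / 2 := one_div_le_one_div_of_le (by norm_num) hp3
      linarith
    have h3 : (1 - 1 / (p : ℝ))⁻¹ ≤ ((1 : ℝ) / 2)⁻¹ := inv_anti₀ (by norm_num) h2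
    have h4 : (2 : ℝ) ≤ ((n.factorization p + 1 : ℕ) : ℝ) := by exact_mod_cast (by omega)
    calc (1 - 1 / (p : ℝ))⁻¹ ≤ ((1 : ℝ) / 2)⁻¹ := h3
      _ = 2 := by norm_num
      _ ≤ _ := h4
  have h0 : ∀ p ∈ n.primeFactors, 0 ≤ (1 - 1 / (p : ℝ))⁻¹ := by
    intro p hp
    have hp2 : p.Prime := Nat.prime_of_mem_primeFactors hp
    have hp3 : (1 : ℝ) ≤ p := by exact_mod_cast hp2.one_lt.le
    rw [inv_nonneg, sub_nonneg, div_le_one (by linarith)]
    exact hp3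
  calc ∏ p ∈ n.primeFactors.filter (fun p => ¬ p ∣ B), (1 - 1 / (p : ℝ))⁻¹
      ≤ ∏ p ∈ n.primeFactors.filter (fun p => ¬ p ∣ B), ((n.factorization p + 1 : ℕ) : ℝ) :=
        Finset.prod_le_prod (fun p hp => h0 p (Finset.mem_filter.1 hp).1)
          (fun p hp => h1 p (Finset.mem_filter.1 hp).1)
    _ ≤ ∏ p ∈ n.primeFactors, ((n.factorization p + 1 : ℕ) : ℝ) := by
        refine Finset.prod_le_prod_of_subset_of_one_le (Finset.filter_subset _ _)
          (fun p _ => by positivity) (fun p _ _ => ?_)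
        exact_mod_cast Nat.succ_le_succ (Nat.zero_le _)
    _ = (n.divisors.card : ℝ) := by
        rw [Nat.card_divisors hn.ne', Nat.cast_prod]

theorem div_FB (η : ℝ) (hη : 0 < η) : ∃ C : ℝ, 1 ≤ C ∧ ∀ (B n : ℕ), 0 < n →
    (n.divisors.card : ℝ) ≤ C * (n : ℝ) ^ η ∧ FB B n ≤ C * (n : ℝ) ^ η := by
  obtain ⟨C, hC1, hC⟩ := Vale.Agent.P028.divisor_bound η hη
  exact ⟨C, hC1, fun B n hn => ⟨hC n hn, (FB_le B n hn).trans (hC n hn)⟩⟩

theorem line_nb (ε0 c3 : ℝ) (hε : 0 < ε0) (hε1 : ε0 < 1) (hc3 : 0 < c3) (hc : c3 ≤ ε0 / 10) :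
    ∃ C : ℝ, 1 ≤ C ∧ ∀ (Z γ : ℝ) (A : ℤ) (B e : ℕ) (t δ : ℝ) (s : ℤ), 2 ≤ Z → 0 < B →
      IsCoprime A (B : ℤ) → (B : ℝ) ≤ Z ^ c3 → |(B : ℝ) * γ - A| ≤ Z ^ (-c3) → 0 < e →
      Nat.Coprime e B → 0 < t → 1 ≤ (e : ℝ) / t → 1 / Z ^ 2 ≤ δ → δ ≤ Z ^ (-ε0) →
      ((lineSet γ A B e 1 t (2 * t / δ) (2 * t / δ) s).card : ℝ) ≤
        C * (2 * t / δ) * ((e : ℝ) / t) ^ (-(c3 / 4)) := by
  refine ⟨156, by norm_num, ?_⟩
  intro Z γ A B e t δ s hZ hB hAB hBZ hθ he heB ht hT hδ1 hδ2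
  have hZ0 : 0 < Z := by linarith
  have hZ1 : 1 ≤ Z := by linarith
  have hδ : 0 < δ := lt_of_lt_of_le (by positivity) hδ1
  set X : ℝ := 2 * t / δ with hX
  set T : ℝ := (e : ℝ) / t with hTdef
  set θ : ℝ := |(B : ℝ) * γ - A| with hθdef
  have hX0 : 0 < X := by positivity
  have hT0 : 0 < T := by linarith
  have hθ0 : 0 ≤ θ := abs_nonneg _
  have heR : (1 : ℝ) ≤ e := by exact_mod_cast he
  have heR0 : (0 : ℝ) < e := by linarith
  have hBR : (1 : ℝ) ≤ B := by exact_mod_cast hB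
  have hBR0 : (0 : ℝ) < B := by linarith
  have hpow0 : 0 ≤ T ^ (-(c3 / 4)) := Real.rpow_nonneg hT0.le _
  set L : ℝ := 4 * t * B + X * θ with hL
  by_cases hLe : L < e
  · rw [lines_empty γ A B e 1 t X X s hB ht hX0.le hLe, Finset.card_empty, Nat.cast_zero]
    positivity
  push Not at hLe
  -- `X` is large
  have hX1 : 2 * t * Z ^ ε0 ≤ X := by
    rw [hX, le_div_iff₀ hδ]
    calc 2 * t * Z ^ ε0 * δ ≤ 2 * t * Z ^ ε0 * Z ^ (-ε0) := by
          gcongr
      _ = 2 * t := by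
          rw [mul_assoc, ← Real.rpow_add hZ0, add_neg_cancel, Real.rpow_zero, mul_one]
  have hX2 : X ≤ 2 * t * Z ^ 2 := by
    rw [hX, div_le_iff₀ hδ]
    have h1 : 1 ≤ Z ^ 2 * δ := by
      rw [div_le_iff₀ (by positivity)] at hδ1
      linarith
    nlinarith
  -- `T ≤ 6 Z ^ 2`
  have hTZ : T ≤ 6 * Z ^ 2 := by
    rw [hTdef, div_le_iff₀ ht]
    have h1 : (B : ℝ) ≤ Z ^ 2 := by
      refine hBZ.trans ?_
      rw [← Real.rpow_natCast Z 2]
      exact Real.rpow_le_rpow_of_exponent_le hZ1 (by push_cast; linarith)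
    have h2 : θ ≤ 1 := by
      refine hθ.trans ?_
      exact Real.rpow_le_one_of_one_le_of_nonpos hZ1 (by linarith)
    have h3 : 4 * t * B ≤ 4 * t * Z ^ 2 := by gcongr
    have h4 : X * θ ≤ 2 * t * Z ^ 2 * 1 := by gcongr
    have h5 : (e : ℝ) ≤ 4 * t * B + X * θ := hLe
    linarith
  -- powers
  have hP1 : Z ^ (-c3) ≤ 6 * T ^ (-(c3 / 4)) := by
    have h1 : (T / 6) ≤ Z ^ 2 := by
      rw [div_le_iff₀ (by norm_num)]
      linarith
    have h2 : (Z ^ 2) ^ (-(c3 / 2)) ≤ (T / 6) ^ (-(c3 / 2)) :=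
      Real.rpow_le_rpow_of_nonpos (by positivity) h1 (by linarith)
    have h3 : (Z ^ 2) ^ (-(c3 / 2)) = Z ^ (-c3) := by
      rw [← Real.rpow_natCast Z 2, ← Real.rpow_mul hZ0.le]
      congr 1
      push_cast
      ring
    have h4 : (T / 6) ^ (-(c3 / 2)) = T ^ (-(c3 / 2)) * 6 ^ (c3 / 2) := by
      rw [Real.div_rpow hT0.le (by norm_num), Real.rpow_neg (by norm_num : (0 : ℝ) ≤ 6),
        div_inv_eq_mul]
    have h5 : (6 : ℝ) ^ (c3 / 2) ≤ 6 := by
      calc (6 : ℝ) ^ (c3 / 2) ≤ 6 ^ (1 : ℝ) :=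
            Real.rpow_le_rpow_of_exponent_le (by norm_num) (by linarith)
        _ = 6 := Real.rpow_one 6
    have h6 : T ^ (-(c3 / 2)) ≤ T ^ (-(c3 / 4)) :=
      Real.rpow_le_rpow_of_exponent_le hT (by linarith)
    calc Z ^ (-c3) ≤ T ^ (-(c3 / 2)) * 6 ^ (c3 / 2) := by rw [← h3, ← h4]; exact h2
      _ ≤ T ^ (-(c3 / 4)) * 6 := by gcongr
      _ = _ := by ring
  have hP2 : 1 / T ≤ T ^ (-(c3 / 4)) := by
    rw [one_div, ← Real.rpow_neg_one]
    exact Real.rpow_le_rpow_of_exponent_le hT (by linarith)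
  -- `B / T ≤ X Z ^ (-c3) / 2`
  have hBT : (B : ℝ) / T ≤ X * Z ^ (-c3) / 2 := by
    have h1 : (B : ℝ) / T = B * t / e := by
      rw [hTdef]
      field_simp
    have h2 : (B : ℝ) * t / e ≤ B * t := div_le_self (by positivity) heR
    have h3 : t ≤ X * Z ^ (-ε0) / 2 := by
      have h4 : 2 * t * Z ^ ε0 * Z ^ (-ε0) ≤ X * Z ^ (-ε0) := by gcongr
      rw [mul_assoc, ← Real.rpow_add hZ0, add_neg_cancel, Real.rpow_zero, mul_one] at h4
      linarith
    have h5 : (B : ℝ) * t ≤ Z ^ c3 * (X * Z ^ (-ε0) / 2) := by gcongr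
    have h6 : Z ^ c3 * Z ^ (-ε0) ≤ Z ^ (-c3) := by
      rw [← Real.rpow_add hZ0]
      exact Real.rpow_le_rpow_of_exponent_le hZ1 (by linarith)
    have h7 : Z ^ c3 * (X * Z ^ (-ε0) / 2) ≤ X * Z ^ (-c3) / 2 := by
      have h8 : X * (Z ^ c3 * Z ^ (-ε0)) ≤ X * Z ^ (-c3) := by gcongr
      linarith
    rw [h1]
    linarith
  have hθe : X * θ / e ≤ X * Z ^ (-c3) := by
    calc X * θ / e ≤ X * θ := div_le_self (by positivity) heR
      _ ≤ X * Z ^ (-c3) := by gcongr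
  have hg : Nat.gcd B 1 = 1 := Nat.gcd_one_right B
  have hXT : X * (t / e) = X / T := by
    rw [hTdef]
    field_simp
  have hfirst : 2 * L / e + 1 ≤ 3 * L / e := by
    have : 1 ≤ L / e := by
      rw [le_div_iff₀ heR0]
      linarith
    have h2 : 3 * L / e = 2 * L / e + L / e := by ring
    linarith
  have main : ((lineSet γ A B e 1 t X X s).card : ℝ) ≤
      48 * (X / T) + 24 * (B / T) + 6 * (X * θ / e) := by
    have hBTn : (B : ℝ) / T = B * (t / e) := by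
      rw [hTdef]
      field_simp
    rcases le_total (X * θ) (4 * t * B) with hcase | hcase
    · have h1 := lines_card γ A B e 1 t X X s hB hAB he heB one_pos ht hX0.le hX0.le
      rw [hg, Nat.cast_one, mul_one, mul_one] at h1
      refine h1.trans ?_
      have h2 : (2 * (4 * t * B + X * θ) / e + 1) * (X / B + 1) ≤ (3 * L / e) * (X / B + 1) := by
        have h3 : (0 : ℝ) ≤ X / B + 1 := by positivity
        exact mul_le_mul_of_nonneg_right hfirst h3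
      have h4 : 3 * L / e ≤ 24 * (B * (t / e)) := by
        have h5 : L ≤ 8 * (t * B) := by rw [hL]; linarith
        calc 3 * L / e ≤ 3 * (8 * (t * B)) / e := by gcongr
          _ = 24 * (B * (t / e)) := by ring
      have h6 : (3 * L / e) * (X / B + 1) ≤ 24 * (B * (t / e)) * (X / B + 1) := by
        have h3 : (0 : ℝ) ≤ X / B + 1 := by positivity
        exact mul_le_mul_of_nonneg_right h4 h3
      have h7 : 24 * (B * (t / e)) * (X / B + 1) = 24 * (X * (t / e)) + 24 * (B * (t / e)) := by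
        field_simp
      have h8 : 0 ≤ X * θ / e := by positivity
      have h9 : 0 ≤ X * (t / e) := by positivity
      rw [← hXT, hBTn]
      linarith
    · have hθp : 0 < θ := by
        by_contra hcon
        have h0 : θ = 0 := le_antisymm (not_lt.1 hcon) hθ0
        rw [h0, mul_zero] at hcase
        have : 0 < 4 * t * B := by positivity
        linarith
      have h1 := lines_card' γ A B e 1 t X X s hB hAB he heB one_pos ht hX0.le hX0.le hθp
      rw [hg, Nat.cast_one, mul_one, one_mul, mul_one] at h1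
      refine h1.trans ?_
      have h3 : (0 : ℝ) ≤ 8 * t * B / θ / B + 1 := by positivity
      have h2 : (2 * (4 * t * B + X * θ) / e + 1) * (8 * t * B / θ / B + 1) ≤
          (3 * L / e) * (8 * t * B / θ / B + 1) :=
        mul_le_mul_of_nonneg_right hfirst h3
      have h4 : 3 * L / e ≤ 6 * (X * θ / e) := by
        have h5 : L ≤ 2 * (X * θ) := by rw [hL]; linarith
        calc 3 * L / e ≤ 3 * (2 * (X * θ)) / e := by gcongr
          _ = 6 * (X * θ / e) := by ring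
      have h6 : (3 * L / e) * (8 * t * B / θ / B + 1) ≤
          6 * (X * θ / e) * (8 * t * B / θ / B + 1) :=
        mul_le_mul_of_nonneg_right h4 h3
      have h7 : 6 * (X * θ / e) * (8 * t * B / θ / B + 1) =
          48 * (X * (t / e)) + 6 * (X * θ / e) := by
        field_simp
        ring
      have h8 : 0 ≤ (B : ℝ) * (t / e) := by positivity
      rw [← hXT, hBTn]
      linarith
  have hq1 : X / T ≤ X * T ^ (-(c3 / 4)) := by
    calc X / T = X * (1 / T) := by ring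
      _ ≤ X * T ^ (-(c3 / 4)) := by gcongr
  have hq2 : X * Z ^ (-c3) ≤ 6 * (X * T ^ (-(c3 / 4))) := by
    calc X * Z ^ (-c3) ≤ X * (6 * T ^ (-(c3 / 4))) := by gcongr
      _ = _ := by ring
  have : 156 * X * T ^ (-(c3 / 4)) = 156 * (X * T ^ (-(c3 / 4))) := by ring
  rw [this]
  linarith

private theorem qp_pos {q r : ℕ} (hq : 0 < q) : 0 < qp q r := by
  unfold qp
  exact Nat.div_pos (Nat.le_of_dvd hq (Nat.gcd_dvd_left q r)) (Nat.gcd_pos_of_pos_left r hq)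

private theorem qp_dvd (q r : ℕ) : qp q r ∣ q := by
  unfold qp
  exact Nat.div_dvd_of_dvd (Nat.gcd_dvd_left q r)

private theorem qp_rec {q r : ℕ} (hr : 0 < r) : q = (r / qp r q) * qp q r := by
  unfold qp
  rw [Nat.div_div_self (Nat.gcd_dvd_left r q) hr.ne', Nat.gcd_comm r q]
  exact (Nat.mul_div_cancel' (Nat.gcd_dvd_left q r)).symm

open Classical in
private theorem cntR {γ : ℝ} {A : ℤ} {B : ℕ} {δ : ℕ → ℝ} {S : Finset ℕ} {t : ℝ} {e : ℕ}
    (hS : ∀ q ∈ S, 0 < q) {q : ℕ} (hq : q ∈ S) (hδ : 0 < δ q) (ht : 0 < t) :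
    ((S.filter (fun r => Edge γ A B δ t e q r ∧ qp r q ≤ qp q r)).card : ℝ) ≤
      (q.divisors.card : ℝ) * (2 * t / δ q) := by
  have hq0 := hS q hq
  have hX : 0 ≤ 2 * t / δ q := by positivity
  have h1 : (S.filter (fun r => Edge γ A B δ t e q r ∧ qp r q ≤ qp q r)).card ≤
      (q.divisors ×ˢ Finset.Icc 1 ⌊2 * t / δ q⌋₊).card := by
    refine Finset.card_le_card_of_injOn (fun r => (qp q r, qp r q)) ?_ ?_
    · intro r hr
      rw [Finset.mem_coe, Finset.mem_filter] at hr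
      obtain ⟨hrS, hE, _⟩ := hr
      rw [Finset.mem_coe, Finset.mem_product, Nat.mem_divisors, Finset.mem_Icc]
      refine ⟨⟨qp_dvd q r, hq0.ne'⟩, qp_pos (hS r hrS), ?_⟩
      refine Nat.le_floor ?_
      rw [le_div_iff₀ hδ]
      exact ((le_max_left _ _).trans_lt hE.2.1).le
    · intro r hr r' hr' hrr
      simp only [Prod.mk.injEq] at hrr
      calc r = (q / qp q r) * qp r q := qp_rec hq0
        _ = (q / qp q r') * qp r' q := by rw [hrr.1, hrr.2]
        _ = r' := (qp_rec hq0).symm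
  rw [Finset.card_product, Nat.card_Icc, Nat.add_sub_cancel] at h1
  calc ((S.filter (fun r => Edge γ A B δ t e q r ∧ qp r q ≤ qp q r)).card : ℝ)
      ≤ ((q.divisors.card * ⌊2 * t / δ q⌋₊ : ℕ) : ℝ) := by exact_mod_cast h1
    _ = (q.divisors.card : ℝ) * (⌊2 * t / δ q⌋₊ : ℝ) := by push_cast; ring
    _ ≤ (q.divisors.card : ℝ) * (2 * t / δ q) := by
        gcongr
        exact Nat.floor_le hX

open Classical in
private theorem cntQ {γ : ℝ} {A : ℤ} {B : ℕ} {δ : ℕ → ℝ} {S : Finset ℕ} {t : ℝ} {e : ℕ}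
    (hS : ∀ q ∈ S, 0 < q) {r : ℕ} (hr : r ∈ S) (hδ : 0 < δ r) {K : ℝ}
    (hK : ∀ s : ℤ, ((lineSet γ A B e 1 t (2 * t / δ r) (2 * t / δ r) s).card : ℝ) ≤ K) :
    ((S.filter (fun q => Edge γ A B δ t e q r ∧ qp r q ≤ qp q r)).card : ℝ) ≤
      (r.divisors.card : ℝ) * K := by
  have hr0 := hS r hr
  have h1 : (S.filter (fun q => Edge γ A B δ t e q r ∧ qp r q ≤ qp q r)).card ≤
      (r.divisors.sigma
        (fun r' => lineSet γ A B e 1 t (2 * t / δ r) (2 * t / δ r) (r' : ℤ))).card := by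
    refine Finset.card_le_card_of_injOn (fun q => ⟨qp r q, qp q r⟩) ?_ ?_
    · intro q hq
      rw [Finset.mem_coe, Finset.mem_filter] at hq
      obtain ⟨hqS, ⟨hE1, hE2, n, hn1, hn2, hn3⟩, hle⟩ := hq
      rw [Finset.mem_coe, Finset.mem_sigma]
      refine ⟨Nat.mem_divisors.2 ⟨qp_dvd r q, hr0.ne'⟩, ?_⟩
      have hX : (qp q r : ℝ) ≤ 2 * t / δ r := by
        rw [le_div_iff₀ hδ]
        exact ((le_max_right _ _).trans_lt hE2).le
      have hD : ((qp r q : ℤ) - ((1 : ℕ) : ℤ) * ((qp q r : ℕ) : ℤ)) = DD q r := by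
        unfold DD
        push_cast
        ring
      unfold lineSet
      rw [Finset.mem_filter, Finset.mem_Icc]
      refine ⟨⟨qp_pos (hS q hqS), Nat.le_floor hX⟩, ?_⟩
      change |((((qp r q : ℕ) : ℤ) - ((1 : ℕ) : ℤ) * ((qp q r : ℕ) : ℤ) : ℤ) : ℝ)| ≤ _ ∧
        ∃ n : ℤ, |(n : ℝ) - ((((qp r q : ℕ) : ℤ) - ((1 : ℕ) : ℤ) * ((qp q r : ℕ) : ℤ) : ℤ) : ℝ) * γ|
          < 4 * t ∧ mm A B (((qp r q : ℕ) : ℤ) - ((1 : ℕ) : ℤ) * ((qp q r : ℕ) : ℤ)) n ≠ 0 ∧
          (e : ℤ) ∣ mm A B (((qp r q : ℕ) : ℤ) - ((1 : ℕ) : ℤ) * ((qp q r : ℕ) : ℤ)) n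
      rw [hD]
      refine ⟨?_, n, hn1, hn2, hn3⟩
      refine le_trans ?_ hX
      have e1 : ((DD q r : ℤ) : ℝ) = (qp r q : ℝ) - (qp q r : ℝ) := by
        unfold DD
        push_cast
        ring
      have e2 : (qp r q : ℝ) ≤ (qp q r : ℝ) := by exact_mod_cast hle
      have e3 : (0 : ℝ) ≤ (qp r q : ℝ) := Nat.cast_nonneg _
      rw [e1, abs_le]
      constructor <;> linarith
    · intro q hq q' hq' hqq
      simp only [Sigma.mk.injEq, heq_eq_eq] at hqq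
      calc q = (r / qp r q) * qp q r := qp_rec hr0
        _ = (r / qp r q') * qp q' r := by rw [hqq.1, hqq.2]
        _ = q' := (qp_rec hr0).symm
  rw [Finset.card_sigma] at h1
  calc ((S.filter (fun q => Edge γ A B δ t e q r ∧ qp r q ≤ qp q r)).card : ℝ)
      ≤ ((∑ r' ∈ r.divisors,
          (lineSet γ A B e 1 t (2 * t / δ r) (2 * t / δ r) (r' : ℤ)).card : ℕ) : ℝ) := by
        exact_mod_cast h1
    _ = ∑ r' ∈ r.divisors,
          ((lineSet γ A B e 1 t (2 * t / δ r) (2 * t / δ r) (r' : ℤ)).card : ℝ) := by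
        push_cast
        rfl
    _ ≤ ∑ _r' ∈ r.divisors, K := Finset.sum_le_sum fun r' _ => hK _
    _ = (r.divisors.card : ℝ) * K := by rw [Finset.sum_const, nsmul_eq_mul]

theorem regI (ε0 c3 c : ℝ) (hε : 0 < ε0) (hε1 : ε0 < 1) (hc3 : 0 < c3) (hc3' : c3 ≤ ε0 / 10)
    (hc : 0 < c) :
    ∃ C : ℝ, 1 ≤ C ∧ ∀ (Z γ : ℝ) (A : ℤ) (B : ℕ) (δ : ℕ → ℝ) (S : Finset ℕ),
      2 ≤ Z → Cls ε0 c3 Z γ A B δ S → ∀ (t : ℝ) (e : ℕ), 0 < t → 0 < e → Nat.Coprime e B →
        1 ≤ (e : ℝ) / t → Z ^ c ≤ (e : ℝ) / t →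
        WE γ A B δ S t e ≤ C * t * ((e : ℝ) / t) ^ (-(c3 / 16)) * ∑ q ∈ S, wt δ q := by
  classical
  obtain ⟨C1, hC1, hline⟩ := line_nb ε0 c3 hε hε1 hc3 hc3'
  set η : ℝ := c * c3 / 96 with hη
  have hη0 : 0 < η := by positivity
  obtain ⟨C2, hC2, hdiv⟩ := div_FB η hη0
  refine ⟨C2 ^ 2 * (1 + C1), ?_, ?_⟩
  · have : 1 ≤ C2 ^ 2 := one_le_pow₀ hC2
    nlinarith
  intro Z γ A B δ S hZ hcls t e ht he heB hT hTc
  have hZ0 : 0 < Z := by linarith
  have hZ1 : 1 ≤ Z := by linarith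
  set T : ℝ := (e : ℝ) / t with hTdef
  have hT0 : 0 < T := by linarith
  have hδpos : ∀ q ∈ S, 0 < δ q := by
    intro q hq
    have h1 := hcls.dlow q hq
    have h2 : (0 : ℝ) < q := by exact_mod_cast hcls.Spos q hq
    exact lt_of_lt_of_le (by positivity) h1
  have hδ1 : ∀ q ∈ S, 1 / Z ^ 2 ≤ δ q := by
    intro q hq
    have h2 : (0 : ℝ) < q := by exact_mod_cast hcls.Spos q hq
    exact (one_div_le_one_div_of_le h2 (hcls.Supp q hq)).trans (hcls.dlow q hq)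
  have hδ2 : ∀ q ∈ S, δ q ≤ Z ^ (-ε0) := by
    intro q hq
    exact (hcls.dupp q hq).trans
      (Real.rpow_le_rpow_of_nonpos hZ0 (hcls.Slow q hq) (by linarith))
  have hwt0 : ∀ q ∈ S, 0 ≤ wt δ q := by
    intro q hq
    unfold wt
    have := (hδpos q hq).le
    positivity
  have hwt1 : ∀ q ∈ S, wt δ q ≤ δ q := by
    intro q hq
    unfold wt
    have h2 : (0 : ℝ) < q := by exact_mod_cast hcls.Spos q hq
    have h3 : (Nat.totient q : ℝ) / q ≤ 1 := by
      rw [div_le_one h2]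
      exact_mod_cast Nat.totient_le q
    calc (Nat.totient q : ℝ) / q * δ q ≤ 1 * δ q :=
          mul_le_mul_of_nonneg_right h3 (hδpos q hq).le
      _ = δ q := one_mul _
  -- the constants
  set τ : ℝ := C2 * (Z ^ 2) ^ η with hτ
  set F : ℝ := C2 * (Z ^ 4) ^ η with hF
  have hτ0 : 0 ≤ τ := by positivity
  have hF0 : 0 ≤ F := by positivity
  have hτq : ∀ q ∈ S, (q.divisors.card : ℝ) ≤ τ := by
    intro q hq
    refine (hdiv 1 q (hcls.Spos q hq)).1.trans ?_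
    have := hcls.Supp q hq
    rw [hτ]
    gcongr
  have hFqr : ∀ q ∈ S, ∀ r ∈ S, FB B (qp q r * qp r q) ≤ F := by
    intro q hq r hr
    have hq0 := hcls.Spos q hq
    have hr0 := hcls.Spos r hr
    refine (hdiv B _ (Nat.mul_pos (qp_pos hq0) (qp_pos hr0))).2.trans ?_
    have h1 : ((qp q r * qp r q : ℕ) : ℝ) ≤ Z ^ 4 := by
      have h2 : (qp q r : ℝ) ≤ q := by exact_mod_cast Nat.le_of_dvd hq0 (qp_dvd q r)
      have h3 : (qp r q : ℝ) ≤ r := by exact_mod_cast Nat.le_of_dvd hr0 (qp_dvd r q)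
      have h4 := hcls.Supp q hq
      have h5 := hcls.Supp r hr
      push_cast
      calc (qp q r : ℝ) * (qp r q : ℝ) ≤ Z ^ 2 * Z ^ 2 := by
            gcongr
            · exact h2.trans h4
            · exact h3.trans h5
        _ = Z ^ 4 := by ring
    rw [hF]
    gcongr
  have hτF : F * τ ≤ C2 ^ 2 * T ^ (c3 / 16) := by
    have h1 : F * τ = C2 ^ 2 * (Z ^ 6) ^ η := by
      rw [hF, hτ]
      have : (Z ^ 6) ^ η = (Z ^ 4) ^ η * (Z ^ 2) ^ η := by
        rw [← Real.mul_rpow (by positivity) (by positivity)]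
        congr 1
        ring
      rw [this]
      ring
    have h2 : (Z ^ 6) ^ η = (Z ^ c) ^ (c3 / 16) := by
      rw [← Real.rpow_natCast Z 6, ← Real.rpow_mul hZ0.le, ← Real.rpow_mul hZ0.le]
      congr 1
      rw [hη]
      push_cast
      ring
    rw [h1, h2]
    have h3 : 0 ≤ Z ^ c := by positivity
    gcongr
  -- AM-GM
  set lm : ℝ := T ^ (-(c3 / 8)) with hlm
  have hlm0 : 0 < lm := Real.rpow_pos_of_pos hT0 _
  have hlm2 : T ^ (-(c3 / 4)) = lm * lm := by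
    rw [hlm, ← Real.rpow_add hT0]
    congr 1
    ring
  have hom0 : ∀ q r, 0 ≤ FB B (qp q r * qp r q) := by
    intro q r
    unfold FB
    refine Finset.prod_nonneg fun p hp => ?_
    have hp2 : p.Prime := Nat.prime_of_mem_primeFactors (Finset.mem_filter.1 hp).1
    have hp3 : (1 : ℝ) ≤ p := by exact_mod_cast hp2.one_lt.le
    rw [inv_nonneg, sub_nonneg, div_le_one (by linarith)]
    exact hp3
  have hterm : ∀ q ∈ S, ∀ r ∈ S, wt δ q * wt δ r * omE γ A B δ t e q r ≤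
      (if Edge γ A B δ t e q r ∧ qp r q ≤ qp q r then
        F * (lm / 2 * wt δ q ^ 2) + F * (1 / (2 * lm) * wt δ r ^ 2) else 0) := by
    intro q hq r hr
    unfold omE
    by_cases hE : Edge γ A B δ t e q r ∧ qp r q ≤ qp q r
    · rw [if_pos hE, if_pos hE]
      have h1 : wt δ q * wt δ r ≤ lm / 2 * wt δ q ^ 2 + 1 / (2 * lm) * wt δ r ^ 2 := by
        have h2 : lm / 2 * wt δ q ^ 2 + 1 / (2 * lm) * wt δ r ^ 2 - wt δ q * wt δ r =
            1 / (2 * lm) * (lm * wt δ q - wt δ r) ^ 2 := by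
          field_simp
          ring
        have h3 : 0 ≤ 1 / (2 * lm) * (lm * wt δ q - wt δ r) ^ 2 := by positivity
        linarith
      have h4 : 0 ≤ lm / 2 * wt δ q ^ 2 + 1 / (2 * lm) * wt δ r ^ 2 := by positivity
      calc wt δ q * wt δ r * FB B (qp q r * qp r q)
          ≤ (lm / 2 * wt δ q ^ 2 + 1 / (2 * lm) * wt δ r ^ 2) * F :=
            mul_le_mul h1 (hFqr q hq r hr) (hom0 q r) h4
        _ = _ := by ring
    · rw [if_neg hE, if_neg hE, mul_zero]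
  have hcR : ∀ q ∈ S, wt δ q ^ 2 *
      ((S.filter (fun r => Edge γ A B δ t e q r ∧ qp r q ≤ qp q r)).card : ℝ) ≤
        2 * t * τ * wt δ q := by
    intro q hq
    have hd := hδpos q hq
    have h1 := cntR (γ := γ) (A := A) (B := B) (e := e) hcls.Spos hq hd ht
    have h2 : ((S.filter (fun r => Edge γ A B δ t e q r ∧ qp r q ≤ qp q r)).card : ℝ) ≤
        τ * (2 * t / δ q) := by
      refine h1.trans ?_
      have h3 : 0 ≤ 2 * t / δ q := by positivity
      exact mul_le_mul_of_nonneg_right (hτq q hq) h3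
    have h0 := hwt0 q hq
    have h4 : wt δ q / δ q ≤ 1 := by
      rw [div_le_one hd]
      exact hwt1 q hq
    calc wt δ q ^ 2 * ((S.filter (fun r => Edge γ A B δ t e q r ∧ qp r q ≤ qp q r)).card : ℝ)
        ≤ wt δ q ^ 2 * (τ * (2 * t / δ q)) := by gcongr
      _ = (2 * t * τ * wt δ q) * (wt δ q / δ q) := by ring
      _ ≤ (2 * t * τ * wt δ q) * 1 := by
          refine mul_le_mul_of_nonneg_left h4 ?_
          positivity
      _ = _ := mul_one _
  have hcQ : ∀ r ∈ S, wt δ r ^ 2 *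
      ((S.filter (fun q => Edge γ A B δ t e q r ∧ qp r q ≤ qp q r)).card : ℝ) ≤
        2 * t * τ * C1 * (lm * lm) * wt δ r := by
    intro r hr
    have hd := hδpos r hr
    have h1 := cntQ (γ := γ) (A := A) (B := B) (e := e) (t := t) hcls.Spos hr hd
      (K := C1 * (2 * t / δ r) * T ^ (-(c3 / 4))) (fun s =>
        hline Z γ A B e t (δ r) s hZ hcls.Bpos hcls.cop hcls.BZ hcls.gZ he heB ht hT
          (hδ1 r hr) (hδ2 r hr))
    rw [hlm2] at h1
    have h2 : ((S.filter (fun q => Edge γ A B δ t e q r ∧ qp r q ≤ qp q r)).card : ℝ) ≤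
        τ * (C1 * (2 * t / δ r) * (lm * lm)) := by
      refine h1.trans ?_
      have h3 : 0 ≤ C1 * (2 * t / δ r) * (lm * lm) := by positivity
      exact mul_le_mul_of_nonneg_right (hτq r hr) h3
    have h0 := hwt0 r hr
    have h4 : wt δ r / δ r ≤ 1 := by
      rw [div_le_one hd]
      exact hwt1 r hr
    calc wt δ r ^ 2 * ((S.filter (fun q => Edge γ A B δ t e q r ∧ qp r q ≤ qp q r)).card : ℝ)
        ≤ wt δ r ^ 2 * (τ * (C1 * (2 * t / δ r) * (lm * lm))) := by gcongr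
      _ = (2 * t * τ * C1 * (lm * lm) * wt δ r) * (wt δ r / δ r) := by ring
      _ ≤ (2 * t * τ * C1 * (lm * lm) * wt δ r) * 1 := by
          refine mul_le_mul_of_nonneg_left h4 ?_
          positivity
      _ = _ := mul_one _
  set W : ℝ := ∑ q ∈ S, wt δ q with hW
  have hW0 : 0 ≤ W := Finset.sum_nonneg hwt0
  have hsum1 : ∑ q ∈ S, ∑ r ∈ S,
      (if Edge γ A B δ t e q r ∧ qp r q ≤ qp q r then F * (lm / 2 * wt δ q ^ 2) else 0) ≤
        F * lm * t * τ * W := by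
    calc ∑ q ∈ S, ∑ r ∈ S,
        (if Edge γ A B δ t e q r ∧ qp r q ≤ qp q r then F * (lm / 2 * wt δ q ^ 2) else 0)
        = ∑ q ∈ S, F * (lm / 2) * (wt δ q ^ 2 *
          ((S.filter (fun r => Edge γ A B δ t e q r ∧ qp r q ≤ qp q r)).card : ℝ)) := by
          refine Finset.sum_congr rfl fun q _ => ?_
          rw [← Finset.sum_filter, Finset.sum_const, nsmul_eq_mul]
          ring
      _ ≤ ∑ q ∈ S, F * (lm / 2) * (2 * t * τ * wt δ q) := by
          refine Finset.sum_le_sum fun q hq => ?_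
          exact mul_le_mul_of_nonneg_left (hcR q hq) (by positivity)
      _ = F * lm * t * τ * W := by
          rw [← Finset.mul_sum, ← Finset.mul_sum, ← hW]
          ring
  have hsum2 : ∑ q ∈ S, ∑ r ∈ S,
      (if Edge γ A B δ t e q r ∧ qp r q ≤ qp q r then F * (1 / (2 * lm) * wt δ r ^ 2) else 0) ≤
        F * lm * t * τ * C1 * W := by
    rw [Finset.sum_comm]
    calc ∑ r ∈ S, ∑ q ∈ S,
        (if Edge γ A B δ t e q r ∧ qp r q ≤ qp q r then F * (1 / (2 * lm) * wt δ r ^ 2) else 0)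
        = ∑ r ∈ S, F * (1 / (2 * lm)) * (wt δ r ^ 2 *
          ((S.filter (fun q => Edge γ A B δ t e q r ∧ qp r q ≤ qp q r)).card : ℝ)) := by
          refine Finset.sum_congr rfl fun r _ => ?_
          rw [← Finset.sum_filter, Finset.sum_const, nsmul_eq_mul]
          ring
      _ ≤ ∑ r ∈ S, F * (1 / (2 * lm)) * (2 * t * τ * C1 * (lm * lm) * wt δ r) := by
          refine Finset.sum_le_sum fun r hr => ?_
          exact mul_le_mul_of_nonneg_left (hcQ r hr) (by positivity)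
      _ = F * lm * t * τ * C1 * W := by
          rw [← Finset.mul_sum, ← Finset.mul_sum, ← hW]
          field_simp
  have hWE : WE γ A B δ S t e ≤ F * lm * t * τ * W + F * lm * t * τ * C1 * W := by
    unfold WE eW
    calc ∑ q ∈ S, ∑ r ∈ S, wt δ q * wt δ r * omE γ A B δ t e q r
        ≤ ∑ q ∈ S, ∑ r ∈ S, (if Edge γ A B δ t e q r ∧ qp r q ≤ qp q r then
          F * (lm / 2 * wt δ q ^ 2) + F * (1 / (2 * lm) * wt δ r ^ 2) else 0) :=
          Finset.sum_le_sum fun q hq => Finset.sum_le_sum fun r hr => hterm q hq r hr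
      _ = ∑ q ∈ S, ∑ r ∈ S,
            (if Edge γ A B δ t e q r ∧ qp r q ≤ qp q r then F * (lm / 2 * wt δ q ^ 2) else 0) +
          ∑ q ∈ S, ∑ r ∈ S,
            (if Edge γ A B δ t e q r ∧ qp r q ≤ qp q r then
              F * (1 / (2 * lm) * wt δ r ^ 2) else 0) := by
          rw [← Finset.sum_add_distrib]
          refine Finset.sum_congr rfl fun q _ => ?_
          rw [← Finset.sum_add_distrib]
          refine Finset.sum_congr rfl fun r _ => ?_
          by_cases hE : Edge γ A B δ t e q r ∧ qp r q ≤ qp q r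
          · rw [if_pos hE, if_pos hE, if_pos hE]
          · rw [if_neg hE, if_neg hE, if_neg hE, add_zero]
      _ ≤ _ := add_le_add hsum1 hsum2
  refine hWE.trans ?_
  have hfin : F * lm * t * τ * W + F * lm * t * τ * C1 * W =
      (F * τ) * (lm * t * (1 + C1) * W) := by ring
  rw [hfin]
  calc (F * τ) * (lm * t * (1 + C1) * W)
      ≤ (C2 ^ 2 * T ^ (c3 / 16)) * (lm * t * (1 + C1) * W) := by
        refine mul_le_mul_of_nonneg_right hτF ?_
        positivity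
    _ = C2 ^ 2 * (1 + C1) * t * (T ^ (c3 / 16) * lm) * W := by ring
    _ = C2 ^ 2 * (1 + C1) * t * T ^ (-(c3 / 16)) * W := by
        have : T ^ (c3 / 16) * lm = T ^ (-(c3 / 16)) := by
          rw [hlm, ← Real.rpow_add hT0]
          congr 1
          ring
        rw [this]

end Vale.Agent.P028E
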