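import Vale.Agent.Lib.P028.E.Cnt
import Vale.Agent.Lib.P028.E.Fin
import Vale.Agent.Lib.P028.E.PhiSig
import Vale.Agent.Lib.P028.E.Swap

/-!
# P028 E: trivial counts

`triv_cnt`: `cnt` with `R = True`: `∑ ≤ ∑_{k∣N} (j/k) ⌊X⌋`, `j X = 2t/(δ_v b')`.
`triv_fin`: `fin_count` with `G1 = G2 = 1` on a set `G` of Good edges with `MM < 2t`
(`triv_cnt` for `v` and, by symmetry (`MM_comm`, `NoCom.swap`, `Nat.gcd_comm`), for `w`;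
`phi_sigma` for `h3`, `h4`).
-/

open Finset

namespace Vale.Agent.P028E

theorem triv_cnt {P : Finset ℕ} (hP : ∀ p ∈ P, p.Prime) {N v a b : ℕ} (hv : 0 < v) (ha0 : 0 < a)
    (hb0 : 0 < b)
    (hN : 0 < N) (hNP : ∀ p ∈ P, ¬ p ∣ N) (ha : partP P v = a) (Γ : Finset ℕ)
    (δ : ℕ → ℝ) (hδ : 0 < δ v) (t : ℝ) (ht : 0 < t)
    (h : ∀ w ∈ Γ, 0 < w ∧ partP P w = b ∧ NoCom P N v w ∧ MM δ v w < 2 * t) :
    ∑ w ∈ Γ, (jv N v : ℝ) / (jv N w : ℝ) ≤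
      1 * (∑ k ∈ N.divisors, 1 / (k : ℝ)) * (2 * t / (δ v * ((b / Nat.gcd a b : ℕ) : ℝ))) := by
  classical
  have hjv : (0 : ℝ) < (jv N v : ℝ) := by exact_mod_cast jv_pos hN
  have hg : (0 : ℝ) < ((b / Nat.gcd a b : ℕ) : ℝ) := by
    exact_mod_cast Nat.div_pos (Nat.le_of_dvd hb0 (Nat.gcd_dvd_right a b))
      (Nat.gcd_pos_of_pos_left b ha0)
  refine (cnt hP hv ha0 hb0 hN hNP ha Γ δ hδ t ht (fun _ _ => True)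
    (fun w hw => ⟨(h w hw).1, (h w hw).2.1, (h w hw).2.2.1, (h w hw).2.2.2, trivial⟩)).trans ?_
  rw [one_mul, Finset.sum_mul]
  refine Finset.sum_le_sum fun k hk => ?_
  have hk0 : (0 : ℝ) < (k : ℝ) := by exact_mod_cast Nat.pos_of_mem_divisors hk
  have hX : 0 ≤ 2 * t / (δ v * ((b / Nat.gcd a b : ℕ) : ℝ) * (jv N v : ℝ)) := by positivity
  have hfl : ∀ (s : Finset ℕ) (q : ℕ → Prop) (d : DecidablePred q),
      ((s.filter q).card : ℝ) ≤ (s.card : ℝ) := fun s q d => by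
    exact_mod_cast Finset.card_filter_le s q
  refine (mul_le_mul_of_nonneg_left (hfl _ _ _) (by positivity)).trans ?_
  rw [Nat.card_Icc, Nat.add_sub_cancel]
  calc (jv N v : ℝ) / (k : ℝ) *
        ((⌊2 * t / (δ v * ((b / Nat.gcd a b : ℕ) : ℝ) * (jv N v : ℝ))⌋₊ : ℕ) : ℝ)
      ≤ (jv N v : ℝ) / (k : ℝ) *
        (2 * t / (δ v * ((b / Nat.gcd a b : ℕ) : ℝ) * (jv N v : ℝ))) :=
        mul_le_mul_of_nonneg_left (Nat.floor_le hX) (by positivity)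
    _ = 1 / (k : ℝ) * (2 * t / (δ v * ((b / Nat.gcd a b : ℕ) : ℝ))) := by
        field_simp

theorem triv_fin {P : Finset ℕ} (hP : ∀ p ∈ P, p.Prime) {N a b : ℕ} (ha0 : 0 < a) (hb0 : 0 < b)
    (hN : 0 < N) (hNP : ∀ p ∈ P, ¬ p ∣ N) (V1 W1 : Finset ℕ)
    (hV : ∀ v ∈ V1, 0 < v ∧ partP P v = a) (hW : ∀ w ∈ W1, 0 < w ∧ partP P w = b)
    (δ : ℕ → ℝ) (hδV : ∀ v ∈ V1, 0 < δ v) (hδW : ∀ w ∈ W1, 0 < δ w) (t : ℝ) (ht : 0 < t)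
    (g : ℕ → ℝ) (hg : ∀ p, 0 ≤ g p) (hg1 : ∀ p : ℕ, p.Prime → 1 / (p : ℝ) ≤ g p)
    (G : Finset (ℕ × ℕ)) (hG : G ⊆ V1 ×ˢ W1)
    (hGg : ∀ z ∈ G, Good P N g z.1 z.2 ∧ MM δ z.1 z.2 < 2 * t) :
    ∑ z ∈ G, wt δ z.1 * wt δ z.2 ≤ 16 * t *
      (rab a b : ℝ) ^ (-(1 / 2) : ℝ) * (ms V1 (wt δ) * ms W1 (wt δ)) ^ (1 / 2 : ℝ) := by
  classical
  have hmem : ∀ z ∈ G, z.1 ∈ V1 ∧ z.2 ∈ W1 := fun z hz => Finset.mem_product.1 (hG hz)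
  have h1 : ∀ v ∈ V1, ∑ w ∈ W1.filter (fun w => (v, w) ∈ G), (jv N v : ℝ) / (jv N w : ℝ) ≤
      1 * (∑ k ∈ N.divisors, 1 / (k : ℝ)) * (2 * t / (δ v * ((b / Nat.gcd a b : ℕ) : ℝ))) := by
    intro v hv
    refine triv_cnt hP (hV v hv).1 ha0 hb0 hN hNP (hV v hv).2 _ δ (hδV v hv) t ht ?_
    intro w hw
    obtain ⟨hw1, hw2⟩ := Finset.mem_filter.1 hw
    exact ⟨(hW w hw1).1, (hW w hw1).2, (hGg _ hw2).1.1, (hGg _ hw2).2⟩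
  have h2 : ∀ w ∈ W1, ∑ v ∈ V1.filter (fun v => (v, w) ∈ G), (jv N w : ℝ) / (jv N v : ℝ) ≤
      1 * (∑ k ∈ N.divisors, 1 / (k : ℝ)) * (2 * t / (δ w * ((a / Nat.gcd a b : ℕ) : ℝ))) := by
    intro w hw
    rw [Nat.gcd_comm a b]
    refine triv_cnt hP (hW w hw).1 hb0 ha0 hN hNP (hW w hw).2 _ δ (hδW w hw) t ht ?_
    intro v hv
    obtain ⟨hv1, hv2⟩ := Finset.mem_filter.1 hv
    refine ⟨(hV v hv1).1, (hV v hv1).2, (hGg _ hv2).1.1.swap, ?_⟩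
    rw [MM_comm]
    exact (hGg _ hv2).2
  have h3 : ∀ z ∈ G, (Nat.totient z.1 : ℝ) / z.1 * ∑ k ∈ N.divisors, 1 / (k : ℝ) ≤ 8 :=
    fun z hz => phi_sigma hP (hV _ (hmem z hz).1).1 (hW _ (hmem z hz).2).1 hN hNP g hg hg1
      (hGg z hz).1
  have h4 : ∀ z ∈ G, (Nat.totient z.2 : ℝ) / z.2 * ∑ k ∈ N.divisors, 1 / (k : ℝ) ≤ 8 :=
    fun z hz => phi_sigma hP (hW _ (hmem z hz).2).1 (hV _ (hmem z hz).1).1 hN hNP g hg hg1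
      (hGg z hz).1.swap
  have hfin := fin_count N hN V1 W1 G hG δ hδV hδW (fun v hv => (hV v hv).1)
    (fun w hw => (hW w hw).1) t 1 1 ht zero_le_one zero_le_one a b ha0 hb0 h1 h2 h3 h4
  rw [mul_one, Real.one_rpow, mul_one] at hfin
  exact hfin

end Vale.Agent.P028E
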