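import Vale.Agent.Lib.P028.E.Gain
import Vale.Agent.Lib.P028.E.Triv
import Vale.Agent.Lib.P028.E.WDefs

/-!
# P028 E: counts with gain, regime II

Notation `T = e/t`, `θ0 = |Bγ-A|`, `a' = a/gcd(a,b)`, `b' = b/gcd(a,b)`.

`good_side`: `w` fixed and good; `Γ ⊆ S` neighbours `v` of `w` with `q' = qp v w ≥ r' = qp w v`.
Apply `cnt` with the roles of `v` and `w` exchanged (`Nat.gcd_comm`, `MM_comm`, `NoCom.swap`) and
`R k x := x ∈ lineSet γ A B e κ0 t (2t/(δ_w κ0)) (2t/δ_w) s_k`, where `κ0 = a' * jv N w`,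
`s_k = b' * xv P N w * k`.  Indeed by `struct_q`, for `v ∈ Γ` with `k = jv N v`, `x = xv P N v`:
`qp v w = a' x jv N w = κ0 x`, `qp w v = b' (xv w) k = s_k`, `DD v w = s_k - κ0 x`,
`|DD v w| ≤ qp v w < 2t/δ_w` (`0 < r' ≤ q'`, `q' δ_w ≤ MM < 2t`), and `Edge` gives the rest.
(`2t/(δ_w a' jv) = 2t/(δ_w κ0)`.)  `gain1` bounds each cardinality by `50 T^(-1/8) 2t/(δ_w κ0)`;
sum over `k ∣ N` of `(jv N w)/k`.

`bad_side`: `v` fixed; `Γ` = neighbours `w` that are bad.  `cnt` with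
`R k x := B < T^(1/8) gcd(B, a' k) ∧ (s_k θ0 ≤ T^(1/8) B t) ∧ κ0 x ≤ s_k ∧ (exists n ...)`, where
`κ0 = b' jv N v`, `s_k = a' (xv v) k = qp v w`, `DD v w = κ0 x - s_k`.  For `w ∈ Γ`: bad means
`B < T^(1/8) gcd(B, a' jv N w)` and `θ0 < T^(1/8) B δ_w/2`, and `qp v w δ_w < 2t` gives
`s_k θ0 ≤ T^(1/8) B t`.  `a' k` and `κ0` are coprime because they divide `qp v w`, `qp w v`
(coprime, `qp_coprime`).  `gain2` with `h = a' k`; if the first two conditions of `R` (or coprimality)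
fail for `k`, the filter is empty, resp. put coprimality into `R` as well.
-/

open Finset

namespace Vale.Agent.P028E

theorem good_side (c3 Z : ℝ) (hc3 : 0 < c3) (hZ : 1 ≤ Z) (γ : ℝ) (A : ℤ) (B e : ℕ) (t : ℝ)
    (hB : 0 < B) (hAB : IsCoprime A (B : ℤ)) (he : 0 < e) (heB : Nat.Coprime e B)
    (ht : 0 < t) (hBZ : (B : ℝ) ≤ Z ^ c3)
    (hγ : |(B : ℝ) * γ - A| ≤ Z ^ (-c3)) (hT1 : 1 ≤ (e : ℝ) / t) (hT2 : (e : ℝ) / t ≤ Z ^ c3)
    {P : Finset ℕ} (hP : ∀ p ∈ P, p.Prime) {N w a b : ℕ} (hw : 0 < w) (ha0 : 0 < a)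
    (hb0 : 0 < b) (hN : 0 < N) (hNP : ∀ p ∈ P, ¬ p ∣ N) (hb : partP P w = b)
    (δ : ℕ → ℝ) (hδ : 0 < δ w)
    (hκZ : ((a / Nat.gcd a b * jv N w : ℕ) : ℝ) ≤ Z ^ (c3 / 2))
    (hX : Z ^ (2 * c3) ≤ 2 * t / (δ w * ((a / Nat.gcd a b * jv N w : ℕ) : ℝ)))
    (hgood : ((e : ℝ) / t) ^ (1 / 8 : ℝ) * (Nat.gcd B (a / Nat.gcd a b * jv N w) : ℝ) ≤ B ∨
      ((e : ℝ) / t) ^ (1 / 8 : ℝ) * B * δ w / 2 ≤ |(B : ℝ) * γ - A|)
    (Γ : Finset ℕ) (h : ∀ v ∈ Γ, 0 < v ∧ partP P v = a ∧ NoCom P N v w ∧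
      Edge γ A B δ t e v w ∧ qp w v ≤ qp v w) :
    ∑ v ∈ Γ, (jv N w : ℝ) / (jv N v : ℝ) ≤
      (50 * ((e : ℝ) / t) ^ (-(1 / 8) : ℝ)) * (∑ k ∈ N.divisors, 1 / (k : ℝ)) *
        (2 * t / (δ w * ((a / Nat.gcd a b : ℕ) : ℝ))) := by
  classical
  have hjw : 0 < jv N w := jv_pos hN
  have ha' : 0 < a / Nat.gcd a b :=
    Nat.div_pos (Nat.le_of_dvd ha0 (Nat.gcd_dvd_left a b)) (Nat.gcd_pos_of_pos_left b ha0)
  set κ0 : ℕ := a / Nat.gcd a b * jv N w with hκdef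
  have hκ : 0 < κ0 := Nat.mul_pos ha' hjw
  have hc := cnt hP (N := N) (v := w) (a := b) (b := a) hw hb0 ha0 hN hNP hb Γ δ hδ t ht
    (fun k x => x ∈ lineSet γ A B e κ0 t (2 * t / (δ w * κ0)) (2 * t / δ w)
      ((b / Nat.gcd a b * xv P N w * k : ℕ) : ℤ)) (by
      intro v hv
      obtain ⟨hv0, hva, hnc, hE, hq⟩ := h v hv
      obtain ⟨hE1, hE2, n, hn1, hn2, hn3⟩ := hE
      refine ⟨hv0, hva, hnc.swap, by rw [MM_comm]; exact hE2, ?_⟩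
      have s1 := struct_q hP hv0 hw hN hNP hva hb hnc
      have s2 := struct_q hP hw hv0 hN hNP hb hva hnc.swap
      have e1 : (qp v w : ℤ) = (κ0 : ℤ) * (xv P N v : ℤ) := by
        rw [s1, hκdef]; push_cast; ring
      have e2 : (qp w v : ℤ) = ((b / Nat.gcd a b * xv P N w * jv N v : ℕ) : ℤ) := by
        rw [s2, Nat.gcd_comm b a]
      have e3 : ((b / Nat.gcd a b * xv P N w * jv N v : ℕ) : ℤ) - (κ0 : ℤ) * (xv P N v : ℤ) =
          DD v w := by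
        unfold DD; rw [← e1, ← e2]
      have hM : (qp v w : ℝ) * δ w < 2 * t := lt_of_le_of_lt (le_max_right _ _) hE2
      unfold lineSet
      rw [Finset.mem_filter, Finset.mem_Icc, e3]
      refine ⟨⟨xv_pos hP hv0 hN hNP, ?_⟩, ?_, n, hn1, hn2, hn3⟩
      · refine Nat.le_floor ?_
        have hκ' : (0 : ℝ) < κ0 := by exact_mod_cast hκ
        rw [le_div_iff₀ (by positivity)]
        have e4 : (qp v w : ℝ) = (κ0 : ℝ) * (xv P N v : ℝ) := by exact_mod_cast e1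
        rw [e4] at hM
        nlinarith [hM]
      · rw [le_div_iff₀ hδ]
        refine le_trans (mul_le_mul_of_nonneg_right ?_ hδ.le) hM.le
        unfold DD
        rw [abs_le]
        have hq' : (qp w v : ℝ) ≤ qp v w := by exact_mod_cast hq
        have h0 : (0 : ℝ) ≤ qp w v := by positivity
        push_cast
        constructor <;> linarith)
  refine hc.trans ?_
  have hκ' : (0 : ℝ) < κ0 := by exact_mod_cast hκ
  refine (Finset.sum_le_sum (g := fun k : ℕ => (jv N w : ℝ) / (k : ℝ) *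
        (50 * ((e : ℝ) / t) ^ (-(1 / 8) : ℝ) * (2 * t / (δ w * κ0)))) ?_).trans (le_of_eq ?_)
  · intro k _
    refine mul_le_mul_of_nonneg_left ?_ (by positivity)
    refine le_trans ?_ (gain1 c3 Z hc3 hZ γ A B e κ0 t (δ w)
      ((b / Nat.gcd a b * xv P N w * k : ℕ) : ℤ) hB hAB he heB hκ ht hδ hBZ hγ hT1 hT2 hκZ hX hgood)
    norm_cast
    refine Finset.card_le_card ?_
    intro x hx
    exact (Finset.mem_filter.1 hx).2
  rw [← Finset.sum_mul]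
  have e5 : ∑ k ∈ N.divisors, (jv N w : ℝ) / (k : ℝ) =
      (jv N w : ℝ) * ∑ k ∈ N.divisors, 1 / (k : ℝ) := by
    rw [Finset.mul_sum]
    refine Finset.sum_congr rfl fun k _ => ?_
    ring
  rw [e5]
  have e6 : (κ0 : ℝ) = ((a / Nat.gcd a b : ℕ) : ℝ) * (jv N w : ℝ) := by
    rw [hκdef]; push_cast; ring
  rw [e6]
  have h7 : (0 : ℝ) < ((a / Nat.gcd a b : ℕ) : ℝ) := by exact_mod_cast ha'
  have h8 : (0 : ℝ) < (jv N w : ℝ) := by exact_mod_cast hjw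
  generalize ((a / Nat.gcd a b : ℕ) : ℝ) = x1 at *
  generalize (jv N w : ℝ) = x2 at *
  generalize ∑ k ∈ N.divisors, 1 / (k : ℝ) = x3 at *
  generalize ((e : ℝ) / t) ^ (-(1 / 8) : ℝ) = x4 at *
  field_simp

theorem bad_side (c3 Z : ℝ) (hc3 : 0 < c3) (hZ : 1 ≤ Z) (γ : ℝ) (A : ℤ) (B e : ℕ) (t : ℝ)
    (hB : 0 < B) (hAB : IsCoprime A (B : ℤ)) (he : 0 < e) (heB : Nat.Coprime e B)
    (ht : 0 < t) (hBZ : (B : ℝ) ≤ Z ^ c3)
    (hT1 : 1 ≤ (e : ℝ) / t) (hT2 : (e : ℝ) / t ≤ Z ^ c3)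
    {P : Finset ℕ} (hP : ∀ p ∈ P, p.Prime) {N v a b : ℕ} (hv : 0 < v) (ha0 : 0 < a)
    (hb0 : 0 < b) (hN : 0 < N) (hNP : ∀ p ∈ P, ¬ p ∣ N) (ha : partP P v = a)
    (δ : ℕ → ℝ) (hδ : 0 < δ v)
    (hX : Z ^ (2 * c3) ≤ 2 * t / (δ v * ((b / Nat.gcd a b * jv N v : ℕ) : ℝ)))
    (Γ : Finset ℕ) (h : ∀ w ∈ Γ, 0 < w ∧ 0 < δ w ∧ partP P w = b ∧ NoCom P N v w ∧
      Edge γ A B δ t e v w ∧ qp w v ≤ qp v w ∧
      (B : ℝ) < ((e : ℝ) / t) ^ (1 / 8 : ℝ) * (Nat.gcd B (a / Nat.gcd a b * jv N w) : ℝ) ∧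
      |(B : ℝ) * γ - A| < ((e : ℝ) / t) ^ (1 / 8 : ℝ) * B * δ w / 2) :
    ∑ w ∈ Γ, (jv N v : ℝ) / (jv N w : ℝ) ≤
      (30 * ((e : ℝ) / t) ^ (-(1 / 8) : ℝ)) * (∑ k ∈ N.divisors, 1 / (k : ℝ)) *
        (2 * t / (δ v * ((b / Nat.gcd a b : ℕ) : ℝ))) := by
  classical
  have hjv : 0 < jv N v := jv_pos hN
  have hb' : 0 < b / Nat.gcd a b :=
    Nat.div_pos (Nat.le_of_dvd hb0 (Nat.gcd_dvd_right a b)) (Nat.gcd_pos_of_pos_left b ha0)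
  set κ0 : ℕ := b / Nat.gcd a b * jv N v with hκdef
  have hκ : 0 < κ0 := Nat.mul_pos hb' hjv
  have hκ' : (0 : ℝ) < κ0 := by exact_mod_cast hκ
  have hTpos : (0 : ℝ) < (e : ℝ) / t := lt_of_lt_of_le one_pos hT1
  have hTp : (0 : ℝ) < ((e : ℝ) / t) ^ (1 / 8 : ℝ) := Real.rpow_pos_of_pos hTpos _
  obtain ⟨R, hR⟩ : ∃ R : ℕ → ℕ → Prop, ∀ k x, R k x ↔ ((Nat.Coprime (a / Nat.gcd a b * k) κ0 ∧
      (B : ℝ) < ((e : ℝ) / t) ^ (1 / 8 : ℝ) * (Nat.gcd B (a / Nat.gcd a b * k) : ℝ) ∧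
      ((a / Nat.gcd a b * xv P N v * k : ℕ) : ℝ) * |(B : ℝ) * γ - A| ≤
        ((e : ℝ) / t) ^ (1 / 8 : ℝ) * B * t) ∧
      (κ0 * x ≤ (a / Nat.gcd a b * xv P N v * k : ℕ) ∧
      ∃ n : ℤ, |(n : ℝ) - (((κ0 : ℤ) * (x : ℤ) -
          ((a / Nat.gcd a b * xv P N v * k : ℕ) : ℤ) : ℤ) : ℝ) * γ| < 4 * t ∧
        mm A B ((κ0 : ℤ) * (x : ℤ) - ((a / Nat.gcd a b * xv P N v * k : ℕ) : ℤ)) n ≠ 0 ∧
        (e : ℤ) ∣ mm A B ((κ0 : ℤ) * (x : ℤ) -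
          ((a / Nat.gcd a b * xv P N v * k : ℕ) : ℤ)) n)) := ⟨_, fun _ _ => Iff.rfl⟩
  have hc := cnt hP (N := N) (v := v) (a := a) (b := b) hv ha0 hb0 hN hNP ha Γ δ hδ t ht R
    (by
      intro w hw
      obtain ⟨hw0, hδw, hwb, hnc, hE, hq, hbad, hθ⟩ := h w hw
      obtain ⟨hE1, hE2, n, hn1, hn2, hn3⟩ := hE
      have s1 := struct_q hP hv hw0 hN hNP ha hwb hnc
      have s2 := struct_q hP hw0 hv hN hNP hwb ha hnc.swap
      have e1 : qp w v = κ0 * xv P N w := by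
        rw [s2, hκdef, Nat.gcd_comm b a]; ring
      have e3 : (κ0 : ℤ) * (xv P N w : ℤ) - ((a / Nat.gcd a b * xv P N v * jv N w : ℕ) : ℤ) =
          DD v w := by
        unfold DD; rw [← s1, e1]; push_cast; ring
      have hM : (qp v w : ℝ) * δ w < 2 * t := lt_of_le_of_lt (le_max_right _ _) hE2
      refine ⟨hw0, hwb, hnc, hE2, (hR _ _).2 ⟨⟨?_, hbad, ?_⟩, ?_, n, ?_⟩⟩
      · have hco := qp_coprime (v := v) (w := w) hv
        have d1 : a / Nat.gcd a b * jv N w ∣ qp v w := by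
          rw [s1]; exact ⟨xv P N v, by ring⟩
        have d2 : κ0 ∣ qp w v := by
          rw [e1]; exact ⟨xv P N w, rfl⟩
        exact Nat.Coprime.coprime_dvd_left d1 (Nat.Coprime.coprime_dvd_right d2 hco)
      · rw [← s1]
        have h1 : (qp v w : ℝ) * |(B : ℝ) * γ - A| ≤
            (qp v w : ℝ) * (((e : ℝ) / t) ^ (1 / 8 : ℝ) * B * δ w / 2) :=
          mul_le_mul_of_nonneg_left hθ.le (by positivity)
        have h2 : (qp v w : ℝ) * (((e : ℝ) / t) ^ (1 / 8 : ℝ) * B * δ w / 2) =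
            (((e : ℝ) / t) ^ (1 / 8 : ℝ) * B / 2) * ((qp v w : ℝ) * δ w) := by ring
        have h3 : (((e : ℝ) / t) ^ (1 / 8 : ℝ) * B / 2) * ((qp v w : ℝ) * δ w) ≤
            (((e : ℝ) / t) ^ (1 / 8 : ℝ) * B / 2) * (2 * t) :=
          mul_le_mul_of_nonneg_left hM.le (by positivity)
        rw [h2] at h1
        refine (h1.trans h3).trans (le_of_eq ?_)
        ring
      · rw [← e1, ← s1]; exact hq
      · rw [e3]
        exact ⟨hn1, hn2, hn3⟩)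
  refine hc.trans ?_
  have hXe : 2 * t / (δ v * ((b / Nat.gcd a b : ℕ) : ℝ) * (jv N v : ℝ)) = 2 * t / (δ v * κ0) := by
    rw [hκdef]; push_cast; ring_nf
  have hTn : 0 ≤ ((e : ℝ) / t) ^ (-(1 / 8) : ℝ) := Real.rpow_nonneg hTpos.le _
  refine (Finset.sum_le_sum (g := fun k : ℕ => (jv N v : ℝ) / (k : ℝ) *
        (30 * ((e : ℝ) / t) ^ (-(1 / 8) : ℝ) * (2 * t / (δ v * κ0)))) ?_).trans (le_of_eq ?_)
  · intro k _
    refine mul_le_mul_of_nonneg_left ?_ (by positivity)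
    rw [hXe]
    by_cases hcond : (Nat.Coprime (a / Nat.gcd a b * k) κ0 ∧
      (B : ℝ) < ((e : ℝ) / t) ^ (1 / 8 : ℝ) * (Nat.gcd B (a / Nat.gcd a b * k) : ℝ) ∧
      ((a / Nat.gcd a b * xv P N v * k : ℕ) : ℝ) * |(B : ℝ) * γ - A| ≤
        ((e : ℝ) / t) ^ (1 / 8 : ℝ) * B * t)
    · refine le_trans ?_ (gain2 c3 Z hc3 hZ γ A B e κ0 (a / Nat.gcd a b * k) t
        (2 * t / (δ v * κ0)) (a / Nat.gcd a b * xv P N v * k) hB hAB he heB hκ ht hBZ hT1 hT2 hX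
        hcond.1 hcond.2.1 hcond.2.2)
      rw [Nat.cast_le]
      refine Finset.card_le_card fun x hx => ?_
      have hx' := Finset.mem_filter.1 hx
      exact Finset.mem_filter.2 ⟨hx'.1, ((hR k x).1 hx'.2).2⟩
    · rw [Finset.card_eq_zero.2 (Finset.eq_empty_of_forall_notMem fun x hx =>
        hcond ((hR k x).1 (Finset.mem_filter.1 hx).2).1), Nat.cast_zero]
      positivity
  rw [← Finset.sum_mul]
  have e5 : ∑ k ∈ N.divisors, (jv N v : ℝ) / (k : ℝ) =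
      (jv N v : ℝ) * ∑ k ∈ N.divisors, 1 / (k : ℝ) := by
    rw [Finset.mul_sum]
    refine Finset.sum_congr rfl fun k _ => ?_
    ring
  rw [e5]
  have e6 : (κ0 : ℝ) = ((b / Nat.gcd a b : ℕ) : ℝ) * (jv N v : ℝ) := by
    rw [hκdef]; push_cast; ring
  rw [e6]
  have h7 : (0 : ℝ) < ((b / Nat.gcd a b : ℕ) : ℝ) := by exact_mod_cast hb'
  have h8 : (0 : ℝ) < (jv N v : ℝ) := by exact_mod_cast hjv
  generalize ((b / Nat.gcd a b : ℕ) : ℝ) = x1 at *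
  generalize (jv N v : ℝ) = x2 at *
  generalize ∑ k ∈ N.divisors, 1 / (k : ℝ) = x3 at *
  generalize ((e : ℝ) / t) ^ (-(1 / 8) : ℝ) = x4 at *
  field_simp

end Vale.Agent.P028E
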