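import Vale.Agent.Lib.P028.E.Same
import Vale.Agent.Lib.P028.E.Cross
import Vale.Agent.Lib.P028.E.Block

/-!
# P028 E: the second moment of a block

Choose `s` with `2^(-s) ≤ ε/10` (real), `c3 = 2^(-s)`.  For `q` with `cls q = i ≥ s`, put
`Z = 2^(2^i)`: `Z ≤ q < Z²`, and `Bq = cB γ (i - s) ≤ Nj (i-s) = 2^(2^(i-s)) = Z^c3`,
`|Bq γ - Aq| ≤ (Nj (i-s))⁻¹ = Z^(-c3)` (`cB_le`, `cen_theta`, `cAB`, `cB_pos` in
`Vale.Agent.Lib.P028.Centers`).  `X0` is so large that `cls q ≥ s` and `Z ≥ Z0` for `q ≥ X0`.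
Split the double sum over `Q × Q`:
* `q = r`: `lam² vol ≤ lam * vol(Eq q) ≤ ` `C wt q` : `vol (AS γ A B δ q) ≤ 2 δ/q * #{a mod q : gcd(Ba+A,q)=1}`
  `= 2 δ ∏_{p∣q,p∤B}(1-1/p)` and `lam B q * ∏_{p∣q,p∤B}(1-1/p) = φ(q)/q`; total `≤ 2 ∑ wt ≤ 4`.
* `q ≠ r`, `cls q = cls r`: `same_class` for each class; total `≤ C ∑ wt ≤ 2C`.
* `cls q < cls r`: both are `≡ i0 mod 3`, so `cls r ≥ cls q + 3` and
  `q^4 < (2^(2^(cls q + 1)))^4 = 2^(2^(cls q + 3)) ≤ r`; `cross` gives `≤ C wt q wt r`; total `≤ 4C`.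
  The same for `cls r < cls q` by symmetry (`Set.inter_comm`).
  (`δ q ≤ 1` since `q ≥ 1`, `δ q ≤ q^(-ε)`.)
The case `i0 ≥ 3` is vacuous (`Q = ∅`).
-/

open Finset MeasureTheory

namespace Vale.Agent.P028E

private lemma SM_lam_fac {B q : ℕ} : ∀ p ∈ (Nat.gcd q B).primeFactors,
    0 ≤ 1 - 1 / (p : ℝ) ∧ 1 - 1 / (p : ℝ) ≤ 1 := by
  intro p hp
  exact ⟨(Vale.Agent.P028.one_sub_inv_pos hp).le, Vale.Agent.P028.one_sub_inv_le⟩

private lemma SM_lam_nonneg (B q : ℕ) : 0 ≤ lam B q :=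
  Finset.prod_nonneg fun p hp => (SM_lam_fac p hp).1

private lemma SM_lam_le (B q : ℕ) : lam B q ≤ 1 :=
  Finset.prod_le_one (fun p hp => (SM_lam_fac p hp).1) (fun p hp => (SM_lam_fac p hp).2)

/-- the retained primes -/
private def SM_P (B q : ℕ) : Finset ℕ := q.primeFactors.filter (fun p => ¬ p ∣ B)

private lemma SM_gcd_pf {B q : ℕ} (hq : 0 < q) :
    (Nat.gcd q B).primeFactors = q.primeFactors.filter (fun p => p ∣ B) := by
  ext p
  simp only [Nat.mem_primeFactors, Finset.mem_filter, Nat.dvd_gcd_iff]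
  have : Nat.gcd q B ≠ 0 := (Nat.gcd_pos_of_pos_left B hq).ne'
  constructor
  · rintro ⟨h1, ⟨h2, h3⟩, -⟩
    exact ⟨⟨h1, h2, hq.ne'⟩, h3⟩
  · rintro ⟨⟨h1, h2, -⟩, h3⟩
    exact ⟨h1, ⟨h2, h3⟩, this⟩

private lemma SM_lam_mul {B q : ℕ} (hq : 0 < q) :
    lam B q * ∏ p ∈ SM_P B q, (1 - 1 / (p : ℝ)) = (Nat.totient q : ℝ) / q := by
  have hqR : (0 : ℝ) < q := by exact_mod_cast hq
  unfold lam SM_P
  rw [SM_gcd_pf hq, Finset.prod_filter_mul_prod_filter_not]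
  have h := Nat.totient_eq_mul_prod_factors q
  have h2 : (Nat.totient q : ℝ) = q * ∏ p ∈ q.primeFactors, (1 - (p : ℝ)⁻¹) := by
    have h3 := congrArg (fun x : ℚ => (x : ℝ)) h
    push_cast at h3
    exact h3
  rw [h2, mul_div_cancel_left₀ _ hqR.ne']
  simp only [one_div]

private lemma SM_count {B q : ℕ} (A : ℤ) :
    (#{a ∈ Ico (0 : ℤ) q | Vale.Agent.P028.Phi B A (SM_P B q) a} : ℝ) =
      (q : ℝ) * ∏ p ∈ SM_P B q, (1 - 1 / (p : ℝ)) := by
  have h := Vale.Agent.P028.full_period (SM_P B q) (B : ℤ) A ?_ ?_ 0 q ?_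
  · rw [zero_add] at h
    exact h
  · intro p hp
    exact Nat.prime_of_mem_primeFactors (Finset.mem_filter.1 hp).1
  · intro p hp
    have hp1 := Finset.mem_filter.1 hp
    have hpp := Nat.prime_of_mem_primeFactors hp1.1
    rw [Nat.isCoprime_iff_coprime]
    exact ((Nat.Prime.coprime_iff_not_dvd hpp).2 hp1.2).symm
  · exact (Finset.prod_dvd_prod_of_subset _ _ _ (Finset.filter_subset _ _)).trans
      (Nat.prod_primeFactors_dvd q)

private lemma SM_phi {B q : ℕ} {A a : ℤ} (h : IsCoprime ((B : ℤ) * a + A) (q : ℤ)) :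
    Vale.Agent.P028.Phi B A (SM_P B q) a := by
  intro p hp hd
  have hp1 := Finset.mem_filter.1 hp
  have hpp := Nat.prime_of_mem_primeFactors hp1.1
  have h2 : (p : ℤ) ∣ (q : ℤ) := by exact_mod_cast Nat.dvd_of_mem_primeFactors hp1.1
  have h3 := h.isUnit_of_dvd' hd h2
  rw [Int.isUnit_iff] at h3
  have := hpp.two_le
  omega

/-- the periodisation of a set -/
private lemma SM_period (J : Set ℝ) (hJ : MeasurableSet J) :
    volume {x : ℝ | x ∈ Set.Ico (0 : ℝ) 1 ∧ ∃ k : ℤ, x + k ∈ J} ≤ volume J := by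
  have h1 : {x : ℝ | x ∈ Set.Ico (0 : ℝ) 1 ∧ ∃ k : ℤ, x + k ∈ J} ⊆
      ⋃ k : ℤ, (fun x : ℝ => x + k) ⁻¹' (Set.Ico (k : ℝ) (k + 1) ∩ J) := by
    rintro x ⟨⟨h0, h1⟩, k, hk⟩
    refine Set.mem_iUnion.2 ⟨k, ⟨⟨?_, ?_⟩, hk⟩⟩
    · linarith
    · linarith
  calc volume {x : ℝ | x ∈ Set.Ico (0 : ℝ) 1 ∧ ∃ k : ℤ, x + k ∈ J}
      ≤ volume (⋃ k : ℤ, (fun x : ℝ => x + k) ⁻¹' (Set.Ico (k : ℝ) (k + 1) ∩ J)) :=
        measure_mono h1
    _ ≤ ∑' k : ℤ, volume ((fun x : ℝ => x + k) ⁻¹' (Set.Ico (k : ℝ) (k + 1) ∩ J)) :=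
        measure_iUnion_le _
    _ = ∑' k : ℤ, volume (Set.Ico (k : ℝ) (k + 1) ∩ J) := by
        congr 1
        funext k
        exact measure_preimage_add_right volume (k : ℝ) _
    _ = volume (⋃ k : ℤ, (Set.Ico (k : ℝ) (k + 1) ∩ J)) := by
        rw [measure_iUnion]
        · intro i j hij
          exact (Set.pairwise_disjoint_Ico_intCast ℝ hij).mono Set.inter_subset_left
            Set.inter_subset_left
        · intro k
          exact measurableSet_Ico.inter hJ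
    _ ≤ volume J := measure_mono (Set.iUnion_subset fun k => Set.inter_subset_right)

private lemma SM_vol (γ : ℝ) (A : ℤ) (B q : ℕ) (hq : 0 < q) (δ : ℝ) (hδ : 0 ≤ δ) :
    volume.real (AS γ A B δ q) ≤ 2 * δ * ∏ p ∈ SM_P B q, (1 - 1 / (p : ℝ)) := by
  have hqR : (0 : ℝ) < q := by exact_mod_cast hq
  have hqZ : (0 : ℤ) < q := by exact_mod_cast hq
  set T : Finset ℤ := {a ∈ Ico (0 : ℤ) q | Vale.Agent.P028.Phi B A (SM_P B q) a} with hT
  have hsub : AS γ A B δ q ⊆ ⋃ a ∈ T, {x : ℝ | x ∈ Set.Ico (0 : ℝ) 1 ∧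
      ∃ k : ℤ, x + k ∈ Vale.Agent.P028.bl γ δ q a} := by
    rintro x ⟨hx, a, ha, hax⟩
    have hphi : Vale.Agent.P028.Phi B A (SM_P B q) (a % q) := by
      apply SM_phi
      have h1 : (B : ℤ) * a + A = ((B : ℤ) * (a % q) + A) + (q : ℤ) * (B * (a / q)) := by
        have := Int.emod_add_mul_ediv a q
        linear_combination (-(B : ℤ)) * this
      rw [h1] at ha
      exact (IsCoprime.add_mul_left_left_iff).1 ha
    refine Set.mem_iUnion₂.2 ⟨a % q, ?_, hx, -(a / q), ?_⟩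
    · rw [hT, Finset.mem_filter, Finset.mem_Ico]
      exact ⟨⟨Int.emod_nonneg a hqZ.ne', Int.emod_lt_of_pos a hqZ⟩, hphi⟩
    · show |(q : ℝ) * (x + ((-(a / q) : ℤ) : ℝ)) - ((a % q : ℤ) : ℝ) - γ| < δ
      have h2 : ((a % q : ℤ) : ℝ) + (q : ℝ) * ((a / q : ℤ) : ℝ) = (a : ℝ) := by
        exact_mod_cast Int.emod_add_mul_ediv a q
      have h3 : (q : ℝ) * (x + ((-(a / q) : ℤ) : ℝ)) - ((a % q : ℤ) : ℝ) - γ =
          (q : ℝ) * x - a - γ := by
        rw [← h2]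
        push_cast
        ring
      rw [h3]
      exact hax
  have hfin : ∀ a ∈ T, volume {x : ℝ | x ∈ Set.Ico (0 : ℝ) 1 ∧
      ∃ k : ℤ, x + k ∈ Vale.Agent.P028.bl γ δ q a} ≤ ENNReal.ofReal (2 * δ / q) := by
    intro a _
    refine (SM_period _ (Vale.Agent.P028.bl_meas γ δ hq a)).trans ?_
    rw [← Vale.Agent.P028.bl_vol γ hδ hq a, measureReal_def,
      ENNReal.ofReal_toReal (Vale.Agent.P028.bl_fin γ δ hq a)]
  have h1 : volume (AS γ A B δ q) ≤ ENNReal.ofReal ((#T : ℝ) * (2 * δ / q)) := by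
    refine (measure_mono hsub).trans ((measure_biUnion_finset_le _ _).trans
      ((Finset.sum_le_sum hfin).trans ?_))
    rw [Finset.sum_const, nsmul_eq_mul, ENNReal.ofReal_mul (Nat.cast_nonneg _),
      ENNReal.ofReal_natCast]
  have h2 : volume.real (AS γ A B δ q) ≤ (#T : ℝ) * (2 * δ / q) := by
    rw [measureReal_def]
    exact ENNReal.toReal_le_of_le_ofReal (by positivity) h1
  refine h2.trans (le_of_eq ?_)
  rw [hT, SM_count A]
  field_simp

theorem diag (γ : ℝ) (A : ℤ) (B : ℕ) (hB : 0 < B) (hAB : IsCoprime A (B : ℤ)) (q : ℕ) (hq : 0 < q)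
    (δ : ℝ) (hδ : 0 ≤ δ) :
    lam B q * lam B q * volume.real (AS γ A B δ q ∩ AS γ A B δ q) ≤
      2 * ((Nat.totient q : ℝ) / q * δ) := by
  rw [Set.inter_self]
  have h0 := SM_lam_nonneg B q
  have h1 := SM_lam_le B q
  have h2 := SM_vol γ A B q hq δ hδ
  have h3 := SM_lam_mul (B := B) hq
  have h4 : 0 ≤ volume.real (AS γ A B δ q) := measureReal_nonneg
  calc lam B q * lam B q * volume.real (AS γ A B δ q)
      ≤ 1 * lam B q * volume.real (AS γ A B δ q) := by gcongr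
    _ = lam B q * volume.real (AS γ A B δ q) := by ring
    _ ≤ lam B q * (2 * δ * ∏ p ∈ SM_P B q, (1 - 1 / (p : ℝ))) :=
        mul_le_mul_of_nonneg_left h2 h0
    _ = 2 * ((lam B q * ∏ p ∈ SM_P B q, (1 - 1 / (p : ℝ))) * δ) := by ring
    _ = 2 * ((Nat.totient q : ℝ) / q * δ) := by rw [h3]

private lemma SM_cls_lower {q : ℕ} (hq : 2 ≤ q) : 2 ^ 2 ^ cls q ≤ q := by
  have h1 : Nat.log 2 q ≠ 0 := by
    have : 0 < Nat.log 2 q := Nat.log_pos (by norm_num) hq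
    omega
  calc 2 ^ 2 ^ cls q ≤ 2 ^ Nat.log 2 q :=
        Nat.pow_le_pow_right (by norm_num) (Nat.pow_log_le_self 2 h1)
    _ ≤ q := Nat.pow_log_le_self 2 (by omega)

private lemma SM_cls_upper (q : ℕ) : q < 2 ^ 2 ^ (cls q + 1) := by
  have h2 : Nat.log 2 q < 2 ^ (cls q + 1) := Nat.lt_pow_succ_log_self (by norm_num) _
  calc q < 2 ^ (Nat.log 2 q + 1) := Nat.lt_pow_succ_log_self (by norm_num) _
    _ ≤ 2 ^ 2 ^ (cls q + 1) := Nat.pow_le_pow_right (by norm_num) h2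

private lemma SM_le_cls {N q : ℕ} (hq : 2 ^ 2 ^ N ≤ q) : N ≤ cls q := by
  have h1 : 2 ^ N ≤ Nat.log 2 q := by
    have := Nat.log_mono_right (b := 2) hq
    rwa [Nat.log_pow (by norm_num)] at this
  have := Nat.log_mono_right (b := 2) h1
  rwa [Nat.log_pow (by norm_num)] at this

private lemma SM_pow4 {q r i0 : ℕ} (hr : 2 ≤ r) (h1 : cls q % 3 = i0) (h2 : cls r % 3 = i0)
    (h : cls q < cls r) : q ^ 4 ≤ r := by
  have h3 : cls q + 3 ≤ cls r := by omega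
  calc q ^ 4 ≤ (2 ^ 2 ^ (cls q + 1)) ^ 4 := Nat.pow_le_pow_left (SM_cls_upper q).le 4
    _ = 2 ^ 2 ^ (cls q + 3) := by
        rw [← pow_mul]
        congr 1
        ring
    _ ≤ 2 ^ 2 ^ cls r := Nat.pow_le_pow_right (by norm_num) (Nat.pow_le_pow_right (by norm_num) h3)
    _ ≤ r := SM_cls_lower hr

theorem secondMoment (ε : ℝ) (hε : 0 < ε) (hε1 : ε < 1) : SecondMoment ε := by
  classical
  -- choice of `s`
  obtain ⟨s, hs⟩ : ∃ s : ℕ, ((1 : ℝ) / 2) ^ s < ε / 10 :=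
    exists_pow_lt_of_lt_one (by positivity) (by norm_num)
  set c3 : ℝ := ((1 : ℝ) / 2) ^ s with hc3
  have hc30 : 0 < c3 := by positivity
  obtain ⟨C1, Z0, hC1, hZ0, hsame⟩ := same_class ε c3 hε hε1 hc30 hs.le
  obtain ⟨C2, hC2, hcross⟩ := cross
  obtain ⟨N0, hN0⟩ := exists_nat_ge Z0
  set N : ℕ := max s N0 with hN
  refine ⟨s, 4 + 2 * C1 + 8 * C2, 2 ^ 2 ^ N, by positivity, ?_⟩
  intro γ i0 Q δ hQ hδ hmass
  have hX : ∀ q ∈ Q, 2 ≤ q := by
    intro q hq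
    have h1 := (hQ q hq).1
    have h2 : 2 ^ 1 ≤ 2 ^ 2 ^ N := Nat.pow_le_pow_right (by norm_num) Nat.one_le_two_pow
    omega
  have hcls : ∀ q ∈ Q, N ≤ cls q := fun q hq => SM_le_cls (hQ q hq).1
  have hqR : ∀ q ∈ Q, (0 : ℝ) < q := fun q hq => by
    have := hX q hq
    have h2 : 0 < q := by omega
    exact_mod_cast h2
  have hδ0 : ∀ q ∈ Q, 0 < δ q := fun q hq =>
    lt_of_lt_of_le (by have := hqR q hq; positivity) (hδ q hq).1
  have hδ1 : ∀ q ∈ Q, δ q ≤ 1 := fun q hq => by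
    refine (hδ q hq).2.trans (Real.rpow_le_one_of_one_le_of_nonpos ?_ (by linarith))
    have := hX q hq
    have h2 : 1 ≤ q := by omega
    exact_mod_cast h2
  have hwt : ∀ q ∈ Q, 0 ≤ wt δ q := fun q hq => by
    have := hδ0 q hq
    unfold wt
    positivity
  have hWnn : 0 ≤ ∑ q ∈ Q, wt δ q := Finset.sum_nonneg hwt
  have hBpos : ∀ q, 0 < Bq γ s q := fun q => Vale.Agent.P028.cB_pos γ _
  have hAB : ∀ q, IsCoprime (Aq γ s q) (Bq γ s q : ℤ) := fun q => Vale.Agent.P028.cAB γ _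
  set f : ℕ → ℕ → ℝ := fun q r => lam (Bq γ s q) q * lam (Bq γ s r) r *
      volume.real (Eq γ s δ q ∩ Eq γ s δ r) with hf
  have hf0 : ∀ q r, 0 ≤ f q r := fun q r =>
    mul_nonneg (mul_nonneg (SM_lam_nonneg _ _) (SM_lam_nonneg _ _)) measureReal_nonneg
  have hfsymm : ∀ q r, f q r = f r q := fun q r => by
    simp only [hf]
    rw [Set.inter_comm, mul_comm (lam (Bq γ s q) q)]
  -- the diagonal
  have hdiag : ∀ q ∈ Q, f q q ≤ 2 * wt δ q := fun q hq =>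
    diag γ (Aq γ s q) (Bq γ s q) (hBpos q) (hAB q) q (by have := hX q hq; omega) (δ q)
      (hδ0 q hq).le
  -- pairs of different classes
  have hlt : ∀ q ∈ Q, ∀ r ∈ Q, cls q < cls r → f q r ≤ C2 * (wt δ q * wt δ r) := by
    intro q hq r hr hqr
    have h := hcross γ (Aq γ s q) (Aq γ s r) (Bq γ s q) (Bq γ s r) (hBpos q) (hBpos r) (hAB q)
      (hAB r) q r (by have := hX q hq; omega)
      (SM_pow4 (hX r hr) (hQ q hq).2 (hQ r hr).2 hqr) (δ q) (δ r) (hδ q hq).1 (hδ0 r hr)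
      (hδ1 q hq) (hδ1 r hr)
    refine h.trans (le_of_eq ?_)
    unfold wt
    ring
  -- one class
  have hone : ∀ i ∈ Q.image cls, ∑ q ∈ Q.filter (fun q => cls q = i),
      ∑ r ∈ Q.filter (fun r => cls r = i), (if q ≠ r then f q r else 0) ≤
      C1 * ∑ q ∈ Q.filter (fun q => cls q = i), wt δ q := by
    intro i hi
    obtain ⟨q1, hq1, hqi⟩ := Finset.mem_image.1 hi
    have hiN : N ≤ i := hqi ▸ hcls q1 hq1
    have his : s ≤ i := (le_max_left _ _).trans hiN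
    set Z : ℝ := (2 : ℝ) ^ (2 : ℕ) ^ i with hZ
    have hZpos : 0 < Z := by positivity
    have hZZ0 : Z0 ≤ Z := by
      have h1 : N0 ≤ 2 ^ 2 ^ i := by
        calc N0 ≤ N := le_max_right _ _
          _ ≤ i := hiN
          _ ≤ 2 ^ i := Nat.lt_two_pow_self.le
          _ ≤ 2 ^ 2 ^ i := Nat.lt_two_pow_self.le
      refine hN0.trans ?_
      rw [hZ]
      exact_mod_cast h1
    have hZc : Z ^ c3 = ((Vale.Agent.P028.Nj (i - s) : ℕ) : ℝ) := by
      rw [hZ, hc3, Vale.Agent.P028.Nj]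
      push_cast
      rw [← Real.rpow_natCast, ← Real.rpow_mul (by norm_num), ← Real.rpow_natCast (2 : ℝ)]
      congr 1
      push_cast
      have h2 : (2 : ℝ) ^ i = (2 : ℝ) ^ (i - s) * (2 : ℝ) ^ s := by
        rw [← pow_add]
        congr 1
        omega
      rw [h2, one_div, inv_pow]
      field_simp
    have hmem : ∀ q ∈ Q.filter (fun q => cls q = i), q ∈ Q ∧ cls q = i :=
      fun q hq => Finset.mem_filter.1 hq
    have hC : Cls ε c3 Z γ (Vale.Agent.P028.cA γ (i - s)) (Vale.Agent.P028.cB γ (i - s)) δ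
        (Q.filter (fun q => cls q = i)) := by
      refine ⟨Vale.Agent.P028.cB_pos γ _, Vale.Agent.P028.cAB γ _, ?_, ?_, ?_, ?_, ?_, ?_, ?_, ?_⟩
      · rw [hZc]
        exact_mod_cast Vale.Agent.P028.cB_le γ (i - s)
      · rw [Real.rpow_neg hZpos.le, hZc]
        exact Vale.Agent.P028.cen_theta γ (i - s)
      · intro q hq
        have := hX q (hmem q hq).1
        omega
      · intro q hq
        have h1 := SM_cls_lower (hX q (hmem q hq).1)
        rw [(hmem q hq).2] at h1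
        rw [hZ]
        exact_mod_cast h1
      · intro q hq
        have h1 := (SM_cls_upper q).le
        rw [(hmem q hq).2] at h1
        have h2 : (2 : ℕ) ^ 2 ^ (i + 1) = (2 ^ 2 ^ i) ^ 2 := by
          rw [← pow_mul, pow_succ]
        rw [h2] at h1
        rw [hZ]
        exact_mod_cast h1
      · intro q hq
        exact (hδ q (hmem q hq).1).1
      · intro q hq
        exact (hδ q (hmem q hq).1).2
      · refine (Finset.sum_le_sum_of_subset_of_nonneg (Finset.filter_subset _ _) ?_).trans hmass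
        intro q hq _
        exact hwt q hq
    have h := hsame Z γ _ _ δ _ hZZ0 hC
    refine le_trans (le_of_eq ?_) h
    refine Finset.sum_congr rfl fun q hq => Finset.sum_congr rfl fun r hr => ?_
    have hq2 := (hmem q hq).2
    have hr2 := (hmem r hr).2
    by_cases hqr : q ≠ r
    · rw [if_pos hqr, if_pos hqr]
      simp only [hf, Eq, Aq, Bq]
      rw [hq2, hr2]
    · rw [if_neg hqr, if_neg hqr]
  -- the sum over all classes
  have hall : ∑ q ∈ Q, ∑ r ∈ Q, (if cls q = cls r ∧ q ≠ r then f q r else 0) ≤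
      C1 * ∑ q ∈ Q, wt δ q := by
    have hmap : ∀ q ∈ Q, cls q ∈ Q.image cls := fun q hq => Finset.mem_image_of_mem _ hq
    rw [← Finset.sum_fiberwise_of_maps_to hmap, ← Finset.sum_fiberwise_of_maps_to hmap,
      Finset.mul_sum]
    refine Finset.sum_le_sum fun i hi => ?_
    refine le_trans (le_of_eq ?_) (hone i hi)
    refine Finset.sum_congr rfl fun q hq => ?_
    rw [Finset.sum_filter]
    refine Finset.sum_congr rfl fun r _ => ?_
    have hq2 := (Finset.mem_filter.1 hq).2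
    rw [hq2]
    by_cases h1 : cls r = i
    · rw [if_pos h1]
      by_cases h2 : q ≠ r
      · rw [if_pos ⟨h1.symm, h2⟩, if_pos h2]
      · rw [if_neg (fun h => h2 h.2), if_neg h2]
    · rw [if_neg h1, if_neg (fun h => h1 h.1.symm)]
  have hpt : ∀ q ∈ Q, ∀ r ∈ Q, f q r ≤ (if q = r then 2 * wt δ q else 0) +
      (if cls q = cls r ∧ q ≠ r then f q r else 0) + 2 * C2 * (wt δ q * wt δ r) := by
    intro q hq r hr
    have hww : 0 ≤ wt δ q * wt δ r := mul_nonneg (hwt q hq) (hwt r hr)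
    have hww2 : 0 ≤ C2 * (wt δ q * wt δ r) := mul_nonneg (by linarith) hww
    by_cases h1 : q = r
    · subst h1
      have h2 := hdiag q hq
      rw [if_pos rfl, if_neg (fun h => h.2 rfl)]
      linarith
    · rw [if_neg h1]
      by_cases h2 : cls q = cls r
      · rw [if_pos ⟨h2, h1⟩]
        linarith
      · rw [if_neg (fun h => h2 h.1)]
        rcases Nat.lt_or_gt_of_ne h2 with h3 | h3
        · have := hlt q hq r hr h3
          linarith
        · have := hlt r hr q hq h3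
          rw [hfsymm q r]
          have h4 : wt δ r * wt δ q = wt δ q * wt δ r := mul_comm _ _
          rw [h4] at this
          linarith
  have hS1 : ∑ q ∈ Q, ∑ r ∈ Q, (if q = r then 2 * wt δ q else 0) = 2 * ∑ q ∈ Q, wt δ q := by
    rw [Finset.mul_sum]
    refine Finset.sum_congr rfl fun q hq => ?_
    rw [Finset.sum_ite_eq, if_pos hq]
  have hS3 : ∑ q ∈ Q, ∑ r ∈ Q, 2 * C2 * (wt δ q * wt δ r) =
      2 * C2 * ((∑ q ∈ Q, wt δ q) * ∑ q ∈ Q, wt δ q) := by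
    rw [Finset.sum_mul_sum, Finset.mul_sum]
    refine Finset.sum_congr rfl fun q _ => ?_
    rw [Finset.mul_sum]
  calc ∑ q ∈ Q, ∑ r ∈ Q, lam (Bq γ s q) q * lam (Bq γ s r) r *
      volume.real (Eq γ s δ q ∩ Eq γ s δ r)
      ≤ ∑ q ∈ Q, ∑ r ∈ Q, ((if q = r then 2 * wt δ q else 0) +
        (if cls q = cls r ∧ q ≠ r then f q r else 0) + 2 * C2 * (wt δ q * wt δ r)) :=
        Finset.sum_le_sum fun q hq => Finset.sum_le_sum fun r hr => hpt q hq r hr
    _ = ∑ q ∈ Q, ∑ r ∈ Q, (if q = r then 2 * wt δ q else 0) +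
        ∑ q ∈ Q, ∑ r ∈ Q, (if cls q = cls r ∧ q ≠ r then f q r else 0) +
        ∑ q ∈ Q, ∑ r ∈ Q, 2 * C2 * (wt δ q * wt δ r) := by
        simp only [Finset.sum_add_distrib]
    _ ≤ 2 * ∑ q ∈ Q, wt δ q + C1 * ∑ q ∈ Q, wt δ q +
        2 * C2 * ((∑ q ∈ Q, wt δ q) * ∑ q ∈ Q, wt δ q) := by
        rw [hS1, hS3]
        linarith
    _ ≤ 2 * 2 + C1 * 2 + 2 * C2 * (2 * 2) := by
        gcongr
    _ = 4 + 2 * C1 + 8 * C2 := by ring

end Vale.Agent.P028E
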