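import Vale.Agent.Lib.P028.E.SeMain

/-!
P2: the small divisors, pointwise.

`M ≥ exp 400`: `fb_le` and `sum_large`; the product over `P` cancels in the first term, in the second
use `∏_{p∈P}(1-1/p)⁻¹ ≤ log M / 4` (`small_prod`) and `M^(-1/8) log M ≤ 8`.

`1/T0 ≤ M < exp 400`: the number of `n` is at most `4M + 1` (nonnegative terms), `hs B E m ≤
∑_{e ≤ E} 1/φ(e) ≤ C E^(1/16)` (`sum_phi_le`), `1/M ≤ T0`, and `FB B s ≤ Yc M * FY (Yc M) s`
(`small_prod` for the primes `≤ Yc M`), everything bounded in terms of `T0`.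
-/

open Finset MeasureTheory

namespace Vale.Agent.P028E

private theorem fac_one_le {p : ℕ} (hp : p.Prime) : 1 ≤ (1 - 1 / (p : ℝ))⁻¹ := by
  have h2 : (2 : ℝ) ≤ p := by exact_mod_cast hp.two_le
  have h3 : 1 / (p : ℝ) ≤ 1 / 2 := one_div_le_one_div_of_le (by norm_num) h2
  have h4 : 0 < 1 / (p : ℝ) := by positivity
  rw [one_le_inv₀ (by linarith)]
  linarith

open Classical in
private theorem se_lift (s : Finset ℕ) :
    (do let a ← s; pure (a : ℝ)) = s.image (fun a : ℕ => (a : ℝ)) := by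
  ext x
  simp only [Finset.bind_def, Finset.pure_def, Finset.mem_sup, Finset.mem_singleton,
    Finset.mem_image]
  constructor
  · rintro ⟨a, ha, h⟩
    exact ⟨a, ha, h.symm⟩
  · rintro ⟨a, ha, h⟩
    exact ⟨a, ha, h.symm⟩

open Classical in
private theorem se_FY_eq (Y : ℝ) (n : ℕ) :
    FY Y n = ∏ p ∈ n.primeFactors.filter (fun p : ℕ => Y < (p : ℝ)), (1 - 1 / (p : ℝ))⁻¹ := by
  unfold FY
  rw [se_lift, Finset.filter_image, Finset.prod_image]
  exact fun x _ y _ h => Nat.cast_injective h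

private theorem FY_one_le (Y : ℝ) (s : ℕ) : 1 ≤ FY Y s := by
  classical
  rw [se_FY_eq]
  have h : ∏ p ∈ s.primeFactors.filter (fun p : ℕ => Y < (p : ℝ)), (1 : ℝ) ≤
      ∏ p ∈ s.primeFactors.filter (fun p : ℕ => Y < (p : ℝ)), (1 - 1 / (p : ℝ))⁻¹ :=
    Finset.prod_le_prod (fun _ _ => zero_le_one) fun p hp =>
      fac_one_le (Nat.prime_of_mem_primeFactors (Finset.mem_filter.1 hp).1)
  rwa [Finset.prod_const_one] at h

private theorem FB_le_Y (B s : ℕ) (Y : ℝ) (hY : 1 ≤ Y) : FB B s ≤ Y * FY Y s := by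
  classical
  unfold FB
  rw [← Finset.prod_filter_mul_prod_filter_not (s.primeFactors.filter (fun p => ¬ p ∣ B))
    (fun p : ℕ => (p : ℝ) ≤ Y)]
  have h1 : ∏ p ∈ (s.primeFactors.filter (fun p => ¬ p ∣ B)).filter (fun p : ℕ => (p : ℝ) ≤ Y),
      (1 - 1 / (p : ℝ))⁻¹ ≤ Y := by
    refine small_prod Y hY _ fun p hp => ?_
    rw [Finset.mem_filter, Finset.mem_filter] at hp
    exact ⟨Nat.prime_of_mem_primeFactors hp.1.1, hp.2⟩
  have h2 : ∏ p ∈ (s.primeFactors.filter (fun p => ¬ p ∣ B)).filter (fun p : ℕ => ¬ (p : ℝ) ≤ Y),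
      (1 - 1 / (p : ℝ))⁻¹ ≤ FY Y s := by
    rw [se_FY_eq]
    refine Finset.prod_le_prod_of_subset_of_one_le ?_ ?_ ?_
    · intro p hp
      rw [Finset.mem_filter, Finset.mem_filter] at hp
      rw [Finset.mem_filter]
      exact ⟨hp.1.1, not_le.1 hp.2⟩
    · intro p hp
      rw [Finset.mem_filter, Finset.mem_filter] at hp
      exact zero_le_one.trans (fac_one_le (Nat.prime_of_mem_primeFactors hp.1.1))
    · intro p hp _
      rw [Finset.mem_filter] at hp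
      exact fac_one_le (Nat.prime_of_mem_primeFactors hp.1)
  refine mul_le_mul h1 h2 ?_ (by linarith)
  refine Finset.prod_nonneg fun p hp => ?_
  rw [Finset.mem_filter, Finset.mem_filter] at hp
  exact zero_le_one.trans (fac_one_le (Nat.prime_of_mem_primeFactors hp.1.1))

private theorem FB_nonneg' (B s : ℕ) : 0 ≤ FB B s := by
  unfold FB
  refine Finset.prod_nonneg fun p hp => ?_
  rw [Finset.mem_filter] at hp
  exact zero_le_one.trans (fac_one_le (Nat.prime_of_mem_primeFactors hp.1))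

private theorem hs_nonneg (B : ℕ) (E : ℝ) (m : ℤ) : 0 ≤ hs B E m := by
  unfold hs
  exact Finset.sum_nonneg fun e _ => by positivity

private theorem nC_card (A : ℤ) (B : ℕ) (D : ℤ) (s : ℕ) (x M : ℝ) (hM : 0 ≤ M) :
    ((nC A B D s x (2 * M)).card : ℝ) ≤ 4 * M + 3 := by
  classical
  have h1 : (nC A B D s x (2 * M)).card ≤ (Finset.Icc ⌊x - 2 * M⌋ ⌈x + 2 * M⌉).card := by
    refine Finset.card_le_card ?_
    unfold nC nS
    exact (Finset.filter_subset _ _).trans (Finset.filter_subset _ _)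
  rw [Int.card_Icc] at h1
  have h2 : ((⌈x + 2 * M⌉ : ℤ) : ℝ) < x + 2 * M + 1 := Int.ceil_lt_add_one _
  have h3 : x - 2 * M - 1 < ((⌊x - 2 * M⌋ : ℤ) : ℝ) := Int.sub_one_lt_floor _
  have h4 : ((⌊x - 2 * M⌋ : ℤ) : ℝ) ≤ x - 2 * M := Int.floor_le _
  have h5 : x + 2 * M ≤ ((⌈x + 2 * M⌉ : ℤ) : ℝ) := Int.le_ceil _
  have h6 : 0 ≤ ⌈x + 2 * M⌉ + 1 - ⌊x - 2 * M⌋ := by
    have h7 : (0 : ℝ) ≤ ((⌈x + 2 * M⌉ + 1 - ⌊x - 2 * M⌋ : ℤ) : ℝ) := by
      push_cast
      linarith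
    exact_mod_cast h7
  have h8 : (((⌈x + 2 * M⌉ + 1 - ⌊x - 2 * M⌋).toNat : ℕ) : ℝ) =
      ((⌈x + 2 * M⌉ + 1 - ⌊x - 2 * M⌋ : ℤ) : ℝ) := by
    have h9 := Int.toNat_of_nonneg h6
    exact_mod_cast h9
  calc ((nC A B D s x (2 * M)).card : ℝ)
      ≤ (((⌈x + 2 * M⌉ + 1 - ⌊x - 2 * M⌋).toNat : ℕ) : ℝ) := by exact_mod_cast h1
    _ = ((⌈x + 2 * M⌉ + 1 - ⌊x - 2 * M⌋ : ℤ) : ℝ) := h8
    _ ≤ 4 * M + 3 := by
        push_cast
        linarith

/-- P2: the small divisors, pointwise. -/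
theorem small_e (T0 : ℝ) (hT0 : 1 ≤ T0) : ∃ C : ℝ, 1 ≤ C ∧ ∀ (A : ℤ) (B : ℕ), 0 < B →
    IsCoprime A (B : ℤ) → ∀ (D : ℤ) (s : ℕ), 0 < s → ∀ (x M : ℝ), 1 / T0 ≤ M →
      1 / M * FB B s * ∑ n ∈ nC A B D s x (2 * M), hs B (T0 * (max 1 M) ^ 3) (mm A B D n) ≤
        C * FY (Yc M) s := by
  classical
  obtain ⟨C1, hC1, hfb⟩ := fb_le
  obtain ⟨C2, hC2, hsl⟩ := sum_large T0 hT0
  obtain ⟨C3, hC3, hphi⟩ := sum_phi_le
  set X0 : ℝ := Real.exp 400 with hX0
  have hX01 : 1 ≤ X0 := Real.one_le_exp (by norm_num)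
  set K1 : ℝ := 4 + Real.log (2 + X0) ^ 2 with hK1
  have hK10 : 0 ≤ K1 := by positivity
  set K2 : ℝ := C3 * (T0 * X0 ^ 3) ^ (1 / 16 : ℝ) with hK2
  have hK20 : 0 ≤ K2 := by positivity
  set K3 : ℝ := T0 * K1 * ((4 * X0 + 3) * K2) with hK3
  have hK30 : 0 ≤ K3 := by positivity
  refine ⟨3 * (C1 * C2) + K3, ?_, ?_⟩
  · have : 1 ≤ C1 * C2 := one_le_mul_of_one_le_of_one_le hC1 hC2
    linarith
  intro A B hB hAB D s hs0 x M hM
  have hT00 : 0 < T0 := by linarith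
  have hM0 : 0 < M := lt_of_lt_of_le (by positivity) hM
  have hFY1 := FY_one_le (Yc M) s
  have hFY0 : 0 ≤ FY (Yc M) s := by linarith
  have hFB0 := FB_nonneg' B s
  by_cases hbig : X0 ≤ M
  · -- large `M`
    have hM1 : 1 ≤ M := hX01.trans hbig
    have h1 := hfb B s M hs0 hbig
    have h2 := hsl A B hB D s hs0 x M hbig
    set P : Finset ℕ := s.primeFactors.filter (fun p => ¬ p ∣ B ∧ (p : ℝ) ≤ Real.log M / 4) with hP
    have hPp : ∀ p ∈ P, p.Prime ∧ (p : ℝ) ≤ Real.log M / 4 := by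
      intro p hp
      rw [hP, Finset.mem_filter] at hp
      exact ⟨Nat.prime_of_mem_primeFactors hp.1, hp.2.2⟩
    set I1 : ℝ := ∏ p ∈ P, (1 - 1 / (p : ℝ))⁻¹ with hI1
    set I2 : ℝ := ∏ p ∈ P, (1 - 1 / (p : ℝ)) with hI2
    have hI12 : I1 * I2 = 1 := by
      rw [hI1, hI2, ← Finset.prod_mul_distrib]
      refine Finset.prod_eq_one fun p hp => ?_
      have h2 : (2 : ℝ) ≤ p := by exact_mod_cast (hPp p hp).1.two_le
      have h3 : 1 / (p : ℝ) ≤ 1 / 2 := one_div_le_one_div_of_le (by norm_num) h2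
      exact inv_mul_cancel₀ (by linarith)
    have hI10 : 0 ≤ I1 := Finset.prod_nonneg fun p hp =>
      zero_le_one.trans (fac_one_le (hPp p hp).1)
    have hlog : 400 ≤ Real.log M := by
      rw [Real.le_log_iff_exp_le hM0]
      exact hbig
    have hI1le : I1 ≤ Real.log M / 4 := small_prod (Real.log M / 4) (by linarith) P hPp
    have hlogM : Real.log M ≤ 8 * M ^ (1 / 8 : ℝ) := by
      have h3 := Real.log_le_rpow_div hM0.le (show (0 : ℝ) < 1 / 8 by norm_num)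
      calc Real.log M ≤ M ^ (1 / 8 : ℝ) / (1 / 8) := h3
        _ = 8 * M ^ (1 / 8 : ℝ) := by ring
    have hpow : M ^ (7 / 8 : ℝ) * M ^ (1 / 8 : ℝ) = M := by
      rw [← Real.rpow_add hM0]
      norm_num
    have hpow0 : 0 ≤ M ^ (7 / 8 : ℝ) := by positivity
    have hS0 : 0 ≤ ∑ n ∈ nC A B D s x (2 * M), hs B (T0 * (max 1 M) ^ 3) (mm A B D n) :=
      Finset.sum_nonneg fun n _ => hs_nonneg _ _ _
    calc 1 / M * FB B s * ∑ n ∈ nC A B D s x (2 * M), hs B (T0 * (max 1 M) ^ 3) (mm A B D n)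
        ≤ 1 / M * (C1 * FY (Yc M) s * I1) * (C2 * M * I2 + C2 * M ^ (7 / 8 : ℝ)) := by
          refine mul_le_mul ?_ h2 hS0 (by positivity)
          exact mul_le_mul_of_nonneg_left h1 (by positivity)
      _ = C1 * C2 * FY (Yc M) s * (I1 * I2) + C1 * C2 * FY (Yc M) s *
            (I1 * M ^ (7 / 8 : ℝ) / M) := by
          field_simp
      _ ≤ C1 * C2 * FY (Yc M) s * 1 + C1 * C2 * FY (Yc M) s * 2 := by
          refine add_le_add (by rw [hI12]) ?_
          refine mul_le_mul_of_nonneg_left ?_ (by positivity)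
          rw [div_le_iff₀ hM0]
          calc I1 * M ^ (7 / 8 : ℝ) ≤ (Real.log M / 4) * M ^ (7 / 8 : ℝ) := by gcongr
            _ ≤ (8 * M ^ (1 / 8 : ℝ) / 4) * M ^ (7 / 8 : ℝ) := by gcongr
            _ = 2 * (M ^ (7 / 8 : ℝ) * M ^ (1 / 8 : ℝ)) := by ring
            _ = 2 * M := by rw [hpow]
      _ = 3 * (C1 * C2) * FY (Yc M) s := by ring
      _ ≤ (3 * (C1 * C2) + K3) * FY (Yc M) s := by
          refine mul_le_mul_of_nonneg_right ?_ hFY0
          linarith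
  · -- bounded `M`
    have hMX : M ≤ X0 := (not_le.1 hbig).le
    have hYc1 : 1 ≤ Yc M := by
      unfold Yc
      have : 0 ≤ Real.log (2 + M) ^ 2 := sq_nonneg _
      linarith
    have hYcK : Yc M ≤ K1 := by
      unfold Yc
      rw [hK1]
      have h1 : 0 ≤ Real.log (2 + M) := Real.log_nonneg (by linarith)
      have h2 : Real.log (2 + M) ≤ Real.log (2 + X0) := Real.log_le_log (by linarith) (by linarith)
      have h3 : Real.log (2 + M) ^ 2 ≤ Real.log (2 + X0) ^ 2 := by gcongr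
      linarith
    have hFBK : FB B s ≤ K1 * FY (Yc M) s :=
      (FB_le_Y B s (Yc M) hYc1).trans (mul_le_mul_of_nonneg_right hYcK hFY0)
    have hE1 : 1 ≤ T0 * (max 1 M) ^ 3 := by
      have : 1 ≤ (max 1 M) ^ 3 := one_le_pow₀ (le_max_left _ _)
      exact one_le_mul_of_one_le_of_one_le hT0 this
    have hE2 : T0 * (max 1 M) ^ 3 ≤ T0 * X0 ^ 3 := by
      have : max 1 M ≤ X0 := max_le hX01 hMX
      have h0 : 0 ≤ max 1 M := zero_le_one.trans (le_max_left _ _)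
      gcongr
    have hhs : ∀ m : ℤ, hs B (T0 * (max 1 M) ^ 3) m ≤ K2 := by
      intro m
      unfold hs
      refine (hphi _ (T0 * (max 1 M) ^ 3) hE1 ?_).trans ?_
      · intro e he
        rw [Finset.mem_filter] at he
        exact ⟨Nat.pos_of_mem_divisors he.1, he.2.2.2⟩
      · rw [hK2]
        gcongr
    have hsum : ∑ n ∈ nC A B D s x (2 * M), hs B (T0 * (max 1 M) ^ 3) (mm A B D n) ≤
        (4 * X0 + 3) * K2 := by
      calc ∑ n ∈ nC A B D s x (2 * M), hs B (T0 * (max 1 M) ^ 3) (mm A B D n)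
          ≤ ∑ _n ∈ nC A B D s x (2 * M), K2 := Finset.sum_le_sum fun n _ => hhs _
        _ = ((nC A B D s x (2 * M)).card : ℝ) * K2 := by rw [Finset.sum_const, nsmul_eq_mul]
        _ ≤ (4 * M + 3) * K2 := mul_le_mul_of_nonneg_right (nC_card A B D s x M hM0.le) hK20
        _ ≤ (4 * X0 + 3) * K2 := by gcongr
    have hS0 : 0 ≤ ∑ n ∈ nC A B D s x (2 * M), hs B (T0 * (max 1 M) ^ 3) (mm A B D n) :=
      Finset.sum_nonneg fun n _ => hs_nonneg _ _ _
    have hMT : 1 / M ≤ T0 := by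
      rw [div_le_iff₀ hT00] at hM
      rw [div_le_iff₀ hM0]
      linarith
    calc 1 / M * FB B s * ∑ n ∈ nC A B D s x (2 * M), hs B (T0 * (max 1 M) ^ 3) (mm A B D n)
        ≤ T0 * (K1 * FY (Yc M) s) * ((4 * X0 + 3) * K2) := by
          refine mul_le_mul ?_ hsum hS0 (by positivity)
          exact mul_le_mul hMT hFBK hFB0 hT00.le
      _ = K3 * FY (Yc M) s := by
          rw [hK3]
          ring
      _ ≤ (3 * (C1 * C2) + K3) * FY (Yc M) s := by
          refine mul_le_mul_of_nonneg_right ?_ hFY0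
          have : 0 ≤ C1 * C2 := by positivity
          linarith

end Vale.Agent.P028E
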