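import Vale.Agent.Lib.P028.E.EEst
import Vale.Agent.Lib.P028.E.Anat
import Vale.Agent.Lib.P028.E.DivSum
import Vale.Agent.Lib.P028.E.SmallE
import Vale.Agent.Lib.P028.E.Overlap

/-!
# P028 E: total overlap inside one class

Let `T0 = 16`.  For `q ≠ r` in `S` put `M = MM δ q r`, `s = qp q r * qp r q`, and
`O(q,r) = (2 wt_q wt_r/M) FB B s * ∑_{n ∈ nC A B D s (Dγ) (2M)} FB B |m_n|` (`overlap`), where
`m_n ≠ 0` (`m_n = 0` coprime to `s` forces `s = 1`, `q = r`).  By `FB_eq`, `FB B |m_n|` is the sum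
of `1/φ(e)` over `e ∈ E(m_n)` (squarefree divisors coprime to `B`).

Split `O = O1 + O2`: if `M ≥ 1/T0`, `O1` = contribution of `e ≤ T0 (max 1 M)^3` (that is
`hs B (T0 (max 1 M)^3) m_n`), `O2` the rest; if `M < 1/T0`, `O1 = 0`, `O2 = O`.

`O1 ≤ 2 C wt_q wt_r FY (Yc M) s` (`small_e`), `M ≥ 1/T0`.  Sum over dyadic ranges
`2^i ≤ M < 2^(i+1)`, `i ≥ -5`, with `anat_sum`:
`∑ O1 ≤ C (∑_{q,r} wt wt + ∑_i min(2^(49i/50), 2^(-i)) ∑ wt) ≤ C' ∑ wt` (`∑ wt ≤ 2`).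

`O2`: for `t = 2^i ≤ M < 2t` every `n` occurring satisfies `|n - Dγ| < 2M < 4t`, and every `e`
occurring satisfies `e ≥ T0 t` (if `M < 1/T0`: `e ≥ 1 ≥ T0 t`; otherwise `e > T0 max(1,M)^3 ≥ T0 t`,
and moreover `e ≥ max(1,t)^3`).  For given `(q,r,e)` the `n` with `|n - Dγ| < 4t` and `e ∣ nB - AD`
lie in one class mod `e` (as `(e,B)=1`) inside an interval of length `8t ≤ e/2`: at most one.
Hence `∑ O2 ≤ ∑_i ∑_{e ∈ range_i} (1/φ(e)) (2/t) * (edge sum of Edge γ A B δ t e)`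
`≤ ∑_i ∑_e (1/φ(e)) (2/t) C t (t/e)^c1 ∑ wt` by `edge_est`, and
`∑_{i<0} 2^(i c1) ∑_{e≥1} e^(-c1)/φ(e) + ∑_{i≥0} 2^(i c1) ∑_{e ≥ 2^(3i)} e^(-c1)/φ(e) ≤ C` by
`sum_inv_phi` (`2^(ic1) 2^(-3i c1/2) = 2^(-ic1/2)`).  All sums are finite: `1/Z² ≤ ... M ≤ Z²`
(only finitely many dyadic `i`), `e ≤ |m_n|`.
-/

open Finset MeasureTheory

namespace Vale.Agent.P028E

private theorem sc_qp_pos {q r : ℕ} (hq : 0 < q) : 0 < qp q r :=
  Nat.div_pos (Nat.gcd_le_left _ hq) (Nat.gcd_pos_of_pos_left _ hq)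

private theorem sc_MM_pos {δ : ℕ → ℝ} {q r : ℕ} (hr : 0 < r) (hδ : 0 < δ q) :
    0 < MM δ q r := by
  unfold MM
  have h : (0 : ℝ) < (qp r q : ℝ) := by exact_mod_cast sc_qp_pos hr
  exact lt_max_of_lt_left (mul_pos h hδ)

private theorem sc_mm_ne {A : ℤ} {B : ℕ} {D n : ℤ} {q r : ℕ} (hqr : q ≠ r)
    (h : IsCoprime (mm A B D n) ((qp q r * qp r q : ℕ) : ℤ)) : mm A B D n ≠ 0 := by
  intro h0
  rw [h0, isCoprime_zero_left, Int.isUnit_iff_natAbs_eq, Int.natAbs_natCast, mul_eq_one] at h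
  obtain ⟨h1, h2⟩ := h
  unfold qp at h1 h2
  have e1 : q = Nat.gcd q r := Nat.eq_of_dvd_of_div_eq_one (Nat.gcd_dvd_left q r) h1 |>.symm
  have e2 : r = Nat.gcd r q := Nat.eq_of_dvd_of_div_eq_one (Nat.gcd_dvd_left r q) h2 |>.symm
  apply hqr
  rw [e1, Nat.gcd_comm, ← e2]

open Classical in
private theorem sc_count {γ : ℝ} {A : ℤ} {B : ℕ} {δ : ℕ → ℝ} {q r e : ℕ} {t : ℝ}
    (ht : t ≤ MM δ q r) (ht2 : MM δ q r < 2 * t) (he0 : 0 < e) (he : 16 * t ≤ e)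
    (heB : Nat.Coprime e B) (hqr : q ≠ r) :
    (((nC A B (DD q r) (qp q r * qp r q) ((DD q r : ℝ) * γ) (2 * MM δ q r)).filter
      (fun n => (e : ℤ) ∣ mm A B (DD q r) n)).card : ℝ) ≤
      if Edge γ A B δ t e q r then 1 else 0 := by
  set F := (nC A B (DD q r) (qp q r * qp r q) ((DD q r : ℝ) * γ) (2 * MM δ q r)).filter
      (fun n => (e : ℤ) ∣ mm A B (DD q r) n) with hF
  have hmem : ∀ n ∈ F, |(n : ℝ) - (DD q r : ℝ) * γ| < 2 * MM δ q r ∧ mm A B (DD q r) n ≠ 0 ∧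
      (e : ℤ) ∣ mm A B (DD q r) n := by
    intro n hn
    rw [hF, Finset.mem_filter] at hn
    obtain ⟨hn1, hn2⟩ := hn
    unfold nC nS at hn1
    rw [Finset.mem_filter, Finset.mem_filter] at hn1
    exact ⟨hn1.1.2, sc_mm_ne hqr hn1.2, hn2⟩
  rcases F.eq_empty_or_nonempty with h0 | ⟨n, hn⟩
  · rw [h0]
    simp only [Finset.card_empty, Nat.cast_zero]
    split_ifs <;> norm_num
  · have hE : Edge γ A B δ t e q r := by
      obtain ⟨h1, h2, h3⟩ := hmem n hn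
      exact ⟨ht, ht2, n, by linarith, h2, h3⟩
    rw [if_pos hE]
    have hc : F.card ≤ 1 := by
      rw [Finset.card_le_one]
      intro a ha b hb
      obtain ⟨a1, -, a3⟩ := hmem a ha
      obtain ⟨b1, -, b3⟩ := hmem b hb
      have h1 : (e : ℤ) ∣ (a - b) * B := by
        have e1 : (a - b) * (B : ℤ) = mm A B (DD q r) a - mm A B (DD q r) b := by
          unfold mm
          ring
        rw [e1]
        exact dvd_sub a3 b3
      have h2 : (e : ℤ) ∣ a - b := by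
        have hc : IsCoprime (e : ℤ) (B : ℤ) := Nat.isCoprime_iff_coprime.mpr heB
        exact hc.dvd_of_dvd_mul_right h1
      have h3 : |a - b| < (e : ℤ) := by
        have h4 : |((a - b : ℤ) : ℝ)| < (e : ℝ) := by
          push_cast
          rw [abs_lt] at a1 b1 ⊢
          have he' : (0 : ℝ) < e := by exact_mod_cast he0
          constructor <;> linarith [a1.1, a1.2, b1.1, b1.2]
        exact_mod_cast h4
      have h5 := Int.eq_zero_of_abs_lt_dvd h2 h3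
      omega
    exact_mod_cast hc

open Classical in
/-- the range of the large divisors -/
private noncomputable def sc_F (N B : ℕ) (t : ℝ) : Finset ℕ :=
  (Finset.Icc 1 N).filter (fun e : ℕ => Nat.Coprime e B ∧ 16 * t ≤ (e : ℝ) ∧
    (max 1 t) ^ 3 ≤ (e : ℝ))

private theorem sc_wt_nonneg {δ : ℕ → ℝ} {q : ℕ} (hδ : 0 < δ q) : 0 ≤ wt δ q := by
  unfold wt
  positivity

private theorem sc_fac {p : ℕ} (hp : p.Prime) : 0 ≤ 1 - 1 / (p : ℝ) := by
  have h2 : (2 : ℝ) ≤ p := by exact_mod_cast hp.two_le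
  have : 1 / (p : ℝ) ≤ 1 / 2 := one_div_le_one_div_of_le (by norm_num) h2
  linarith

private theorem sc_FB_nonneg (B n : ℕ) : 0 ≤ FB B n := by
  unfold FB
  exact Finset.prod_nonneg fun p hp => inv_nonneg.2
    (sc_fac (Nat.prime_of_mem_primeFactors (Finset.mem_filter.1 hp).1))

private theorem sc_FY_nonneg (Y : ℝ) (n : ℕ) : 0 ≤ FY Y n := by
  unfold FY
  refine Finset.prod_nonneg fun p hp => inv_nonneg.2 ?_
  have hp' := (Finset.mem_filter.1 hp).1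
  simp at hp'
  obtain ⟨a, ⟨ha, -⟩, rfl⟩ := hp'
  exact sc_fac ha

open Classical in
/-- splitting of the divisor sum of one `m` -/
private theorem sc_split {N B : ℕ} {t E : ℝ} {m : ℤ} (hm : m ≠ 0) (hmN : m.natAbs ≤ N)
    (hE : ∀ e : ℕ, 0 < e → E < (e : ℝ) → 16 * t ≤ (e : ℝ) ∧ (max 1 t) ^ 3 ≤ (e : ℝ)) :
    FB B m.natAbs ≤ hs B E m +
      ∑ e ∈ sc_F N B t, (1 / (Nat.totient e : ℝ)) * (if (e : ℤ) ∣ m then 1 else 0) := by
  rw [FB_eq B m hm]
  have h1 : m.natAbs.divisors.filter (fun e => Squarefree e ∧ Nat.Coprime e B) ⊆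
      m.natAbs.divisors.filter (fun e : ℕ => Squarefree e ∧ Nat.Coprime e B ∧ (e : ℝ) ≤ E) ∪
      (sc_F N B t).filter (fun e => (e : ℤ) ∣ m) := by
    intro e he
    rw [Finset.mem_filter] at he
    obtain ⟨he1, he2, he3⟩ := he
    rw [Finset.mem_union, Finset.mem_filter, Finset.mem_filter]
    rcases le_or_gt (e : ℝ) E with h | h
    · exact Or.inl ⟨he1, he2, he3, h⟩
    · right
      have hed : e ∣ m.natAbs := Nat.dvd_of_mem_divisors he1
      have hm0 : 0 < m.natAbs := Int.natAbs_pos.2 hm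
      have he0 : 0 < e := Nat.pos_of_dvd_of_pos hed hm0
      refine ⟨?_, Int.natCast_dvd.2 hed⟩
      unfold sc_F
      rw [Finset.mem_filter, Finset.mem_Icc]
      exact ⟨⟨he0, (Nat.le_of_dvd hm0 hed).trans hmN⟩, he3, hE e he0 h⟩
  have hnn : ∀ e : ℕ, 0 ≤ 1 / (Nat.totient e : ℝ) := fun e => by positivity
  refine (Finset.sum_le_sum_of_subset_of_nonneg h1 fun e _ _ => hnn e).trans ?_
  have h2 := Finset.sum_union_inter (s₁ := m.natAbs.divisors.filter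
    (fun e : ℕ => Squarefree e ∧ Nat.Coprime e B ∧ (e : ℝ) ≤ E))
    (s₂ := (sc_F N B t).filter (fun e => (e : ℤ) ∣ m)) (f := fun e : ℕ => 1 / (Nat.totient e : ℝ))
  have h3 : 0 ≤ ∑ e ∈ m.natAbs.divisors.filter
      (fun e : ℕ => Squarefree e ∧ Nat.Coprime e B ∧ (e : ℝ) ≤ E) ∩
      (sc_F N B t).filter (fun e => (e : ℤ) ∣ m), 1 / (Nat.totient e : ℝ) :=
    Finset.sum_nonneg fun e _ => hnn e
  have h4 : ∑ e ∈ sc_F N B t, (1 / (Nat.totient e : ℝ)) * (if (e : ℤ) ∣ m then 1 else 0) =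
      ∑ e ∈ (sc_F N B t).filter (fun e : ℕ => (e : ℤ) ∣ m), 1 / (Nat.totient e : ℝ) := by
    rw [Finset.sum_filter]
    refine Finset.sum_congr rfl fun e _ => ?_
    split_ifs <;> simp
  rw [h4]
  unfold hs
  linarith

private theorem sc_F_mem {N B : ℕ} {t : ℝ} {e : ℕ} (he : e ∈ sc_F N B t) :
    0 < e ∧ e ≤ N ∧ Nat.Coprime e B ∧ 16 * t ≤ (e : ℝ) ∧ (max 1 t) ^ 3 ≤ (e : ℝ) := by
  classical
  unfold sc_F at he
  rw [Finset.mem_filter, Finset.mem_Icc] at he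
  exact ⟨he.1.1, he.1.2, he.2⟩

open Classical in
/-- pointwise bound for one pair -/
private theorem sc_point {C1 : ℝ} (hC1 : 1 ≤ C1) (H1 : ∀ (A : ℤ) (B : ℕ), 0 < B →
    IsCoprime A (B : ℤ) → ∀ (D : ℤ) (s : ℕ), 0 < s → ∀ (x M : ℝ), 1 / 16 ≤ M →
      1 / M * FB B s * ∑ n ∈ nC A B D s x (2 * M), hs B (16 * (max 1 M) ^ 3) (mm A B D n) ≤
        C1 * FY (Yc M) s)
    {γ : ℝ} {A : ℤ} {B : ℕ} (hB : 0 < B) (hAB : IsCoprime A (B : ℤ)) {q r : ℕ} (hq : 0 < q)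
    (hr : 0 < r) (hqr : q ≠ r) {δ : ℕ → ℝ} (hδq : 0 < δ q) (hδr : 0 < δ r) {t : ℝ} (ht0 : 0 < t)
    (ht : t ≤ MM δ q r) (ht2 : MM δ q r < 2 * t) {N : ℕ}
    (hN : ∀ n ∈ nC A B (DD q r) (qp q r * qp r q) ((DD q r : ℝ) * γ) (2 * MM δ q r),
      (mm A B (DD q r) n).natAbs ≤ N) :
    lam B q * lam B r * volume.real (AS γ A B (δ q) q ∩ AS γ A B (δ r) r) ≤
      2 * C1 * (wt δ q * wt δ r * FY (Yc (MM δ q r)) (qp q r * qp r q)) +
      (2 / t) * ∑ e ∈ sc_F N B t, (1 / (Nat.totient e : ℝ)) *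
        (if Edge γ A B δ t e q r then wt δ q * wt δ r * FB B (qp q r * qp r q) else 0) := by
  refine (overlap γ A B hB hAB q r hq hr hqr δ hδq hδr).trans ?_
  have hM0 : 0 < MM δ q r := sc_MM_pos hr hδq
  set NC := nC A B (DD q r) (qp q r * qp r q) ((DD q r : ℝ) * γ) (2 * MM δ q r) with hNC
  set M := MM δ q r with hM
  have hs0 : 0 < qp q r * qp r q := Nat.mul_pos (sc_qp_pos hq) (sc_qp_pos hr)
  set W := wt δ q * wt δ r with hW
  have hW0 : 0 ≤ W := mul_nonneg (sc_wt_nonneg hδq) (sc_wt_nonneg hδr)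
  have hFB := sc_FB_nonneg B (qp q r * qp r q)
  have hFY := sc_FY_nonneg (Yc M) (qp q r * qp r q)
  set E : ℝ := if 1 / 16 ≤ M then 16 * (max 1 M) ^ 3 else 0 with hE
  have hEE : ∀ e : ℕ, 0 < e → E < (e : ℝ) → 16 * t ≤ (e : ℝ) ∧ (max 1 t) ^ 3 ≤ (e : ℝ) := by
    intro e he0 he
    have he1 : (1 : ℝ) ≤ e := by exact_mod_cast he0
    by_cases h : 1 / 16 ≤ M
    · rw [hE, if_pos h] at he
      have h1 : (1 : ℝ) ≤ max 1 M := le_max_left _ _
      have h2 : M ≤ max 1 M := le_max_right _ _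
      have h3 : max 1 M ≤ (max 1 M) ^ 3 := le_self_pow₀ h1 (by norm_num)
      have h4 : (max 1 t) ^ 3 ≤ (max 1 M) ^ 3 :=
        pow_le_pow_left₀ (zero_le_one.trans (le_max_left _ _)) (max_le_max le_rfl ht) 3
      have h5 : 0 ≤ (max 1 M) ^ 3 := by positivity
      constructor <;> linarith
    · rw [not_le] at h
      refine ⟨by linarith, ?_⟩
      rw [max_eq_left (by linarith)]
      linarith [one_pow (M := ℝ) 3]
  have hsum : ∑ n ∈ NC, FB B (mm A B (DD q r) n).natAbs ≤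
      ∑ n ∈ NC, hs B E (mm A B (DD q r) n) +
        ∑ e ∈ sc_F N B t, (1 / (Nat.totient e : ℝ)) * (if Edge γ A B δ t e q r then 1 else 0) := by
    have h1 : ∀ n ∈ NC, FB B (mm A B (DD q r) n).natAbs ≤ hs B E (mm A B (DD q r) n) +
        ∑ e ∈ sc_F N B t, (1 / (Nat.totient e : ℝ)) *
          (if (e : ℤ) ∣ mm A B (DD q r) n then 1 else 0) := by
      intro n hn
      refine sc_split ?_ (hN n hn) hEE
      rw [hNC] at hn
      unfold nC at hn
      exact sc_mm_ne hqr (Finset.mem_filter.1 hn).2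
    refine (Finset.sum_le_sum h1).trans ?_
    rw [Finset.sum_add_distrib]
    refine add_le_add le_rfl ?_
    rw [Finset.sum_comm]
    refine Finset.sum_le_sum fun e he => ?_
    rw [← Finset.mul_sum]
    refine mul_le_mul_of_nonneg_left ?_ (by positivity)
    obtain ⟨he0, -, heB, he1, -⟩ := sc_F_mem he
    have h2 := sc_count (γ := γ) (A := A) (B := B) (δ := δ) (q := q) (r := r) ht ht2 he0 he1 heB hqr
    rw [← hNC] at h2
    refine le_trans (le_of_eq ?_) h2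
    rw [Finset.sum_ite, Finset.sum_const, Finset.sum_const_zero, add_zero, nsmul_eq_mul, mul_one]
  have hc0 : 0 ≤ 2 * wt δ q * wt δ r / M * FB B (qp q r * qp r q) := by
    have : 2 * wt δ q * wt δ r / M = 2 * W / M := by rw [hW]; ring
    rw [this]
    positivity
  refine (mul_le_mul_of_nonneg_left hsum hc0).trans ?_
  rw [mul_add]
  refine add_le_add ?_ ?_
  · by_cases h : 1 / 16 ≤ M
    · have h1 := H1 A B hB hAB (DD q r) (qp q r * qp r q) hs0 ((DD q r : ℝ) * γ) M h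
      rw [← hNC] at h1
      rw [hE, if_pos h]
      calc 2 * wt δ q * wt δ r / M * FB B (qp q r * qp r q) *
            ∑ n ∈ NC, hs B (16 * (max 1 M) ^ 3) (mm A B (DD q r) n)
          = 2 * W * (1 / M * FB B (qp q r * qp r q) *
            ∑ n ∈ NC, hs B (16 * (max 1 M) ^ 3) (mm A B (DD q r) n)) := by rw [hW]; ring
        _ ≤ 2 * W * (C1 * FY (Yc M) (qp q r * qp r q)) :=
            mul_le_mul_of_nonneg_left h1 (by positivity)
        _ = 2 * C1 * (W * FY (Yc M) (qp q r * qp r q)) := by ring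
    · rw [hE, if_neg h]
      have h1 : ∀ n ∈ NC, hs B 0 (mm A B (DD q r) n) = 0 := by
        intro n hn
        unfold hs
        refine Finset.sum_eq_zero fun e he => ?_
        exfalso
        rw [Finset.mem_filter] at he
        have h2 : 0 < e := by
          refine Nat.pos_of_ne_zero fun h0 => ?_
          rw [h0] at he
          exact (Nat.pos_of_mem_divisors he.1).ne' rfl
        have h3 : (0 : ℝ) < e := by exact_mod_cast h2
        linarith [he.2.2.2]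
      rw [Finset.sum_eq_zero h1, mul_zero]
      positivity
  · have h1 : 2 * wt δ q * wt δ r / M * FB B (qp q r * qp r q) ≤
        2 / t * (W * FB B (qp q r * qp r q)) := by
      have e1 : 2 * wt δ q * wt δ r / M * FB B (qp q r * qp r q) =
        2 / M * (W * FB B (qp q r * qp r q)) := by rw [hW]; ring
      rw [e1]
      exact mul_le_mul_of_nonneg_right (div_le_div_of_nonneg_left (by norm_num) ht0 ht)
        (mul_nonneg hW0 hFB)
    have h2 : 0 ≤ ∑ e ∈ sc_F N B t, (1 / (Nat.totient e : ℝ)) *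
        (if Edge γ A B δ t e q r then (1 : ℝ) else 0) :=
      Finset.sum_nonneg fun e _ => mul_nonneg (by positivity) (by split_ifs <;> norm_num)
    refine (mul_le_mul_of_nonneg_right h1 h2).trans (le_of_eq ?_)
    rw [mul_assoc, Finset.mul_sum]
    congr 1
    refine Finset.sum_congr rfl fun e _ => ?_
    split_ifs <;> ring

/-! ### geometric sums -/

private theorem sc_geom (c : ℝ) (hc : 0 < c) : ∃ G : ℝ, 0 ≤ G ∧ ∀ K : ℕ,
    ∑ i ∈ Finset.Icc (-(K : ℤ)) K, ((2 : ℝ) ^ (-c)) ^ i.natAbs ≤ G := by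
  set ρ : ℝ := (2 : ℝ) ^ (-c) with hρ
  have h0 : 0 < ρ := by positivity
  have h1 : ρ < 1 := Real.rpow_lt_one_of_one_lt_of_neg (by norm_num) (by linarith)
  refine ⟨(1 - ρ)⁻¹ + (1 - ρ)⁻¹, by
    have : 0 < (1 - ρ)⁻¹ := inv_pos.2 (by linarith)
    linarith, fun K => ?_⟩
  have hsub : Finset.Icc (-(K : ℤ)) K ⊆
      (Finset.range (K + 1)).image (fun j : ℕ => (j : ℤ)) ∪
      (Finset.range (K + 1)).image (fun j : ℕ => -(j : ℤ)) := by
    intro i hi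
    rw [Finset.mem_Icc] at hi
    rw [Finset.mem_union, Finset.mem_image, Finset.mem_image]
    rcases le_total 0 i with h | h
    · left
      exact ⟨i.toNat, Finset.mem_range.2 (by omega), by omega⟩
    · right
      exact ⟨(-i).toNat, Finset.mem_range.2 (by omega), by omega⟩
  have hnn : ∀ i : ℤ, 0 ≤ ρ ^ i.natAbs := fun i => by positivity
  refine (Finset.sum_le_sum_of_subset_of_nonneg hsub fun i _ _ => hnn i).trans ?_
  have h2 := Finset.sum_union_inter (s₁ := (Finset.range (K + 1)).image (fun j : ℕ => (j : ℤ)))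
    (s₂ := (Finset.range (K + 1)).image (fun j : ℕ => -(j : ℤ))) (f := fun i : ℤ => ρ ^ i.natAbs)
  have h3 : 0 ≤ ∑ i ∈ (Finset.range (K + 1)).image (fun j : ℕ => (j : ℤ)) ∩
      (Finset.range (K + 1)).image (fun j : ℕ => -(j : ℤ)), ρ ^ i.natAbs :=
    Finset.sum_nonneg fun i _ => hnn i
  have h4 : ∑ j ∈ Finset.range (K + 1), ρ ^ j ≤ (1 - ρ)⁻¹ := by
    rw [← tsum_geometric_of_lt_one h0.le h1]
    exact (summable_geometric_of_lt_one h0.le h1).sum_le_tsum _ fun j _ => by positivity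
  have h5 : ∑ i ∈ (Finset.range (K + 1)).image (fun j : ℕ => (j : ℤ)), ρ ^ i.natAbs =
      ∑ j ∈ Finset.range (K + 1), ρ ^ j := by
    rw [Finset.sum_image (fun a _ b _ h => by simpa using h)]
    exact Finset.sum_congr rfl fun j _ => by simp
  have h6 : ∑ i ∈ (Finset.range (K + 1)).image (fun j : ℕ => -(j : ℤ)), ρ ^ i.natAbs =
      ∑ j ∈ Finset.range (K + 1), ρ ^ j := by
    rw [Finset.sum_image (fun a _ b _ h => by simpa using h)]
    exact Finset.sum_congr rfl fun j _ => by simp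
  rw [h5, h6] at h2
  linarith

private theorem sc_pow_neg (c : ℝ) (i : ℤ) (hi : i ≤ 0) :
    ((2 : ℝ) ^ i) ^ c = ((2 : ℝ) ^ (-c)) ^ i.natAbs := by
  rw [← Real.rpow_intCast, ← Real.rpow_natCast, ← Real.rpow_mul (by norm_num),
    ← Real.rpow_mul (by norm_num)]
  congr 1
  have h : ((i.natAbs : ℕ) : ℝ) = -(i : ℝ) := by
    have h1 : ((i.natAbs : ℕ) : ℤ) = -i := by omega
    have h2 := congrArg (Int.cast : ℤ → ℝ) h1
    rwa [Int.cast_natCast, Int.cast_neg] at h2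
  rw [h]
  ring

private theorem sc_pow_pos (c : ℝ) (i : ℤ) (hi : 0 ≤ i) :
    ((2 : ℝ) ^ i) ^ (-c) = ((2 : ℝ) ^ (-c)) ^ i.natAbs := by
  rw [← Real.rpow_intCast, ← Real.rpow_natCast, ← Real.rpow_mul (by norm_num),
    ← Real.rpow_mul (by norm_num)]
  congr 1
  have h : ((i.natAbs : ℕ) : ℝ) = (i : ℝ) := by
    have h1 : ((i.natAbs : ℕ) : ℤ) = i := by omega
    have h2 := congrArg (Int.cast : ℤ → ℝ) h1
    rwa [Int.cast_natCast] at h2
  rw [h]
  ring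

private theorem sc_min (i : ℤ) : min (((2 : ℝ) ^ i) ^ (49 / 50 : ℝ)) (1 / (2 : ℝ) ^ i) ≤
    ((2 : ℝ) ^ (-(49 / 50 : ℝ))) ^ i.natAbs := by
  rcases le_total i 0 with h | h
  · refine (min_le_left _ _).trans (le_of_eq ?_)
    exact sc_pow_neg _ i h
  · refine (min_le_right _ _).trans ?_
    rw [← sc_pow_pos _ i h]
    have h1 : (1 : ℝ) ≤ (2 : ℝ) ^ i := one_le_zpow₀ (by norm_num) h
    rw [one_div, ← Real.rpow_neg_one]
    exact Real.rpow_le_rpow_of_exponent_le h1 (by norm_num)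

private theorem sc_big (c : ℝ) (hc : 0 < c) (i : ℤ) :
    ((2 : ℝ) ^ i) ^ c * ((max 1 ((2 : ℝ) ^ i)) ^ 3) ^ (-(c / 2)) ≤
      ((2 : ℝ) ^ (-(c / 2))) ^ i.natAbs := by
  rcases le_total i 0 with h | h
  · have h1 : (2 : ℝ) ^ i ≤ 1 := zpow_le_one_of_nonpos₀ (by norm_num) h
    rw [max_eq_left h1, one_pow, Real.one_rpow, mul_one]
    rw [← sc_pow_neg _ i h]
    exact Real.rpow_le_rpow_of_exponent_ge (by positivity) h1 (by linarith)
  · have h1 : (1 : ℝ) ≤ (2 : ℝ) ^ i := one_le_zpow₀ (by norm_num) h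
    rw [max_eq_right h1, ← sc_pow_pos _ i h]
    have h0 : (0 : ℝ) < (2 : ℝ) ^ i := by positivity
    rw [← Real.rpow_natCast, ← Real.rpow_mul h0.le, ← Real.rpow_add h0]
    refine le_of_eq ?_
    congr 1
    push_cast
    ring

private theorem sc_log {x : ℝ} (hx : 0 < x) (i : ℤ) :
    ((2 : ℝ) ^ i ≤ x ∧ x < 2 * (2 : ℝ) ^ i) ↔ i = Int.log 2 x := by
  have h1 : (2 : ℝ) ^ i ≤ x ↔ i ≤ Int.log 2 x := by
    have := Int.zpow_le_iff_le_log (b := 2) (by norm_num) hx (x := i)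
    simpa using this
  have h2 : x < 2 * (2 : ℝ) ^ i ↔ Int.log 2 x < i + 1 := by
    have := Int.lt_zpow_iff_log_lt (b := 2) (by norm_num) hx (x := i + 1)
    have e : (2 : ℝ) * (2 : ℝ) ^ i = (2 : ℝ) ^ (i + 1) := by
      rw [zpow_add₀ (by norm_num), zpow_one]
      ring
    rw [e]
    simpa using this
  rw [h1, h2]
  omega

/-! ### one dyadic range -/

open Classical in
private theorem sc_dyad {C2 c1 C4 : ℝ} (hC2 : 1 ≤ C2) {γ : ℝ} {A : ℤ} {B : ℕ} {δ : ℕ → ℝ}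
    {S : Finset ℕ} (hw : 0 ≤ ∑ q ∈ S, wt δ q)
    (H2 : ∀ (t : ℝ) (e : ℕ), 0 < t → 0 < e → Nat.Coprime e B → 1 ≤ (e : ℝ) / t →
        ∑ q ∈ S, ∑ r ∈ S, (if Edge γ A B δ t e q r then
          wt δ q * wt δ r * FB B (qp q r * qp r q) else 0) ≤
        C2 * t * (t / (e : ℝ)) ^ c1 * ∑ q ∈ S, wt δ q)
    (H4 : ∀ (n : ℕ) (E : ℝ), 1 ≤ E →
      ∑ e ∈ (Finset.Icc 1 n).filter (fun e : ℕ => E ≤ (e : ℝ)),
      (e : ℝ) ^ (-c1) / (Nat.totient e : ℝ) ≤ C4 * E ^ (-(c1 / 2)))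
    (N : ℕ) {t : ℝ} (ht : 0 < t) :
    (2 / t) * ∑ e ∈ sc_F N B t, (1 / (Nat.totient e : ℝ)) *
        ∑ q ∈ S, ∑ r ∈ S, (if Edge γ A B δ t e q r then
          wt δ q * wt δ r * FB B (qp q r * qp r q) else 0) ≤
      2 * C2 * C4 * (t ^ c1 * ((max 1 t) ^ 3) ^ (-(c1 / 2))) * ∑ q ∈ S, wt δ q := by
  set w := ∑ q ∈ S, wt δ q with hwdef
  have h1 : ∀ e ∈ sc_F N B t, (1 / (Nat.totient e : ℝ)) *
        ∑ q ∈ S, ∑ r ∈ S, (if Edge γ A B δ t e q r then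
          wt δ q * wt δ r * FB B (qp q r * qp r q) else 0) ≤
      (C2 * t * t ^ c1 * w) * ((e : ℝ) ^ (-c1) / (Nat.totient e : ℝ)) := by
    intro e he
    obtain ⟨he0, -, heB, he1, -⟩ := sc_F_mem he
    have he0' : (0 : ℝ) < e := by exact_mod_cast he0
    have h2 := H2 t e ht he0 heB (by rw [le_div_iff₀ ht]; linarith)
    refine (mul_le_mul_of_nonneg_left h2 (by positivity)).trans (le_of_eq ?_)
    rw [Real.div_rpow ht.le he0'.le, Real.rpow_neg he0'.le]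
    ring
  have h3 : ∑ e ∈ sc_F N B t, (e : ℝ) ^ (-c1) / (Nat.totient e : ℝ) ≤
      C4 * ((max 1 t) ^ 3) ^ (-(c1 / 2)) := by
    refine le_trans ?_ (H4 N ((max 1 t) ^ 3) (one_le_pow₀ (le_max_left _ _)))
    refine Finset.sum_le_sum_of_subset_of_nonneg ?_ fun e _ _ => by positivity
    intro e he
    obtain ⟨he0, he1, -, -, he2⟩ := sc_F_mem he
    rw [Finset.mem_filter, Finset.mem_Icc]
    exact ⟨⟨he0, he1⟩, he2⟩
  have h4 : 0 ≤ C2 * t * t ^ c1 * w := by positivity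
  calc (2 / t) * ∑ e ∈ sc_F N B t, (1 / (Nat.totient e : ℝ)) *
        ∑ q ∈ S, ∑ r ∈ S, (if Edge γ A B δ t e q r then
          wt δ q * wt δ r * FB B (qp q r * qp r q) else 0)
      ≤ (2 / t) * ∑ e ∈ sc_F N B t,
        (C2 * t * t ^ c1 * w) * ((e : ℝ) ^ (-c1) / (Nat.totient e : ℝ)) :=
        mul_le_mul_of_nonneg_left (Finset.sum_le_sum h1) (by positivity)
    _ = (2 / t) * ((C2 * t * t ^ c1 * w) *
        ∑ e ∈ sc_F N B t, (e : ℝ) ^ (-c1) / (Nat.totient e : ℝ)) := by rw [← Finset.mul_sum]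
    _ ≤ (2 / t) * ((C2 * t * t ^ c1 * w) * (C4 * ((max 1 t) ^ 3) ^ (-(c1 / 2)))) :=
        mul_le_mul_of_nonneg_left (mul_le_mul_of_nonneg_left h3 h4) (by positivity)
    _ = 2 * C2 * C4 * (t ^ c1 * ((max 1 t) ^ 3) ^ (-(c1 / 2))) * w := by
        field_simp

open Classical in
theorem same_class (ε0 c3 : ℝ) (hε : 0 < ε0) (hε1 : ε0 < 1) (hc3 : 0 < c3) (hc : c3 ≤ ε0 / 10) :
    ∃ C Z0 : ℝ, 1 ≤ C ∧ 2 ≤ Z0 ∧ ∀ (Z γ : ℝ) (A : ℤ) (B : ℕ) (δ : ℕ → ℝ) (S : Finset ℕ),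
      Z0 ≤ Z → Cls ε0 c3 Z γ A B δ S →
        ∑ q ∈ S, ∑ r ∈ S, (if q ≠ r then lam B q * lam B r *
          volume.real (AS γ A B (δ q) q ∩ AS γ A B (δ r) r) else 0) ≤
        C * ∑ q ∈ S, wt δ q := by
  obtain ⟨C1, hC1, H1⟩ := small_e 16 (by norm_num)
  obtain ⟨C2, Z0, c1, hC2, hZ0, hc1, hc1', H2⟩ := edge_est ε0 c3 hε hε1 hc3 hc
  obtain ⟨C3, hC3, H3⟩ := anat_sum
  obtain ⟨C4, hC4, H4⟩ := sum_inv_phi c1 hc1 (by linarith)
  obtain ⟨G1, hG1, HG1⟩ := sc_geom (49 / 50) (by norm_num)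
  obtain ⟨G2, hG2, HG2⟩ := sc_geom (c1 / 2) (by linarith)
  refine ⟨2 * C1 * C3 * (2 + G1) + 2 * C2 * C4 * G2, Z0, ?_, hZ0, ?_⟩
  · have h1 : 1 ≤ C1 * C3 := one_le_mul_of_one_le_of_one_le hC1 hC3
    have h2 : 0 ≤ C1 * C3 * G1 := by positivity
    have h3 : 0 ≤ 2 * C2 * C4 * G2 := by positivity
    nlinarith
  intro Z γ A B δ S hZ hcl
  have hpos := hcl.Spos
  have hδ : ∀ q ∈ S, 0 < δ q := by
    intro q hq
    have h1 : (0 : ℝ) < q := by exact_mod_cast hpos q hq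
    exact lt_of_lt_of_le (by positivity) (hcl.dlow q hq)
  have hwt : ∀ q ∈ S, 0 ≤ wt δ q := fun q hq => sc_wt_nonneg (hδ q hq)
  have hw : 0 ≤ ∑ q ∈ S, wt δ q := Finset.sum_nonneg hwt
  have hw2 := hcl.mass
  obtain ⟨N, hN⟩ : ∃ N : ℕ, ∀ q ∈ S, ∀ r ∈ S,
      ∀ n ∈ nC A B (DD q r) (qp q r * qp r q) ((DD q r : ℝ) * γ) (2 * MM δ q r),
      (mm A B (DD q r) n).natAbs ≤ N := by
    refine ⟨S.sup fun q => S.sup fun r =>
      (nC A B (DD q r) (qp q r * qp r q) ((DD q r : ℝ) * γ) (2 * MM δ q r)).sup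
        fun n => (mm A B (DD q r) n).natAbs, fun q hq r hr n hn => ?_⟩
    refine le_trans ?_ (Finset.le_sup (f := fun q => S.sup fun r =>
      (nC A B (DD q r) (qp q r * qp r q) ((DD q r : ℝ) * γ) (2 * MM δ q r)).sup
        fun n => (mm A B (DD q r) n).natAbs) hq)
    refine le_trans ?_ (Finset.le_sup (f := fun r =>
      (nC A B (DD q r) (qp q r * qp r q) ((DD q r : ℝ) * γ) (2 * MM δ q r)).sup
        fun n => (mm A B (DD q r) n).natAbs) hr)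
    exact Finset.le_sup (f := fun n => (mm A B (DD q r) n).natAbs) hn
  obtain ⟨K, hK⟩ : ∃ K : ℕ, ∀ q ∈ S, ∀ r ∈ S, (Int.log 2 (MM δ q r)).natAbs ≤ K := by
    refine ⟨S.sup fun q => S.sup fun r => (Int.log 2 (MM δ q r)).natAbs, fun q hq r hr => ?_⟩
    refine le_trans ?_ (Finset.le_sup (f := fun q => S.sup fun r =>
      (Int.log 2 (MM δ q r)).natAbs) hq)
    exact Finset.le_sup (f := fun r => (Int.log 2 (MM δ q r)).natAbs) hr
  set I := Finset.Icc (-(K : ℤ)) K with hI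
  -- the two dyadic terms
  set X1 : ℤ → ℕ → ℕ → ℝ := fun i q r =>
    if (2 : ℝ) ^ i ≤ MM δ q r ∧ MM δ q r < 2 * (2 : ℝ) ^ i then
      wt δ q * wt δ r * FY (Yc (MM δ q r)) (qp q r * qp r q) else 0 with hX1
  set X2 : ℤ → ℕ → ℕ → ℝ := fun i q r => (2 / (2 : ℝ) ^ i) * ∑ e ∈ sc_F N B ((2 : ℝ) ^ i),
    (1 / (Nat.totient e : ℝ)) * (if Edge γ A B δ ((2 : ℝ) ^ i) e q r then
      wt δ q * wt δ r * FB B (qp q r * qp r q) else 0) with hX2
  have hX1n : ∀ i, ∀ q ∈ S, ∀ r ∈ S, 0 ≤ X1 i q r := by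
    intro i q hq r hr
    simp only [hX1]
    split_ifs
    · exact mul_nonneg (mul_nonneg (hwt q hq) (hwt r hr)) (sc_FY_nonneg _ _)
    · exact le_rfl
  have hX2n : ∀ i, ∀ q ∈ S, ∀ r ∈ S, 0 ≤ X2 i q r := by
    intro i q hq r hr
    simp only [hX2]
    refine mul_nonneg (by positivity) (Finset.sum_nonneg fun e _ => mul_nonneg (by positivity) ?_)
    split_ifs
    · exact mul_nonneg (mul_nonneg (hwt q hq) (hwt r hr)) (sc_FB_nonneg _ _)
    · exact le_rfl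
  have hpt : ∀ q ∈ S, ∀ r ∈ S, (if q ≠ r then lam B q * lam B r *
      volume.real (AS γ A B (δ q) q ∩ AS γ A B (δ r) r) else 0) ≤
      ∑ i ∈ I, (2 * C1 * X1 i q r + X2 i q r) := by
    intro q hq r hr
    have hn : ∀ i ∈ I, 0 ≤ 2 * C1 * X1 i q r + X2 i q r := fun i _ =>
      add_nonneg (mul_nonneg (by positivity) (hX1n i q hq r hr)) (hX2n i q hq r hr)
    by_cases hqr : q ≠ r
    · rw [if_pos hqr]
      have hM0 : 0 < MM δ q r := sc_MM_pos (hpos r hr) (hδ q hq)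
      have hl := (sc_log hM0 (Int.log 2 (MM δ q r))).2 rfl
      have hmem : Int.log 2 (MM δ q r) ∈ I := by
        have h1 := hK q hq r hr
        rw [hI, Finset.mem_Icc]
        omega
      refine le_trans ?_ (Finset.single_le_sum hn hmem)
      have h2 := sc_point hC1 H1 hcl.Bpos hcl.cop (hpos q hq) (hpos r hr) hqr (hδ q hq) (hδ r hr)
        (γ := γ) (t := (2 : ℝ) ^ (Int.log 2 (MM δ q r))) (by positivity) hl.1 hl.2 (hN q hq r hr)
      simp only [hX1, hX2]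
      rw [if_pos hl]
      exact h2
    · rw [if_neg hqr]
      exact Finset.sum_nonneg hn
  have hstep1 : ∑ q ∈ S, ∑ r ∈ S, (if q ≠ r then lam B q * lam B r *
      volume.real (AS γ A B (δ q) q ∩ AS γ A B (δ r) r) else 0) ≤
      ∑ i ∈ I, (2 * C1 * (∑ q ∈ S, ∑ r ∈ S, X1 i q r) + ∑ q ∈ S, ∑ r ∈ S, X2 i q r) := by
    calc _ ≤ ∑ q ∈ S, ∑ r ∈ S, ∑ i ∈ I, (2 * C1 * X1 i q r + X2 i q r) :=
          Finset.sum_le_sum fun q hq => Finset.sum_le_sum fun r hr => hpt q hq r hr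
      _ = ∑ q ∈ S, ∑ i ∈ I, ∑ r ∈ S, (2 * C1 * X1 i q r + X2 i q r) :=
          Finset.sum_congr rfl fun q _ => Finset.sum_comm
      _ = ∑ i ∈ I, ∑ q ∈ S, ∑ r ∈ S, (2 * C1 * X1 i q r + X2 i q r) := Finset.sum_comm
      _ = _ := by
          refine Finset.sum_congr rfl fun i _ => ?_
          rw [Finset.mul_sum, ← Finset.sum_add_distrib]
          refine Finset.sum_congr rfl fun q _ => ?_
          rw [Finset.mul_sum, ← Finset.sum_add_distrib]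
  refine hstep1.trans ?_
  set w := ∑ q ∈ S, wt δ q with hwdef
  set Y : ℤ → ℕ → ℕ → ℝ := fun i q r =>
    if (2 : ℝ) ^ i ≤ MM δ q r ∧ MM δ q r < 2 * (2 : ℝ) ^ i then wt δ q * wt δ r else 0 with hY
  have hb1 : ∀ i, ∑ q ∈ S, ∑ r ∈ S, X1 i q r ≤
      C3 * (∑ q ∈ S, ∑ r ∈ S, Y i q r + ((2 : ℝ) ^ (-(49 / 50 : ℝ))) ^ i.natAbs * w) := by
    intro i
    have h1 := H3 S δ (fun q hq => ⟨hpos q hq, hδ q hq⟩) hw2 ((2 : ℝ) ^ i) (by positivity)
    refine h1.trans (mul_le_mul_of_nonneg_left ?_ (by linarith))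
    exact add_le_add le_rfl (mul_le_mul_of_nonneg_right (sc_min i) hw)
  have hb2 : ∀ i, ∑ q ∈ S, ∑ r ∈ S, X2 i q r ≤
      2 * C2 * C4 * (((2 : ℝ) ^ (-(c1 / 2))) ^ i.natAbs) * w := by
    intro i
    have h1 := sc_dyad (C4 := C4) hC2 hw (fun t e ht he heB h => H2 Z γ A B δ S hZ hcl t e ht he heB h)
      H4 N (t := (2 : ℝ) ^ i) (by positivity)
    have h2 : ∑ q ∈ S, ∑ r ∈ S, X2 i q r = (2 / (2 : ℝ) ^ i) * ∑ e ∈ sc_F N B ((2 : ℝ) ^ i),
        (1 / (Nat.totient e : ℝ)) * ∑ q ∈ S, ∑ r ∈ S, (if Edge γ A B δ ((2 : ℝ) ^ i) e q r then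
        wt δ q * wt δ r * FB B (qp q r * qp r q) else 0) := by
      simp only [hX2]
      simp only [← Finset.mul_sum]
      congr 1
      have e1 : ∀ q ∈ S, ∑ r ∈ S, ∑ e ∈ sc_F N B ((2 : ℝ) ^ i), (1 / (Nat.totient e : ℝ)) *
          (if Edge γ A B δ ((2 : ℝ) ^ i) e q r then
          wt δ q * wt δ r * FB B (qp q r * qp r q) else 0) =
          ∑ e ∈ sc_F N B ((2 : ℝ) ^ i), ∑ r ∈ S, (1 / (Nat.totient e : ℝ)) *
          (if Edge γ A B δ ((2 : ℝ) ^ i) e q r then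
          wt δ q * wt δ r * FB B (qp q r * qp r q) else 0) := fun q _ => Finset.sum_comm
      rw [Finset.sum_congr rfl e1, Finset.sum_comm]
      refine Finset.sum_congr rfl fun e _ => ?_
      rw [Finset.mul_sum]
      refine Finset.sum_congr rfl fun q _ => ?_
      rw [Finset.mul_sum]
    rw [h2]
    refine h1.trans (mul_le_mul_of_nonneg_right (mul_le_mul_of_nonneg_left (sc_big c1 hc1 i)
      (by positivity)) hw)
  have hYsum : ∑ i ∈ I, ∑ q ∈ S, ∑ r ∈ S, Y i q r ≤ 2 * w := by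
    have h1 : ∑ i ∈ I, ∑ q ∈ S, ∑ r ∈ S, Y i q r = ∑ q ∈ S, ∑ r ∈ S, ∑ i ∈ I, Y i q r := by
      rw [Finset.sum_comm]
      exact Finset.sum_congr rfl fun q _ => Finset.sum_comm
    have h2 : ∀ q ∈ S, ∀ r ∈ S, ∑ i ∈ I, Y i q r ≤ wt δ q * wt δ r := by
      intro q hq r hr
      have hM0 : 0 < MM δ q r := sc_MM_pos (hpos r hr) (hδ q hq)
      have h3 : ∀ i ∈ I, Y i q r = if i = Int.log 2 (MM δ q r) then wt δ q * wt δ r else 0 := by
        intro i _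
        simp only [hY, sc_log hM0 i]
      rw [Finset.sum_congr rfl h3, Finset.sum_ite_eq']
      split_ifs
      · exact le_rfl
      · exact mul_nonneg (hwt q hq) (hwt r hr)
    calc _ = ∑ q ∈ S, ∑ r ∈ S, ∑ i ∈ I, Y i q r := h1
      _ ≤ ∑ q ∈ S, ∑ r ∈ S, wt δ q * wt δ r :=
          Finset.sum_le_sum fun q hq => Finset.sum_le_sum fun r hr => h2 q hq r hr
      _ = w * w := by rw [hwdef, Finset.sum_mul_sum]
      _ ≤ 2 * w := mul_le_mul_of_nonneg_right hw2 hw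
  have hC1' : 0 ≤ 2 * C1 := by linarith
  clear_value w
  calc ∑ i ∈ I, (2 * C1 * (∑ q ∈ S, ∑ r ∈ S, X1 i q r) + ∑ q ∈ S, ∑ r ∈ S, X2 i q r)
      ≤ ∑ i ∈ I, (2 * C1 * (C3 * (∑ q ∈ S, ∑ r ∈ S, Y i q r +
          ((2 : ℝ) ^ (-(49 / 50 : ℝ))) ^ i.natAbs * w)) +
          2 * C2 * C4 * (((2 : ℝ) ^ (-(c1 / 2))) ^ i.natAbs) * w) :=
        Finset.sum_le_sum fun i _ => add_le_add (mul_le_mul_of_nonneg_left (hb1 i) hC1') (hb2 i)
    _ = 2 * C1 * C3 * (∑ i ∈ I, ∑ q ∈ S, ∑ r ∈ S, Y i q r) +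
          2 * C1 * C3 * w * (∑ i ∈ I, ((2 : ℝ) ^ (-(49 / 50 : ℝ))) ^ i.natAbs) +
          2 * C2 * C4 * w * ∑ i ∈ I, ((2 : ℝ) ^ (-(c1 / 2))) ^ i.natAbs := by
        rw [Finset.mul_sum, Finset.mul_sum, Finset.mul_sum, ← Finset.sum_add_distrib,
          ← Finset.sum_add_distrib]
        refine Finset.sum_congr rfl fun i _ => ?_
        ring
    _ ≤ 2 * C1 * C3 * (2 * w) + 2 * C1 * C3 * w * G1 + 2 * C2 * C4 * w * G2 := by
        refine add_le_add (add_le_add ?_ ?_) ?_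
        · exact mul_le_mul_of_nonneg_left hYsum (by positivity)
        · exact mul_le_mul_of_nonneg_left (HG1 K) (by positivity)
        · exact mul_le_mul_of_nonneg_left (HG2 K) (by positivity)
    _ = (2 * C1 * C3 * (2 + G1) + 2 * C2 * C4 * G2) * w := by ring

end Vale.Agent.P028E
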