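import Vale.Agent.Lib.P028.E.Defs
import Vale.Agent.Lib.P031.MertBase

/-!
P2b: products over primes in short ranges.

`small_prod`: `(1-1/p)⁻¹ = p/(p-1)`; compare with the telescoping product over all integers
`2 ≤ k ≤ Y`.
`gap_prod`: `(1-1/p)⁻¹ ≤ exp(2/p)`, and `∑_{y < p ≤ y^3} 1/p ≤ 10` from the first theorem of Mertens
(`Vale/Agent/Lib/P031/MertBase.lean`).
-/

open Finset MeasureTheory

namespace Vale.Agent.P028E

theorem sm_small_nat (N : ℕ) (hN : 1 ≤ N) : ∀ S : Finset ℕ, (∀ p ∈ S, 2 ≤ p ∧ p ≤ N) →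
    ∏ p ∈ S, (1 - 1 / (p : ℝ))⁻¹ ≤ N := by
  induction N, hN using Nat.le_induction with
  | base =>
    intro S hS
    have : S = ∅ := Finset.eq_empty_of_forall_notMem fun p hp => by
      have := hS p hp
      omega
    rw [this]
    simp
  | succ N hN ih =>
    intro S hS
    have hN0 : (0 : ℝ) < N := by exact_mod_cast hN
    by_cases hmem : N + 1 ∈ S
    · rw [← Finset.mul_prod_erase S _ hmem]
      have h1 := ih (S.erase (N + 1)) (by
        intro p hp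
        rw [Finset.mem_erase] at hp
        have := hS p hp.2
        omega)
      have h2 : (1 - 1 / ((N + 1 : ℕ) : ℝ))⁻¹ = ((N : ℝ) + 1) / N := by
        push_cast
        rw [one_sub_div (by positivity), add_sub_cancel_right, inv_div]
      rw [h2]
      calc ((N : ℝ) + 1) / N * ∏ p ∈ S.erase (N + 1), (1 - 1 / (p : ℝ))⁻¹ ≤
          ((N : ℝ) + 1) / N * N := mul_le_mul_of_nonneg_left h1 (by positivity)
        _ = ((N + 1 : ℕ) : ℝ) := by
          push_cast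
          field_simp
    · have h1 := ih S (by
        intro p hp
        have := hS p hp
        have h3 : p ≠ N + 1 := fun h => hmem (h ▸ hp)
        omega)
      push_cast
      linarith

theorem small_prod (Y : ℝ) (hY : 1 ≤ Y) (S : Finset ℕ) (hS : ∀ p ∈ S, p.Prime ∧ (p : ℝ) ≤ Y) :
    ∏ p ∈ S, (1 - 1 / (p : ℝ))⁻¹ ≤ Y := by
  have h1 : 1 ≤ ⌊Y⌋₊ := Nat.le_floor (by exact_mod_cast hY)
  refine (sm_small_nat ⌊Y⌋₊ h1 S ?_).trans (Nat.floor_le (by linarith))
  intro p hp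
  exact ⟨(hS p hp).1.two_le, Nat.le_floor (hS p hp).2⟩

theorem sm_factor (p : ℕ) (hp : 2 ≤ p) : (1 - 1 / (p : ℝ))⁻¹ ≤ Real.exp (2 * (1 / (p : ℝ))) := by
  have hp2 : (2 : ℝ) ≤ p := by exact_mod_cast hp
  have hx : 1 / (p : ℝ) ≤ 1 / 2 := one_div_le_one_div_of_le (by norm_num) hp2
  have hx0 : 0 < 1 / (p : ℝ) := by positivity
  have h1 := Real.add_one_le_exp (2 * (1 / (p : ℝ)))
  refine le_trans ?_ h1
  rw [inv_le_iff_one_le_mul₀ (by linarith)]
  nlinarith

theorem gap_prod : ∃ C : ℝ, 1 ≤ C ∧ ∀ (y : ℝ), 2 ≤ y → ∀ S : Finset ℕ,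
    (∀ p ∈ S, p.Prime ∧ y < (p : ℝ) ∧ (p : ℝ) ≤ y ^ 3) →
      ∏ p ∈ S, (1 - 1 / (p : ℝ))⁻¹ ≤ C := by
  refine ⟨Real.exp 20, Real.one_le_exp (by norm_num), ?_⟩
  intro y hy S hS
  have hy0 : (0 : ℝ) < y := by linarith
  have hlog2 := Real.log_two_gt_d9
  have hlog2' := Real.log_two_lt_d9
  have hly : Real.log 2 ≤ Real.log y := Real.log_le_log (by norm_num) hy
  have hNy : 2 ≤ ⌊y⌋₊ := Nat.le_floor (by exact_mod_cast hy)
  have hNz : 1 ≤ ⌊y ^ 3⌋₊ := Nat.le_floor (by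
    have : (1 : ℝ) ≤ y ^ 3 := one_le_pow₀ (by linarith)
    exact_mod_cast this)
  have hup := Vale.Agent.Lib.P031.Mertens.mertens_upper hNz
  have hlo := Vale.Agent.Lib.P031.Mertens.mertens_lower (N := ⌊y⌋₊) (by omega)
  have hyle : y / 2 ≤ (⌊y⌋₊ : ℝ) := by
    have := Nat.lt_floor_add_one y
    have h2 : (2 : ℝ) ≤ ⌊y⌋₊ := by exact_mod_cast hNy
    linarith
  have hlNy : Real.log y - Real.log 2 ≤ Real.log (⌊y⌋₊ : ℝ) := by
    rw [← Real.log_div (by linarith) (by norm_num)]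
    exact Real.log_le_log (by linarith) hyle
  have hlNz : Real.log (⌊y ^ 3⌋₊ : ℝ) ≤ 3 * Real.log y := by
    have h3 : Real.log (y ^ 3) = 3 * Real.log y := by
      rw [Real.log_pow]; norm_num
    rw [← h3]
    exact Real.log_le_log (by exact_mod_cast hNz) (Nat.floor_le (by positivity))
  have hdisj : Disjoint S (Nat.primesLE ⌊y⌋₊) := by
    rw [Finset.disjoint_left]
    intro p hp hp2
    have h1 := (hS p hp).2.1
    have h2 : p ≤ ⌊y⌋₊ := (Nat.mem_primesLE.1 hp2).1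
    have h3 : (p : ℝ) ≤ y := (Nat.le_floor_iff hy0.le).1 h2
    linarith
  have hsub : S ∪ Nat.primesLE ⌊y⌋₊ ⊆ Nat.primesLE ⌊y ^ 3⌋₊ := by
    intro p hp
    rw [Finset.mem_union] at hp
    rw [Nat.mem_primesLE]
    rcases hp with hp | hp
    · exact ⟨Nat.le_floor (hS p hp).2.2, (hS p hp).1⟩
    · rw [Nat.mem_primesLE] at hp
      refine ⟨hp.1.trans (Nat.floor_le_floor ?_), hp.2⟩
      nlinarith [sq_nonneg y]
  have hsum : ∑ p ∈ S, Real.log p / p + Vale.Agent.Lib.P031.Mertens.mertensA ⌊y⌋₊ ≤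
      Vale.Agent.Lib.P031.Mertens.mertensA ⌊y ^ 3⌋₊ := by
    unfold Vale.Agent.Lib.P031.Mertens.mertensA
    rw [← Finset.sum_union hdisj]
    refine Finset.sum_le_sum_of_subset_of_nonneg hsub fun p hp _ => ?_
    have : (1 : ℝ) ≤ p := by exact_mod_cast (Nat.mem_primesLE.1 hp).2.one_le
    have := Real.log_nonneg this
    positivity
  have h4 : Real.log 4 = 2 * Real.log 2 := by
    have : (4 : ℝ) = 2 ^ 2 := by norm_num
    rw [this, Real.log_pow]; norm_num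
  have hlow : Real.log y * ∑ p ∈ S, 1 / (p : ℝ) ≤ ∑ p ∈ S, Real.log p / p := by
    rw [Finset.mul_sum]
    refine Finset.sum_le_sum fun p hp => ?_
    have h1 := (hS p hp).2.1
    have h2 : Real.log y ≤ Real.log p := Real.log_le_log hy0 h1.le
    rw [mul_one_div]
    exact div_le_div_of_nonneg_right h2 (by linarith)
  have hS10 : ∑ p ∈ S, 1 / (p : ℝ) ≤ 10 := by
    have hpos : 0 < Real.log y := by linarith
    have : Real.log y * ∑ p ∈ S, 1 / (p : ℝ) ≤ Real.log y * 10 := by linarith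
    exact le_of_mul_le_mul_left this hpos
  calc ∏ p ∈ S, (1 - 1 / (p : ℝ))⁻¹ ≤ ∏ p ∈ S, Real.exp (2 * (1 / (p : ℝ))) := by
        refine Finset.prod_le_prod (fun p hp => ?_) fun p hp => sm_factor p (hS p hp).1.two_le
        have hp2 : (2 : ℝ) ≤ p := by exact_mod_cast (hS p hp).1.two_le
        have hx : 1 / (p : ℝ) ≤ 1 / 2 := one_div_le_one_div_of_le (by norm_num) hp2
        exact inv_nonneg.2 (by linarith)
    _ = Real.exp (2 * ∑ p ∈ S, 1 / (p : ℝ)) := by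
        rw [← Real.exp_sum, Finset.mul_sum]
    _ ≤ Real.exp 20 := Real.exp_le_exp.2 (by linarith)

end Vale.Agent.P028E
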