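import Vale.Agent.Lib.P028.E.Defs
import Vale.Agent.Lib.P028.Sieve

/-!
P2c: sieve in an arithmetic progression.

`e` is coprime to `B`, so `e ∣ n B - A D` is one residue class `n = n₀ + e k`; for these `n` the value
is `(e B) k + (n₀ B - A D)`, and `Vale.Agent.P028.legendre` (with `Phi (e B) (n₀ B - A D) P k`,
coprimality `IsCoprime (e B) p`) counts the `k` in the integer interval `Ico u v` of the `k` with
`|n₀ + e k - x| < L`, whose length satisfies `v - u ≤ 2L/e + 1`.
-/

open Finset MeasureTheory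

namespace Vale.Agent.P028E

open Classical in
theorem sieve_ap (A : ℤ) (B : ℕ) (hB : 0 < B) (D : ℤ) (e : ℕ) (he : 0 < e)
    (heB : Nat.Coprime e B) (P : Finset ℕ) (hP : ∀ p ∈ P, p.Prime ∧ ¬ p ∣ B ∧ ¬ p ∣ e) (x L : ℝ)
    (hL : 0 ≤ L) :
    (((nS x L).filter (fun n => (e : ℤ) ∣ mm A B D n ∧ ∀ p ∈ P, ¬ (p : ℤ) ∣ mm A B D n)).card : ℝ) ≤
      (2 * L / e + 1) * ∏ p ∈ P, (1 - 1 / (p : ℝ)) + 2 ^ (P.card + 1) := by
  have heZ : (0 : ℤ) < e := by exact_mod_cast he
  have heR : (0 : ℝ) < e := by exact_mod_cast he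
  obtain ⟨a, b, hab⟩ : IsCoprime (e : ℤ) (B : ℤ) := Nat.isCoprime_iff_coprime.2 heB
  -- the residue class
  set n₀ : ℤ := A * D * b with hn₀
  have hdvd : ∀ n : ℤ, (e : ℤ) ∣ mm A B D n → ∃ k : ℤ, n = n₀ + e * k := by
    intro n hn
    obtain ⟨l, hl⟩ := hn
    refine ⟨a * n + b * l, ?_⟩
    have h1 : mm A B D n = n * B - A * D := rfl
    rw [h1] at hl
    rw [hn₀]
    linear_combination (-n) * hab + b * hl
  set c : ℝ := (x - n₀) / e with hc
  set u : ℤ := ⌊c - L / e⌋ + 1 with hu
  set v : ℤ := ⌈c + L / e⌉ with hv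
  have hLe : 0 ≤ L / e := div_nonneg hL heR.le
  set Q : ℝ := ∏ p ∈ P, (1 - 1 / (p : ℝ)) with hQ
  have hQ0 : 0 ≤ Q := by
    apply Finset.prod_nonneg
    intro r hr
    have h1 : (1 : ℝ) ≤ r := by exact_mod_cast (hP r hr).1.one_lt.le
    have h2 : 1 / (r : ℝ) ≤ 1 := by rw [div_le_one (by linarith)]; exact h1
    linarith
  have hsub : (nS x L).filter (fun n => (e : ℤ) ∣ mm A B D n ∧ ∀ p ∈ P, ¬ (p : ℤ) ∣ mm A B D n) ⊆
      ((Ico u v).filter (fun k => Vale.Agent.P028.Phi (e * B) (n₀ * B - A * D) P k)).image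
        (fun k => n₀ + e * k) := by
    intro n hn
    rw [Finset.mem_filter] at hn
    obtain ⟨hn1, hn2, hn3⟩ := hn
    obtain ⟨k, rfl⟩ := hdvd n hn2
    rw [Finset.mem_image]
    refine ⟨k, ?_, rfl⟩
    unfold nS at hn1
    have h1 := (Finset.mem_filter.1 hn1).2
    rw [abs_lt] at h1
    push_cast at h1
    rw [Finset.mem_filter, Finset.mem_Ico]
    have hck : (k : ℝ) - c = ((n₀ : ℝ) + e * k - x) / e := by
      rw [hc]
      field_simp
      ring
    have hk1 : -(L / e) < (k : ℝ) - c := by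
      rw [hck, ← neg_div, div_lt_div_iff_of_pos_right heR]
      exact h1.1
    have hk2 : (k : ℝ) - c < L / e := by
      rw [hck, div_lt_div_iff_of_pos_right heR]
      exact h1.2
    refine ⟨⟨?_, ?_⟩, ?_⟩
    · rw [hu, Int.add_one_le_iff, Int.floor_lt]
      linarith
    · rw [hv, Int.lt_ceil]
      linarith
    · intro p hp hpd
      refine hn3 p hp ?_
      have h2 : mm A B D (n₀ + e * k) = (e : ℤ) * B * k + (n₀ * B - A * D) := by
        unfold mm
        ring
      rw [h2]
      exact hpd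
  have hcard : (((nS x L).filter
      (fun n => (e : ℤ) ∣ mm A B D n ∧ ∀ p ∈ P, ¬ (p : ℤ) ∣ mm A B D n)).card : ℝ) ≤
      (((Ico u v).filter (fun k => Vale.Agent.P028.Phi (e * B) (n₀ * B - A * D) P k)).card : ℝ) := by
    exact_mod_cast (Finset.card_le_card hsub).trans Finset.card_image_le
  refine hcard.trans ?_
  have h2P : (0 : ℝ) ≤ 2 ^ (P.card + 1) := by positivity
  have hRHS : 0 ≤ (2 * L / e + 1) * Q := by
    refine mul_nonneg ?_ hQ0
    have : 0 ≤ 2 * L / e := div_nonneg (by linarith) heR.le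
    linarith
  rcases le_or_gt u v with huv | huv
  · have hleg := Vale.Agent.P028.legendre P ((e : ℤ) * B) (n₀ * B - A * D) (fun p hp => (hP p hp).1)
      (fun p hp => ?_) u v huv
    · have h3 := (abs_le.1 hleg).2
      have h4 : ((v - u : ℤ) : ℝ) ≤ 2 * L / e + 1 := by
        push_cast
        have h5 : (v : ℝ) < c + L / e + 1 := Int.ceil_lt_add_one _
        have h6 : c - L / e < (u : ℝ) := by
          rw [hu]
          push_cast
          exact Int.lt_floor_add_one _
        have h7 : 2 * L / e = L / e + L / e := by ring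
        rw [h7]
        linarith
      have h5 := mul_le_mul_of_nonneg_right h4 hQ0
      have h6 : (((Ico u v).filter (fun k => Vale.Agent.P028.Phi (e * B) (n₀ * B - A * D) P k)).card : ℝ) =
        ((#{a ∈ Ico u v | Vale.Agent.P028.Phi (e * B) (n₀ * B - A * D) P a} : ℕ) : ℝ) := by
        congr!
      rw [h6]
      linarith
    · have hpp := (hP p hp).1
      have h1 : Nat.Coprime (e * B) p := by
        rw [Nat.coprime_comm, Nat.Prime.coprime_iff_not_dvd hpp, hpp.dvd_mul]
        rintro (h | h)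
        · exact (hP p hp).2.2 h
        · exact (hP p hp).2.1 h
      have h2 := Nat.isCoprime_iff_coprime.2 h1
      push_cast at h2
      exact h2
  · have h1 : Ico u v = ∅ := Finset.Ico_eq_empty (by omega)
    rw [h1, Finset.filter_empty, Finset.card_empty]
    push_cast
    linarith

end Vale.Agent.P028E
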