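import Vale.Agent.Lib.P028.E.SePhi
import Vale.Agent.Lib.P028.E.SeMert
import Vale.Agent.Lib.P028.E.SeSieve

/-!
P2d: pieces of the pointwise bound.

`swap_sum`: `hs` is a sum over `e ∣ m` (`m = mm A B D n`); swap the sums over `n` and `e`.  If some
`n ∈ nC` has `e ∣ m`, then `e` is coprime to `s` (`m` is), so only such `e` are needed; `m = 0` gives
`hs = 0`.  Every `e ≤ E` is in `Icc 1 ⌊E⌋₊`.

`nC_count`: for `e` coprime to `B` and `s`, `P` a set of primes `p ∣ s`, `p ∤ B`: `sieve_ap`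
(`p ∤ e` since `e`, `s` are coprime; `n ∈ nC` implies `p ∤ m`).
-/

open Finset MeasureTheory

namespace Vale.Agent.P028E

private theorem SeLarge_coprime_of_dvd {m : ℤ} {s e : ℕ} (hm : IsCoprime m (s : ℤ))
    (he : e ∣ m.natAbs) : Nat.Coprime e s := by
  have h1 : Nat.Coprime m.natAbs s := by
    have := Int.isCoprime_iff_gcd_eq_one.mp hm
    rwa [Int.gcd_eq_natAbs, Int.natAbs_natCast] at this
  exact Nat.Coprime.coprime_dvd_left he h1

open Classical in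
theorem swap_sum (A : ℤ) (B : ℕ) (D : ℤ) (s : ℕ) (hs0 : 0 < s) (x L E : ℝ) :
    ∑ n ∈ nC A B D s x L, hs B E (mm A B D n) ≤
      ∑ e ∈ (Finset.Icc 1 ⌊E⌋₊).filter (fun e : ℕ => Nat.Coprime e B ∧ Nat.Coprime e s),
        (1 / (Nat.totient e : ℝ)) *
          (((nC A B D s x L).filter (fun n => (e : ℤ) ∣ mm A B D n)).card : ℝ) := by
  have h1 : ∑ e ∈ (Finset.Icc 1 ⌊E⌋₊).filter (fun e : ℕ => Nat.Coprime e B ∧ Nat.Coprime e s),
        (1 / (Nat.totient e : ℝ)) *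
          (((nC A B D s x L).filter (fun n => (e : ℤ) ∣ mm A B D n)).card : ℝ)
      = ∑ n ∈ nC A B D s x L, ∑ e ∈ ((Finset.Icc 1 ⌊E⌋₊).filter
          (fun e : ℕ => Nat.Coprime e B ∧ Nat.Coprime e s)).filter
            (fun e : ℕ => (e : ℤ) ∣ mm A B D n), 1 / (Nat.totient e : ℝ) := by
    have h2 : ∀ e ∈ (Finset.Icc 1 ⌊E⌋₊).filter (fun e : ℕ => Nat.Coprime e B ∧ Nat.Coprime e s),
        (1 / (Nat.totient e : ℝ)) *
          (((nC A B D s x L).filter (fun n => (e : ℤ) ∣ mm A B D n)).card : ℝ)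
        = ∑ n ∈ nC A B D s x L, if (e : ℤ) ∣ mm A B D n then 1 / (Nat.totient e : ℝ) else 0 := by
      intro e _
      rw [← Finset.sum_filter, Finset.sum_const, nsmul_eq_mul, mul_comm]
    rw [Finset.sum_congr rfl h2, Finset.sum_comm]
    refine Finset.sum_congr rfl fun n _ => ?_
    rw [← Finset.sum_filter]
  rw [h1]
  refine Finset.sum_le_sum fun n hn => ?_
  have hcop : IsCoprime (mm A B D n) (s : ℤ) := (Finset.mem_filter.mp hn).2
  unfold hs
  refine Finset.sum_le_sum_of_subset_of_nonneg ?_ fun e _ _ => by positivity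
  intro e he
  obtain ⟨he1, -, he3, he4⟩ := Finset.mem_filter.mp he
  have he5 : e ∣ (mm A B D n).natAbs := Nat.dvd_of_mem_divisors he1
  have he6 : 0 < e := Nat.pos_of_mem_divisors he1
  refine Finset.mem_filter.mpr ⟨Finset.mem_filter.mpr ⟨Finset.mem_Icc.mpr ⟨he6, Nat.le_floor he4⟩,
    he3, SeLarge_coprime_of_dvd hcop he5⟩, Int.natCast_dvd.mpr he5⟩

open Classical in
theorem nC_count (A : ℤ) (B : ℕ) (hB : 0 < B) (D : ℤ) (s : ℕ) (hs0 : 0 < s) (e : ℕ) (he : 0 < e)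
    (heB : Nat.Coprime e B) (hes : Nat.Coprime e s) (P : Finset ℕ)
    (hP : ∀ p ∈ P, p.Prime ∧ ¬ p ∣ B ∧ p ∣ s) (x L : ℝ) (hL : 0 ≤ L) :
    (((nC A B D s x L).filter (fun n => (e : ℤ) ∣ mm A B D n)).card : ℝ) ≤
      (2 * L / e + 1) * ∏ p ∈ P, (1 - 1 / (p : ℝ)) + 2 ^ (P.card + 1) := by
  have h1 := sieve_ap A B hB D e he heB P (fun p hp => ⟨(hP p hp).1, (hP p hp).2.1, fun hpe =>
    (hP p hp).1.one_lt.ne' (Nat.eq_one_of_dvd_coprimes hes hpe (hP p hp).2.2)⟩) x L hL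
  refine le_trans ?_ h1
  refine Nat.cast_le.mpr (Finset.card_le_card ?_)
  intro n hn
  obtain ⟨hn1, hn2⟩ := Finset.mem_filter.mp hn
  obtain ⟨hn3, hn4⟩ := Finset.mem_filter.mp hn1
  refine Finset.mem_filter.mpr ⟨hn3, hn2, fun p hp hpm => ?_⟩
  have h2 : p ∣ (mm A B D n).natAbs := Int.natCast_dvd.mp hpm
  have h3 : Nat.Coprime p s := SeLarge_coprime_of_dvd hn4 h2
  exact (hP p hp).1.one_lt.ne' (Nat.eq_one_of_dvd_coprimes h3 dvd_rfl (hP p hp).2.2)

end Vale.Agent.P028E
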