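import Vale.Agent.Lib.P028.E.SeLarge

/-!
P2e: large `M`.

`fb_le`: `FB B s = ∏_{p ∈ P}(1-1/p)⁻¹ * ∏_{p∣s, p∤B, y<p≤Yc M} * ∏_{p∣s,p∤B,p>Yc M}` with
`P = {p ∣ s, p ∤ B, p ≤ y}`, `y = (log M)/4`; the middle product is `≤ C` by `gap_prod`
(`Yc M = 4 + log(2+M)^2 ≤ y^3` for `M ≥ exp 400`), the last one `≤ FY (Yc M) s`.

`sum_large`: `swap_sum`, then `nC_count` with `L = 2M`:
* `e ≤ √M`: with this `P`: `(4M/e + 1) ∏_P (1-1/p) + 2^(#P+1) ≤ (5M/e) ∏_P + 2^(y+1)` (`#P ≤ y`), sum over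
  `e` with weight `1/φ(e)`: `≤ 5 M ∏_P * ∑ 1/(eφ(e)) + 2^(y+1) * C (√M)^(1/16)`;
* `e > √M`: with `P = ∅`: `4M/e + 3`, sum `≤ 4M C (√M)^(-1/4) + 3 C (T0 M^3)^(1/16)`.
So the sum is `≤ C M ∏_P (1-1/p) + C M^(7/8) (1 + T0)` (`2^(y+1) ≤ 2 M^(1/5)`, since `log 2/4 ≤ 1/5`).
-/

open Finset MeasureTheory

namespace Vale.Agent.P028E

open Classical in
private theorem SeMain_lift (s : Finset ℕ) :
    (do let a ← s; pure (a : ℝ)) = s.image (fun a : ℕ => (a : ℝ)) := by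
  ext x
  simp only [Finset.bind_def, Finset.pure_def, Finset.mem_sup, Finset.mem_singleton,
    Finset.mem_image]
  constructor
  · rintro ⟨a, ha, h⟩
    exact ⟨a, ha, h.symm⟩
  · rintro ⟨a, ha, h⟩
    exact ⟨a, ha, h.symm⟩

open Classical in
private theorem SeMain_FY_eq (Y : ℝ) (n : ℕ) :
    FY Y n = ∏ p ∈ n.primeFactors.filter (fun p : ℕ => Y < (p : ℝ)), (1 - 1 / (p : ℝ))⁻¹ := by
  unfold FY
  rw [SeMain_lift, Finset.filter_image, Finset.prod_image]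
  exact fun x _ y _ h => Nat.cast_injective h

private theorem SeMain_factor {p : ℕ} (hp : p.Prime) : 1 ≤ (1 - 1 / (p : ℝ))⁻¹ := by
  have h2 : (2 : ℝ) ≤ p := by exact_mod_cast hp.two_le
  have h3 : 1 / (p : ℝ) ≤ 1 / 2 := one_div_le_one_div_of_le (by norm_num) h2
  have h4 : 0 < 1 / (p : ℝ) := by positivity
  exact (one_le_inv₀ (by linarith)).mpr (by linarith)

private theorem SeMain_one_le {S : Finset ℕ} (hS : ∀ p ∈ S, p.Prime) :
    1 ≤ ∏ p ∈ S, (1 - 1 / (p : ℝ))⁻¹ :=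
  Finset.prod_induction _ (fun x : ℝ => 1 ≤ x) (fun _ _ h1 h2 => one_le_mul_of_one_le_of_one_le h1 h2)
    le_rfl (fun p hp => SeMain_factor (hS p hp))

private theorem SeMain_mono {S T : Finset ℕ} (hT : ∀ p ∈ T, p.Prime) (hST : S ⊆ T) :
    ∏ p ∈ S, (1 - 1 / (p : ℝ))⁻¹ ≤ ∏ p ∈ T, (1 - 1 / (p : ℝ))⁻¹ := by
  rw [← Finset.prod_sdiff hST]
  have h1 := SeMain_one_le (S := T \ S) (fun p hp => hT p (Finset.sdiff_subset hp))
  have h2 := SeMain_one_le (S := S) (fun p hp => hT p (hST hp))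
  nlinarith

private theorem SeMain_log {M : ℝ} (hM : Real.exp 400 ≤ M) : 400 ≤ Real.log M := by
  rw [← Real.log_exp 400]
  exact Real.log_le_log (Real.exp_pos _) hM

private theorem SeMain_M {M : ℝ} (hM : Real.exp 400 ≤ M) : 401 ≤ M := by
  have := Real.add_one_le_exp (400 : ℝ)
  linarith

open Classical in
theorem fb_le : ∃ C : ℝ, 1 ≤ C ∧ ∀ (B s : ℕ) (M : ℝ), 0 < s → Real.exp 400 ≤ M →
    FB B s ≤ C * FY (Yc M) s *
      ∏ p ∈ s.primeFactors.filter (fun p => ¬ p ∣ B ∧ (p : ℝ) ≤ Real.log M / 4), (1 - 1 / (p : ℝ))⁻¹ := by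
  obtain ⟨C, hC, hgap⟩ := gap_prod
  refine ⟨C, hC, fun B s M hs hM => ?_⟩
  have hlog := SeMain_log hM
  have hM1 := SeMain_M hM
  set y : ℝ := Real.log M / 4 with hy
  have hy100 : 100 ≤ y := by rw [hy]; linarith
  have hYc : Yc M ≤ y ^ 3 := by
    unfold Yc
    have h1 : Real.log (2 + M) ≤ 8 * y := by
      have h2 : 2 + M ≤ M ^ 2 := by nlinarith
      have h3 := Real.log_le_log (by linarith) h2
      rw [Real.log_pow] at h3
      rw [hy]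
      push_cast at h3
      linarith
    have h2 : 0 ≤ Real.log (2 + M) := Real.log_nonneg (by linarith)
    have h3 : Real.log (2 + M) ^ 2 ≤ (8 * y) ^ 2 := pow_le_pow_left₀ h2 h1 2
    nlinarith [sq_nonneg y, mul_nonneg (sub_nonneg.mpr hy100) (sq_nonneg y)]
  have hpr : ∀ p ∈ s.primeFactors, p.Prime := fun p hp => Nat.prime_of_mem_primeFactors hp
  set S := s.primeFactors.filter (fun p => ¬ p ∣ B) with hS
  have hSp : ∀ p ∈ S, p.Prime := fun p hp => hpr p (Finset.mem_filter.mp hp).1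
  have e1 : S.filter (fun p : ℕ => (p : ℝ) ≤ y) =
      s.primeFactors.filter (fun p : ℕ => ¬ p ∣ B ∧ (p : ℝ) ≤ y) := by
    rw [hS, Finset.filter_filter]
  have e2 := Finset.prod_filter_mul_prod_filter_not S (fun p : ℕ => (p : ℝ) ≤ y)
    (fun p : ℕ => (1 - 1 / (p : ℝ))⁻¹)
  set S2 := S.filter (fun p : ℕ => ¬ (p : ℝ) ≤ y) with hS2
  have hS2p : ∀ p ∈ S2, p.Prime := fun p hp => hSp p (Finset.mem_filter.mp hp).1
  have e3 := Finset.prod_filter_mul_prod_filter_not S2 (fun p : ℕ => (p : ℝ) ≤ Yc M)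
    (fun p : ℕ => (1 - 1 / (p : ℝ))⁻¹)
  have h4 : ∏ p ∈ S2.filter (fun p : ℕ => (p : ℝ) ≤ Yc M), (1 - 1 / (p : ℝ))⁻¹ ≤ C := by
    refine hgap y (by linarith) _ fun p hp => ?_
    obtain ⟨h5, h6⟩ := Finset.mem_filter.mp hp
    exact ⟨hS2p p h5, not_le.mp (Finset.mem_filter.mp h5).2, h6.trans hYc⟩
  have h5 : ∏ p ∈ S2.filter (fun p : ℕ => ¬ (p : ℝ) ≤ Yc M), (1 - 1 / (p : ℝ))⁻¹ ≤ FY (Yc M) s := by
    rw [SeMain_FY_eq]
    refine SeMain_mono ?_ ?_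
    · intro p hp
      exact hpr p (Finset.mem_filter.mp hp).1
    · intro p hp
      obtain ⟨h5, h6⟩ := Finset.mem_filter.mp hp
      have h7 : p ∈ S := (Finset.mem_filter.mp h5).1
      exact Finset.mem_filter.mpr ⟨(Finset.mem_filter.mp h7).1, not_le.mp h6⟩
  have h6 : 1 ≤ ∏ p ∈ S2.filter (fun p : ℕ => ¬ (p : ℝ) ≤ Yc M), (1 - 1 / (p : ℝ))⁻¹ :=
    SeMain_one_le fun p hp => hS2p p (Finset.mem_filter.mp hp).1
  have h7 : ∏ p ∈ S2, (1 - 1 / (p : ℝ))⁻¹ ≤ C * FY (Yc M) s := by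
    rw [← e3]
    exact mul_le_mul h4 h5 (by linarith) (by linarith)
  have h8 : 1 ≤ ∏ p ∈ S.filter (fun p : ℕ => (p : ℝ) ≤ y), (1 - 1 / (p : ℝ))⁻¹ :=
    SeMain_one_le fun p hp => hSp p (Finset.mem_filter.mp hp).1
  unfold FB
  rw [← hS, ← e2, ← e1, mul_comm]
  exact mul_le_mul_of_nonneg_right h7 (by linarith)

private theorem SeMain_prod_nonneg {S : Finset ℕ} (hS : ∀ p ∈ S, p.Prime) :
    0 ≤ ∏ p ∈ S, (1 - 1 / (p : ℝ)) := by
  refine Finset.prod_nonneg fun p hp => ?_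
  have h2 : (2 : ℝ) ≤ p := by exact_mod_cast (hS p hp).two_le
  have h3 : 1 / (p : ℝ) ≤ 1 / 2 := one_div_le_one_div_of_le (by norm_num) h2
  linarith

/-- `2^(#P) ≤ M^(1/5)` for a set of positive integers `≤ log M / 4` -/
private theorem SeMain_two_pow {M : ℝ} (hM : Real.exp 400 ≤ M) {P : Finset ℕ}
    (hP : ∀ p ∈ P, 0 < p ∧ (p : ℝ) ≤ Real.log M / 4) : (2 : ℝ) ^ P.card ≤ M ^ (1 / 5 : ℝ) := by
  have hlog := SeMain_log hM
  have hM1 := SeMain_M hM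
  have h1 : P ⊆ Finset.Icc 1 ⌊Real.log M / 4⌋₊ := by
    intro p hp
    exact Finset.mem_Icc.mpr ⟨(hP p hp).1, Nat.le_floor (hP p hp).2⟩
  have h2 : P.card ≤ ⌊Real.log M / 4⌋₊ := by
    have := Finset.card_le_card h1
    simpa using this
  have h3 : (P.card : ℝ) ≤ Real.log M / 4 :=
    (Nat.cast_le.mpr h2).trans (Nat.floor_le (by linarith))
  have h4 : Real.log 2 ≤ 4 / 5 := by
    have := Real.log_two_lt_d9
    linarith
  have h5 : (0 : ℝ) ≤ Real.log 2 := Real.log_nonneg (by norm_num)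
  rw [← Real.rpow_natCast, Real.rpow_def_of_pos (by norm_num), Real.rpow_def_of_pos (by linarith)]
  refine Real.exp_le_exp.mpr ?_
  calc Real.log 2 * P.card ≤ Real.log 2 * (Real.log M / 4) := mul_le_mul_of_nonneg_left h3 h5
    _ ≤ 4 / 5 * (Real.log M / 4) := mul_le_mul_of_nonneg_right h4 (by linarith)
    _ = Real.log M * (1 / 5) := by ring

open Classical in
theorem sum_large (T0 : ℝ) (hT0 : 1 ≤ T0) : ∃ C : ℝ, 1 ≤ C ∧ ∀ (A : ℤ) (B : ℕ), 0 < B →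
    ∀ (D : ℤ) (s : ℕ), 0 < s → ∀ (x M : ℝ), Real.exp 400 ≤ M →
      ∑ n ∈ nC A B D s x (2 * M), hs B (T0 * (max 1 M) ^ 3) (mm A B D n) ≤
        C * M * ∏ p ∈ s.primeFactors.filter (fun p => ¬ p ∣ B ∧ (p : ℝ) ≤ Real.log M / 4),
          (1 - 1 / (p : ℝ)) + C * M ^ (7 / 8 : ℝ) := by
  obtain ⟨C₁, hC₁, htail⟩ := sum_phi_tail
  obtain ⟨C₂, hC₂, hle⟩ := sum_phi_le
  refine ⟨9 * C₁ + 5 * (C₂ * T0), ?_, fun A B hB D s hs0 x M hM => ?_⟩
  · have : 0 ≤ C₂ * T0 := by positivity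
    linarith
  have hM1 := SeMain_M hM
  have hM0 : 0 < M := by linarith
  set P := s.primeFactors.filter (fun p => ¬ p ∣ B ∧ (p : ℝ) ≤ Real.log M / 4) with hP
  have hPp : ∀ p ∈ P, p.Prime := fun p hp =>
    Nat.prime_of_mem_primeFactors (Finset.mem_filter.mp hp).1
  set Q : ℝ := ∏ p ∈ P, (1 - 1 / (p : ℝ)) with hQ
  have hQ0 : 0 ≤ Q := SeMain_prod_nonneg hPp
  have h2P : (2 : ℝ) ^ P.card ≤ M ^ (1 / 5 : ℝ) := SeMain_two_pow hM fun p hp =>
    ⟨(hPp p hp).pos, (Finset.mem_filter.mp hp).2.2⟩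
  set E : ℝ := T0 * (max 1 M) ^ 3 with hE
  have hE' : E = T0 * M ^ 3 := by rw [hE, max_eq_right (by linarith)]
  have hE1 : 1 ≤ E := by
    rw [hE']
    have : 1 ≤ M ^ 3 := one_le_pow₀ (by linarith)
    nlinarith
  have hsq : 1 ≤ Real.sqrt M := by
    rw [Real.one_le_sqrt]; linarith
  have hsqM : Real.sqrt M ≤ M := by
    rw [Real.sqrt_le_left (by linarith)]
    nlinarith
  refine (swap_sum A B D s hs0 x (2 * M) E).trans ?_
  set I := (Finset.Icc 1 ⌊E⌋₊).filter (fun e : ℕ => Nat.Coprime e B ∧ Nat.Coprime e s) with hI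
  have hI1 : ∀ e ∈ I, 0 < e ∧ (e : ℝ) ≤ E ∧ Nat.Coprime e B ∧ Nat.Coprime e s := by
    intro e he
    obtain ⟨h1, h2⟩ := Finset.mem_filter.mp he
    obtain ⟨h3, h4⟩ := Finset.mem_Icc.mp h1
    exact ⟨h3, (Nat.cast_le.mpr h4).trans (Nat.floor_le (by linarith)), h2⟩
  rw [← Finset.sum_filter_add_sum_filter_not I (fun e : ℕ => (e : ℝ) ≤ Real.sqrt M)]
  -- small `e`
  have hsmall : ∑ e ∈ I.filter (fun e : ℕ => (e : ℝ) ≤ Real.sqrt M), (1 / (Nat.totient e : ℝ)) *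
      (((nC A B D s x (2 * M)).filter (fun n => (e : ℤ) ∣ mm A B D n)).card : ℝ) ≤
      5 * M * Q * C₁ + 2 * M ^ (1 / 5 : ℝ) * (C₂ * Real.sqrt M ^ (1 / 16 : ℝ)) := by
    have h1 : ∀ e ∈ I.filter (fun e : ℕ => (e : ℝ) ≤ Real.sqrt M), (1 / (Nat.totient e : ℝ)) *
        (((nC A B D s x (2 * M)).filter (fun n => (e : ℤ) ∣ mm A B D n)).card : ℝ) ≤
        5 * M * Q * (1 / ((e : ℝ) * Nat.totient e)) +
          2 * M ^ (1 / 5 : ℝ) * (1 / (Nat.totient e : ℝ)) := by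
      intro e he
      obtain ⟨h2, h3⟩ := Finset.mem_filter.mp he
      obtain ⟨h4, h5, h6, h7⟩ := hI1 e h2
      have he0 : (0 : ℝ) < e := by exact_mod_cast h4
      have hphi : (0 : ℝ) < Nat.totient e := by exact_mod_cast Nat.totient_pos.mpr h4
      have h8 := nC_count A B hB D s hs0 e h4 h6 h7 P (fun p hp =>
        ⟨hPp p hp, (Finset.mem_filter.mp hp).2.1,
          Nat.dvd_of_mem_primeFactors (Finset.mem_filter.mp hp).1⟩) x (2 * M) (by linarith)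
      have h9 : 2 * (2 * M) / e + 1 ≤ 5 * M / e := by
        rw [div_add_one he0.ne', div_le_div_iff_of_pos_right he0]
        linarith
      have h10 : (((nC A B D s x (2 * M)).filter (fun n => (e : ℤ) ∣ mm A B D n)).card : ℝ) ≤
          5 * M / e * Q + 2 * M ^ (1 / 5 : ℝ) := by
        refine h8.trans (add_le_add (mul_le_mul_of_nonneg_right h9 hQ0) ?_)
        rw [pow_succ]
        linarith
      calc _ ≤ (1 / (Nat.totient e : ℝ)) * (5 * M / e * Q + 2 * M ^ (1 / 5 : ℝ)) :=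
            mul_le_mul_of_nonneg_left h10 (by positivity)
        _ = _ := by field_simp
    refine (Finset.sum_le_sum h1).trans ?_
    rw [Finset.sum_add_distrib, ← Finset.mul_sum, ← Finset.mul_sum]
    refine add_le_add (mul_le_mul_of_nonneg_left ?_ (by positivity))
      (mul_le_mul_of_nonneg_left ?_ (by positivity))
    · have h2 := htail (I.filter (fun e : ℕ => (e : ℝ) ≤ Real.sqrt M)) 1 le_rfl (fun e he => by
        have h4 := (hI1 e (Finset.mem_filter.mp he).1).1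
        exact ⟨h4, by exact_mod_cast h4⟩)
      rwa [Real.one_rpow, mul_one] at h2
    · exact hle _ _ hsq (fun e he =>
        ⟨(hI1 e (Finset.mem_filter.mp he).1).1, (Finset.mem_filter.mp he).2⟩)
  -- large `e`
  have hlarge : ∑ e ∈ I.filter (fun e : ℕ => ¬ (e : ℝ) ≤ Real.sqrt M), (1 / (Nat.totient e : ℝ)) *
      (((nC A B D s x (2 * M)).filter (fun n => (e : ℤ) ∣ mm A B D n)).card : ℝ) ≤
      4 * M * (C₁ * Real.sqrt M ^ (-(1 / 4) : ℝ)) + 3 * (C₂ * E ^ (1 / 16 : ℝ)) := by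
    have h1 : ∀ e ∈ I.filter (fun e : ℕ => ¬ (e : ℝ) ≤ Real.sqrt M), (1 / (Nat.totient e : ℝ)) *
        (((nC A B D s x (2 * M)).filter (fun n => (e : ℤ) ∣ mm A B D n)).card : ℝ) ≤
        4 * M * (1 / ((e : ℝ) * Nat.totient e)) + 3 * (1 / (Nat.totient e : ℝ)) := by
      intro e he
      obtain ⟨h2, h3⟩ := Finset.mem_filter.mp he
      obtain ⟨h4, h5, h6, h7⟩ := hI1 e h2
      have he0 : (0 : ℝ) < e := by exact_mod_cast h4
      have hphi : (0 : ℝ) < Nat.totient e := by exact_mod_cast Nat.totient_pos.mpr h4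
      have h8 := nC_count A B hB D s hs0 e h4 h6 h7 ∅ (fun p hp => absurd hp (Finset.notMem_empty p))
        x (2 * M) (by linarith)
      rw [Finset.prod_empty, mul_one, Finset.card_empty, zero_add, pow_one] at h8
      calc _ ≤ (1 / (Nat.totient e : ℝ)) * (2 * (2 * M) / e + 1 + 2) :=
            mul_le_mul_of_nonneg_left h8 (by positivity)
        _ = _ := by field_simp; ring
    refine (Finset.sum_le_sum h1).trans ?_
    rw [Finset.sum_add_distrib, ← Finset.mul_sum, ← Finset.mul_sum]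
    refine add_le_add (mul_le_mul_of_nonneg_left ?_ (by positivity))
      (mul_le_mul_of_nonneg_left ?_ (by positivity))
    · exact htail _ _ hsq (fun e he =>
        ⟨(hI1 e (Finset.mem_filter.mp he).1).1, (not_le.mp (Finset.mem_filter.mp he).2).le⟩)
    · exact hle _ _ hE1 (fun e he => by
        obtain ⟨h4, h5, _⟩ := hI1 e (Finset.mem_filter.mp he).1
        exact ⟨h4, h5⟩)
  refine (add_le_add hsmall hlarge).trans ?_
  have hMp : ∀ a : ℝ, a ≤ 7 / 8 → M ^ a ≤ M ^ (7 / 8 : ℝ) := fun a ha =>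
    Real.rpow_le_rpow_of_exponent_le (by linarith) ha
  have hsqr : ∀ a : ℝ, Real.sqrt M ^ a = M ^ (a / 2) := by
    intro a
    rw [Real.sqrt_eq_rpow, ← Real.rpow_mul hM0.le]
    congr 1
    ring
  have b1 : 2 * M ^ (1 / 5 : ℝ) * (C₂ * Real.sqrt M ^ (1 / 16 : ℝ)) ≤
      2 * C₂ * M ^ (7 / 8 : ℝ) := by
    rw [hsqr]
    have : M ^ (1 / 5 : ℝ) * M ^ ((1 / 16 : ℝ) / 2) ≤ M ^ (7 / 8 : ℝ) := by
      rw [← Real.rpow_add hM0]
      exact hMp _ (by norm_num)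
    calc 2 * M ^ (1 / 5 : ℝ) * (C₂ * M ^ ((1 / 16 : ℝ) / 2))
        = 2 * C₂ * (M ^ (1 / 5 : ℝ) * M ^ ((1 / 16 : ℝ) / 2)) := by ring
      _ ≤ 2 * C₂ * M ^ (7 / 8 : ℝ) := mul_le_mul_of_nonneg_left this (by positivity)
  have b2 : 4 * M * (C₁ * Real.sqrt M ^ (-(1 / 4) : ℝ)) = 4 * C₁ * M ^ (7 / 8 : ℝ) := by
    rw [hsqr]
    have : M * M ^ ((-(1 / 4) : ℝ) / 2) = M ^ (7 / 8 : ℝ) := by
      nth_rewrite 1 [← Real.rpow_one M]
      rw [← Real.rpow_add hM0]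
      norm_num
    calc 4 * M * (C₁ * M ^ ((-(1 / 4) : ℝ) / 2)) = 4 * C₁ * (M * M ^ ((-(1 / 4) : ℝ) / 2)) := by
          ring
      _ = _ := by rw [this]
  have b3 : 3 * (C₂ * E ^ (1 / 16 : ℝ)) ≤ 3 * (C₂ * T0) * M ^ (7 / 8 : ℝ) := by
    rw [hE', Real.mul_rpow (by linarith) (by positivity), ← Real.rpow_natCast M 3,
      ← Real.rpow_mul hM0.le]
    have c1 : T0 ^ (1 / 16 : ℝ) ≤ T0 := by
      conv_rhs => rw [← Real.rpow_one T0]
      exact Real.rpow_le_rpow_of_exponent_le hT0 (by norm_num)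
    have c2 : M ^ (((3 : ℕ) : ℝ) * (1 / 16 : ℝ)) ≤ M ^ (7 / 8 : ℝ) := hMp _ (by norm_num)
    have c3 : T0 ^ (1 / 16 : ℝ) * M ^ (((3 : ℕ) : ℝ) * (1 / 16 : ℝ)) ≤ T0 * M ^ (7 / 8 : ℝ) :=
      mul_le_mul c1 c2 (by positivity) (by positivity)
    calc 3 * (C₂ * (T0 ^ (1 / 16 : ℝ) * M ^ (((3 : ℕ) : ℝ) * (1 / 16 : ℝ))))
        ≤ 3 * (C₂ * (T0 * M ^ (7 / 8 : ℝ))) := by gcongr
      _ = _ := by ring
  have b4 : C₂ * M ^ (7 / 8 : ℝ) ≤ C₂ * T0 * M ^ (7 / 8 : ℝ) := by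
    refine mul_le_mul_of_nonneg_right ?_ (by positivity)
    nlinarith
  have b5 : 0 ≤ M * Q := by positivity
  have b6 : 0 ≤ M ^ (7 / 8 : ℝ) := by positivity
  have b7 : 0 ≤ C₁ * (M * Q) := by positivity
  have b8 : 0 ≤ C₂ * T0 * (M * Q) := by positivity
  have b9 : 0 ≤ C₁ * M ^ (7 / 8 : ℝ) := by positivity
  rw [b2]
  nlinarith

end Vale.Agent.P028E
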