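import Vale.Agent.Lib.P028.E.Defs
import Vale.Agent.Lib.P028.Arith

/-!
P2a: sums over `1/φ(e)` and products over primes.

`phi_lower`: `Vale.Agent.P028.inv_le_prod` and `Vale.Agent.P028.sg_pow_le_w 1`
(`sg n ≤ C n^(1/32)`, `φ(n)/n = ∏ (1-1/p) ≥ (2 sg n)⁻¹`).
`sum_phi_tail`: `1/(e φ(e)) ≤ C e^(-63/32) ≤ C X^(-1/4) e^(-5/4)` for `e > X`.
`sum_phi_le`: `1/φ(e) ≤ C e^(-31/32) ≤ C X^(1/16) e^(-33/32)` for `e ≤ X`.
-/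

open Finset MeasureTheory

namespace Vale.Agent.P028E

private lemma se_sum_le (s : ℝ) (hs : s < -1) (S : Finset ℕ) :
    ∑ e ∈ S, (e : ℝ) ^ s ≤ ∑' n : ℕ, (n : ℝ) ^ s :=
  (Real.summable_nat_rpow.2 hs).sum_le_tsum S
    (fun n _ => Real.rpow_nonneg (Nat.cast_nonneg n) s)

private lemma se_tsum_nonneg (s : ℝ) : 0 ≤ ∑' n : ℕ, (n : ℝ) ^ s :=
  tsum_nonneg fun n => Real.rpow_nonneg (Nat.cast_nonneg n) s

theorem phi_lower : ∃ C : ℝ, 1 ≤ C ∧ ∀ n : ℕ, 0 < n →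
    1 / (Nat.totient n : ℝ) ≤ C * (n : ℝ) ^ (-(31 / 32) : ℝ) := by
  obtain ⟨C, hC1, hC⟩ := Vale.Agent.P028.sg_pow_le_w 1
  refine ⟨2 * C, by linarith, fun n hn => ?_⟩
  have hn0 : (0 : ℝ) < n := by exact_mod_cast hn
  have h1 : (Nat.totient n : ℝ) = n * ∏ p ∈ n.primeFactors, (1 - 1 / (p : ℝ)) := by
    have h := Nat.totient_eq_mul_prod_factors n
    have h2 : ((Nat.totient n : ℚ) : ℝ) = ((n * ∏ p ∈ n.primeFactors, (1 - (p : ℚ)⁻¹) : ℚ) : ℝ) := by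
      rw [h]
    push_cast at h2
    simpa [one_div] using h2
  have h2 := Vale.Agent.P028.inv_le_prod (n := n) hn
  have h3 := hC n hn
  rw [pow_one] at h3
  have hsg := Vale.Agent.P028.sg_pos (n := n) hn
  have hw : 0 < Vale.Agent.P028.w n := Vale.Agent.P028.w_pos hn
  have h4 : (n : ℝ) * (2 * (C * Vale.Agent.P028.w n))⁻¹ ≤ Nat.totient n := by
    rw [h1]
    refine mul_le_mul_of_nonneg_left (le_trans ?_ h2) hn0.le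
    exact inv_anti₀ (by positivity) (by linarith)
  have hpos : 0 < (n : ℝ) * (2 * (C * Vale.Agent.P028.w n))⁻¹ := by positivity
  calc 1 / (Nat.totient n : ℝ) ≤ 1 / ((n : ℝ) * (2 * (C * Vale.Agent.P028.w n))⁻¹) :=
        one_div_le_one_div_of_le hpos h4
    _ = 2 * C * (Vale.Agent.P028.w n * (n : ℝ)⁻¹) := by
        field_simp
    _ = 2 * C * (n : ℝ) ^ (-(31 / 32) : ℝ) := by
        congr 1
        unfold Vale.Agent.P028.w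
        rw [← Real.rpow_neg_one (n : ℝ), ← Real.rpow_add hn0]
        norm_num

theorem sum_phi_tail : ∃ C : ℝ, 1 ≤ C ∧ ∀ (S : Finset ℕ) (X : ℝ), 1 ≤ X →
    (∀ e ∈ S, 0 < e ∧ X ≤ (e : ℝ)) →
      ∑ e ∈ S, 1 / ((e : ℝ) * Nat.totient e) ≤ C * X ^ (-(1 / 4) : ℝ) := by
  obtain ⟨C, hC1, hC⟩ := phi_lower
  have hT := se_tsum_nonneg (-(55 / 32))
  refine ⟨C * (1 + ∑' n : ℕ, (n : ℝ) ^ (-(55 / 32) : ℝ)), ?_, fun S X hX hS => ?_⟩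
  · nlinarith
  have hX0 : 0 < X := by linarith
  have hXp : 0 < X ^ (-(1 / 4) : ℝ) := Real.rpow_pos_of_pos hX0 _
  have h1 : ∀ e ∈ S, 1 / ((e : ℝ) * Nat.totient e) ≤
      C * X ^ (-(1 / 4) : ℝ) * (e : ℝ) ^ (-(55 / 32) : ℝ) := by
    intro e he
    obtain ⟨he0, heX⟩ := hS e he
    have he0' : (0 : ℝ) < e := by exact_mod_cast he0
    have h2 := hC e he0
    have h3 : (e : ℝ)⁻¹ * (e : ℝ) ^ (-(31 / 32) : ℝ) =
        (e : ℝ) ^ (-(1 / 4) : ℝ) * (e : ℝ) ^ (-(55 / 32) : ℝ) := by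
      rw [← Real.rpow_neg_one, ← Real.rpow_add he0', ← Real.rpow_add he0']
      norm_num
    have h4 : (e : ℝ) ^ (-(1 / 4) : ℝ) ≤ X ^ (-(1 / 4) : ℝ) :=
      Real.rpow_le_rpow_of_nonpos hX0 heX (by norm_num)
    have h5 : 0 < (e : ℝ) ^ (-(55 / 32) : ℝ) := Real.rpow_pos_of_pos he0' _
    calc 1 / ((e : ℝ) * Nat.totient e) = (e : ℝ)⁻¹ * (1 / (Nat.totient e : ℝ)) := by
          rw [one_div, mul_inv, one_div]
      _ ≤ (e : ℝ)⁻¹ * (C * (e : ℝ) ^ (-(31 / 32) : ℝ)) :=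
          mul_le_mul_of_nonneg_left h2 (by positivity)
      _ = C * ((e : ℝ) ^ (-(1 / 4) : ℝ) * (e : ℝ) ^ (-(55 / 32) : ℝ)) := by
          rw [← h3]; ring
      _ ≤ C * (X ^ (-(1 / 4) : ℝ) * (e : ℝ) ^ (-(55 / 32) : ℝ)) := by gcongr
      _ = _ := by ring
  have h6 := se_sum_le (-(55 / 32)) (by norm_num) S
  have hCX : 0 < C * X ^ (-(1 / 4) : ℝ) := by positivity
  calc ∑ e ∈ S, 1 / ((e : ℝ) * Nat.totient e) ≤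
        ∑ e ∈ S, C * X ^ (-(1 / 4) : ℝ) * (e : ℝ) ^ (-(55 / 32) : ℝ) := Finset.sum_le_sum h1
    _ = C * X ^ (-(1 / 4) : ℝ) * ∑ e ∈ S, (e : ℝ) ^ (-(55 / 32) : ℝ) := by rw [Finset.mul_sum]
    _ ≤ C * X ^ (-(1 / 4) : ℝ) * (1 + ∑' n : ℕ, (n : ℝ) ^ (-(55 / 32) : ℝ)) :=
        mul_le_mul_of_nonneg_left (by linarith) hCX.le
    _ = _ := by ring

theorem sum_phi_le : ∃ C : ℝ, 1 ≤ C ∧ ∀ (S : Finset ℕ) (X : ℝ), 1 ≤ X →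
    (∀ e ∈ S, 0 < e ∧ (e : ℝ) ≤ X) →
      ∑ e ∈ S, 1 / (Nat.totient e : ℝ) ≤ C * X ^ (1 / 16 : ℝ) := by
  obtain ⟨C, hC1, hC⟩ := phi_lower
  have hT := se_tsum_nonneg (-(33 / 32))
  refine ⟨C * (1 + ∑' n : ℕ, (n : ℝ) ^ (-(33 / 32) : ℝ)), ?_, fun S X hX hS => ?_⟩
  · nlinarith
  have hX0 : 0 < X := by linarith
  have hXp : 0 < X ^ (1 / 16 : ℝ) := Real.rpow_pos_of_pos hX0 _
  have h1 : ∀ e ∈ S, 1 / (Nat.totient e : ℝ) ≤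
      C * X ^ (1 / 16 : ℝ) * (e : ℝ) ^ (-(33 / 32) : ℝ) := by
    intro e he
    obtain ⟨he0, heX⟩ := hS e he
    have he0' : (0 : ℝ) < e := by exact_mod_cast he0
    have h2 := hC e he0
    have h3 : (e : ℝ) ^ (-(31 / 32) : ℝ) =
        (e : ℝ) ^ (1 / 16 : ℝ) * (e : ℝ) ^ (-(33 / 32) : ℝ) := by
      rw [← Real.rpow_add he0']
      norm_num
    have h4 : (e : ℝ) ^ (1 / 16 : ℝ) ≤ X ^ (1 / 16 : ℝ) :=
      Real.rpow_le_rpow he0'.le heX (by norm_num)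
    have h5 : 0 < (e : ℝ) ^ (-(33 / 32) : ℝ) := Real.rpow_pos_of_pos he0' _
    calc 1 / (Nat.totient e : ℝ) ≤ C * (e : ℝ) ^ (-(31 / 32) : ℝ) := h2
      _ = C * ((e : ℝ) ^ (1 / 16 : ℝ) * (e : ℝ) ^ (-(33 / 32) : ℝ)) := by rw [← h3]
      _ ≤ C * (X ^ (1 / 16 : ℝ) * (e : ℝ) ^ (-(33 / 32) : ℝ)) := by gcongr
      _ = _ := by ring
  have h6 := se_sum_le (-(33 / 32)) (by norm_num) S
  have hCX : 0 < C * X ^ (1 / 16 : ℝ) := by positivity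
  calc ∑ e ∈ S, 1 / (Nat.totient e : ℝ) ≤
        ∑ e ∈ S, C * X ^ (1 / 16 : ℝ) * (e : ℝ) ^ (-(33 / 32) : ℝ) := Finset.sum_le_sum h1
    _ = C * X ^ (1 / 16 : ℝ) * ∑ e ∈ S, (e : ℝ) ^ (-(33 / 32) : ℝ) := by rw [Finset.mul_sum]
    _ ≤ C * X ^ (1 / 16 : ℝ) * (1 + ∑' n : ℕ, (n : ℝ) ^ (-(33 / 32) : ℝ)) :=
        mul_le_mul_of_nonneg_left (by linarith) hCX.le
    _ = _ := by ring

end Vale.Agent.P028E
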